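import Vale.Agent.P372.Bdl.B1

/-! From protocols to the test (the same as `Proto.lean`, over the bundled files). -/

open Matrix Kronecker
open scoped ComplexOrder MatrixOrder

set_option linter.unusedSectionVars false

namespace Vale.Agent.P372.PC

section pre

variable {E : Type} [Fintype E] [DecidableEq E]

theorem re_tr_nonneg {X : Matrix E E ℂ} (h : X.PosSemidef) : 0 ≤ X.trace.re :=
  (Complex.le_def.mp h.trace_nonneg).1

theorem re_tr_mul_nonneg {X Y : Matrix E E ℂ} (hX : X.PosSemidef) (hY : Y.PosSemidef) :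
    0 ≤ (X * Y).trace.re := by
  obtain ⟨C, rfl⟩ := exists_eq_conjTranspose_mul_self hX
  have : (Cᴴ * C * Y).trace = (C * Y * Cᴴ).trace := by
    rw [Matrix.mul_assoc, trace_mul_comm]
  rw [this]
  exact re_tr_nonneg (hY.mul_mul_conjTranspose_same C)

end pre

section fid

variable {E G : Type} [Fintype E] [DecidableEq E] [Fintype G] [DecidableEq G]

theorem exists_abs {T : Matrix E E ℂ} (hT : T.IsHermitian) :
    ∃ P V : Matrix E E ℂ, Contr P ∧ T * P = V ∧ P * T = V ∧ (V - T).PosSemidef ∧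
      (V + T).PosSemidef := by
  have h0 : fcalc hT (fun _ => 0) = 0 := by
    have := fcalc_sub hT (fun x => x) (fun x => x)
    rw [fcalc_id, sub_self] at this
    rw [this]
    congr 1
    funext x
    ring
  have hP : (fcalc hT Real.sign).IsHermitian := fcalc_isHermitian hT _
  have hPP : (1 - fcalc hT Real.sign * fcalc hT Real.sign).PosSemidef := by
    rw [fcalc_mul, ← fcalc_one hT, fcalc_sub]
    refine fcalc_posSemidef hT fun i => ?_
    rcases Real.sign_apply_eq (hT.eigenvalues i) with h | h | h <;> rw [h] <;> norm_num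
  refine ⟨fcalc hT Real.sign, fcalc hT (fun x => |x|), ⟨?_, ?_⟩, ?_, ?_, ?_, ?_⟩
  · rw [hP.eq]
    exact hPP
  · rw [hP.eq]
    exact hPP
  · rw [self_mul_fcalc]
    refine fcalc_congr hT fun i => ?_
    rcases lt_trichotomy (hT.eigenvalues i) 0 with h | h | h
    · rw [Real.sign_of_neg h, abs_of_neg h]; ring
    · rw [h]; simp
    · rw [Real.sign_of_pos h, abs_of_pos h]; ring
  · rw [fcalc_mul_self]
    refine fcalc_congr hT fun i => ?_
    rcases lt_trichotomy (hT.eigenvalues i) 0 with h | h | h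
    · rw [Real.sign_of_neg h, abs_of_neg h]; ring
    · rw [h]; simp
    · rw [Real.sign_of_pos h, abs_of_pos h]; ring
  · have h1 : fcalc hT (fun x => |x|) - T = fcalc hT (fun x => |x| - x) := by
      rw [← fcalc_sub hT (fun x => |x|) (fun x => x), fcalc_id]
    rw [h1]
    refine fcalc_posSemidef hT fun i => ?_
    exact sub_nonneg.mpr (le_abs_self _)
  · have h1 : fcalc hT (fun x => |x|) + T = fcalc hT (fun x => x - (0 - |x|)) := by
      rw [← fcalc_sub hT (fun x => x) (fun x => 0 - |x|), ← fcalc_sub hT (fun _ => 0) (fun x => |x|),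
        h0, fcalc_id]
      abel
    rw [h1]
    refine fcalc_posSemidef hT fun i => ?_
    have := neg_abs_le (hT.eigenvalues i)
    linarith only [this]

/-- The Powers-Størmer inequality. -/
theorem powers_stormer {Q₀ Q₁ : Matrix E E ℂ} (h₀ : Q₀.PosSemidef) (h₁ : Q₁.PosSemidef) :
    ((Q₀ - Q₁) * (Q₀ - Q₁)).trace.re ≤ traceNorm (Q₀ * Q₀ - Q₁ * Q₁) := by
  obtain ⟨P, V, hP, hTP, hPT, hV1, hV2⟩ := exists_abs (h₀.isHermitian.sub h₁.isHermitian)
  set T := Q₀ - Q₁ with hT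
  have e1 : (P * (Q₀ * Q₀ - Q₁ * Q₁)).trace = (V * (Q₀ + Q₁)).trace := by
    have h2 : Q₀ * Q₀ - Q₁ * Q₁ = (1 / 2 : ℂ) • ((Q₀ + Q₁) * T + T * (Q₀ + Q₁)) := by
      rw [hT]
      have : (Q₀ + Q₁) * (Q₀ - Q₁) + (Q₀ - Q₁) * (Q₀ + Q₁) = (2 : ℂ) • (Q₀ * Q₀ - Q₁ * Q₁) := by
        rw [two_smul]
        noncomm_ring
      rw [this, smul_smul]
      norm_num
    rw [h2, Matrix.mul_smul, trace_smul, Matrix.mul_add, trace_add]
    have h3 : (P * ((Q₀ + Q₁) * T)).trace = (V * (Q₀ + Q₁)).trace := by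
      rw [← Matrix.mul_assoc, trace_mul_comm, ← Matrix.mul_assoc, hTP]
    have h4 : (P * (T * (Q₀ + Q₁))).trace = (V * (Q₀ + Q₁)).trace := by
      rw [← Matrix.mul_assoc, hPT]
    rw [h3, h4, smul_eq_mul]
    ring
  have e2 : (V * (Q₀ + Q₁)).trace.re = (T * T).trace.re + ((V + T) * Q₁).trace.re +
      ((V - T) * Q₀).trace.re := by
    have : V * (Q₀ + Q₁) = T * T + (V + T) * Q₁ + (V - T) * Q₀ := by
      rw [hT]
      noncomm_ring
    rw [this]
    simp only [trace_add, Complex.add_re]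
  have e3 := re_tr_mul_nonneg hV2 h₁
  have e4 := re_tr_mul_nonneg hV1 h₀
  have e5 := norm_trace_mul_le hP (Q₀ * Q₀ - Q₁ * Q₁)
  rw [e1] at e5
  have e6 := Complex.re_le_norm (V * (Q₀ + Q₁)).trace
  linarith only [e2, e3, e4, e5, e6]

/-- Square root with pseudo-inverse. -/
theorem exists_sqrt_pinv {X : Matrix E E ℂ} (hX : X.PosSemidef) :
    ∃ Q Q' S : Matrix E E ℂ, Q.PosSemidef ∧ Q'.PosSemidef ∧ (1 - S).PosSemidef ∧ Q * Q = X ∧
      Q' * X = Q ∧ X * Q' = Q ∧ Q' * X * Q' = S := by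
  have h0 := hX.eigenvalues_nonneg
  refine ⟨fcalc hX.1 (fun x => √x), fcalc hX.1 (fun x => (√x)⁻¹),
    fcalc hX.1 (fun x => if x = 0 then 0 else 1),
    fcalc_posSemidef _ fun i => Real.sqrt_nonneg _,
    fcalc_posSemidef _ fun i => inv_nonneg.mpr (Real.sqrt_nonneg _), ?_, ?_, ?_, ?_, ?_⟩
  · rw [← fcalc_one hX.1, fcalc_sub]
    refine fcalc_posSemidef _ fun i => ?_
    split_ifs <;> norm_num
  · rw [fcalc_mul]
    exact fcalc_eq_self _ fun i => Real.mul_self_sqrt (h0 i)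
  · rw [fcalc_mul_self]
    refine fcalc_congr _ fun i => ?_
    by_cases h : √(hX.1.eigenvalues i) = 0
    · rw [h, (Real.sqrt_eq_zero (h0 i)).mp h]
      simp
    · rw [inv_mul_eq_iff_eq_mul₀ h]
      exact (Real.mul_self_sqrt (h0 i)).symm
  · rw [self_mul_fcalc]
    refine fcalc_congr _ fun i => ?_
    by_cases h : √(hX.1.eigenvalues i) = 0
    · rw [h, (Real.sqrt_eq_zero (h0 i)).mp h]
      simp
    · rw [mul_inv_eq_iff_eq_mul₀ h]
      exact (Real.mul_self_sqrt (h0 i)).symm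
  · rw [fcalc_mul_self, fcalc_mul]
    refine fcalc_congr _ fun i => ?_
    by_cases h : hX.1.eigenvalues i = 0
    · simp [h]
    · have h2 : √(hX.1.eigenvalues i) ≠ 0 := by
        rw [Ne, Real.sqrt_eq_zero (h0 i)]
        exact h
      rw [if_neg h, mul_comm, ← mul_assoc, ← mul_inv, Real.mul_self_sqrt (h0 i),
        inv_mul_cancel₀ h]

/-- Lower bound of the fidelity by the trace distance. -/
theorem fidelity_ge (Φ₀ Φ₁ : Matrix G E ℂ) :
    ((Φ₀ᴴ * Φ₀).trace.re + (Φ₁ᴴ * Φ₁).trace.re - traceNorm (Φ₀ᴴ * Φ₀ - Φ₁ᴴ * Φ₁)) / 2 ≤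
      traceNorm (Φ₀ * Φ₁ᴴ) := by
  obtain ⟨Q₀, Q₀', S₀, hQ₀, hQ₀', hS₀, h0a, h0b, h0c, h0d⟩ :=
    exists_sqrt_pinv (posSemidef_conjTranspose_mul_self Φ₀)
  obtain ⟨Q₁, Q₁', S₁, hQ₁, hQ₁', hS₁, h1a, h1b, h1c, h1d⟩ :=
    exists_sqrt_pinv (posSemidef_conjTranspose_mul_self Φ₁)
  have key : ∀ (Φ : Matrix G E ℂ) (Q' S : Matrix E E ℂ), Q'.PosSemidef → (1 - S).PosSemidef →
      Q' * (Φᴴ * Φ) * Q' = S → (1 - (Φ * Q')ᴴ * (Φ * Q')).PosSemidef := by
    intro Φ Q' S h1 h2 h3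
    have : (Φ * Q')ᴴ * (Φ * Q') = S := by
      rw [conjTranspose_mul, h1.isHermitian.eq, ← h3]
      simp only [Matrix.mul_assoc]
    rw [this]
    exact h2
  have k0 := key Φ₀ Q₀' S₀ hQ₀' hS₀ h0d
  have k1 := key Φ₁ Q₁' S₁ hQ₁' hS₁ h1d
  set U₀ := Φ₀ * Q₀' with hU₀
  set U₁ := Φ₁ * Q₁' with hU₁
  -- a contraction times its adjoint in the other order
  have swap : ∀ U : Matrix G E ℂ, (1 - Uᴴ * U).PosSemidef → (1 - U * Uᴴ).PosSemidef := by
    intro U hU
    let _ : Invertible (1 : Matrix G G ℂ) := invertibleOne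
    let _ : Invertible (1 : Matrix E E ℂ) := invertibleOne
    have h1 : (fromBlocks (1 : Matrix G G ℂ) U Uᴴ (1 : Matrix E E ℂ)).PosSemidef := by
      refine (PosDef.fromBlocks₁₁ U 1 PosDef.one).mpr ?_
      rw [inv_one, Matrix.mul_one]
      exact hU
    have h2 := (PosDef.fromBlocks₂₂ 1 U PosDef.one).mp h1
    rw [inv_one, Matrix.mul_one] at h2
    exact h2
  have hprod : ∀ U V : Matrix G E ℂ, (1 - Uᴴ * U).PosSemidef → (1 - Vᴴ * V).PosSemidef →
      (1 - (U * Vᴴ) * (U * Vᴴ)ᴴ).PosSemidef := by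
    intro U V hU hV
    have : 1 - (U * Vᴴ) * (U * Vᴴ)ᴴ = (1 - U * Uᴴ) + U * (1 - Vᴴ * V) * Uᴴ := by
      rw [conjTranspose_mul, conjTranspose_conjTranspose, Matrix.mul_sub, Matrix.sub_mul,
        Matrix.mul_one]
      simp only [Matrix.mul_assoc]
      abel
    rw [this]
    exact (swap U hU).add (hV.mul_mul_conjTranspose_same U)
  have hW : Contr (U₁ * U₀ᴴ) := by
    refine ⟨hprod U₁ U₀ k1 k0, ?_⟩
    have h3 := hprod U₀ U₁ k0 k1
    have h4 : (U₁ * U₀ᴴ)ᴴ * (U₁ * U₀ᴴ) = (U₀ * U₁ᴴ) * (U₀ * U₁ᴴ)ᴴ := by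
      simp only [conjTranspose_mul, conjTranspose_conjTranspose]
    rw [h4]
    exact h3
  have h1 := norm_trace_mul_le hW (Φ₀ * Φ₁ᴴ)
  have h2 : (U₁ * U₀ᴴ * (Φ₀ * Φ₁ᴴ)).trace = (Q₀ * Q₁).trace := by
    have e0 : U₀ᴴ * Φ₀ = Q₀ := by
      rw [hU₀, conjTranspose_mul, hQ₀'.isHermitian.eq, Matrix.mul_assoc, h0b]
    have e1 : Φ₁ᴴ * U₁ = Q₁ := by
      rw [hU₁, ← Matrix.mul_assoc, h1c]
    calc (U₁ * U₀ᴴ * (Φ₀ * Φ₁ᴴ)).trace = (U₁ * ((U₀ᴴ * Φ₀) * Φ₁ᴴ)).trace := by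
          simp only [Matrix.mul_assoc]
      _ = ((U₀ᴴ * Φ₀) * (Φ₁ᴴ * U₁)).trace := by
          rw [trace_mul_comm, Matrix.mul_assoc]
      _ = _ := by rw [e0, e1]
  rw [h2] at h1
  have h3 := powers_stormer hQ₀ hQ₁
  rw [h0a, h1a] at h3
  have h4 : ((Q₀ - Q₁) * (Q₀ - Q₁)).trace.re = (Φ₀ᴴ * Φ₀).trace.re + (Φ₁ᴴ * Φ₁).trace.re -
      2 * (Q₀ * Q₁).trace.re := by
    rw [Matrix.sub_mul, Matrix.mul_sub, Matrix.mul_sub, h0a, h1a, trace_sub, trace_sub, trace_sub,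
      trace_mul_comm Q₁ Q₀]
    simp only [Complex.sub_re]
    ring
  have h5 := Complex.re_le_norm (Q₀ * Q₁).trace
  linarith only [h1, h3, h4, h5]

end fid

theorem half_bits {ℓ : ℕ} (i₀ : Fin ℓ) (b : Bool) :
    ∑ k : Fin ℓ → Bool, (if k i₀ = b then ((Fintype.card (Fin ℓ → Bool) : ℂ))⁻¹ else 0) = 1 / 2 := by
  have hc : (Fintype.card (Fin ℓ → Bool) : ℂ) ≠ 0 := by
    exact_mod_cast Fintype.card_ne_zero
  let e : (Fin ℓ → Bool) ≃ (Fin ℓ → Bool) := Function.Involutive.toPerm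
    (fun k => Function.update k i₀ (!k i₀)) (by
      intro k
      funext j
      by_cases h : j = i₀
      · subst h
        simp
      · simp [Function.update_of_ne h])
  have h1 : ∑ k : Fin ℓ → Bool, (if k i₀ = b then ((Fintype.card (Fin ℓ → Bool) : ℂ))⁻¹ else 0) =
      ∑ k : Fin ℓ → Bool, (if k i₀ = !b then ((Fintype.card (Fin ℓ → Bool) : ℂ))⁻¹ else 0) := by
    refine Fintype.sum_equiv e _ _ fun k => ?_
    have : e k i₀ = !k i₀ := by
      change Function.update k i₀ (!k i₀) i₀ = _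
      simp
    rw [this]
    cases k i₀ <;> cases b <;> simp
  have h2 : ∑ k : Fin ℓ → Bool, (if k i₀ = b then ((Fintype.card (Fin ℓ → Bool) : ℂ))⁻¹ else 0) +
      ∑ k : Fin ℓ → Bool, (if k i₀ = !b then ((Fintype.card (Fin ℓ → Bool) : ℂ))⁻¹ else 0) = 1 := by
    rw [← Finset.sum_add_distrib]
    have : ∀ k : Fin ℓ → Bool, ((if k i₀ = b then ((Fintype.card (Fin ℓ → Bool) : ℂ))⁻¹ else 0) +
        (if k i₀ = !b then ((Fintype.card (Fin ℓ → Bool) : ℂ))⁻¹ else 0)) =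
        ((Fintype.card (Fin ℓ → Bool) : ℂ))⁻¹ := by
      intro k
      cases k i₀ <;> cases b <;> simp
    simp only [this, Finset.sum_const, Finset.card_univ, nsmul_eq_mul]
    exact mul_inv_cancel₀ hc
  rw [← h1] at h2
  linear_combination h2 / 2

variable {A B E : Type} [Fintype A] [DecidableEq A] [Fintype B] [DecidableEq B]
  [Fintype E] [DecidableEq E]

theorem traceNorm_transpose (X : Matrix E E ℂ) : traceNorm Xᵀ = traceNorm X := by
  have h : ∀ X : Matrix E E ℂ, traceNorm Xᵀ ≤ traceNorm X := by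
    intro X
    refine traceNorm_le_of_forall fun W hW => ?_
    have hW' : Contr Wᵀ := by
      refine ⟨?_, ?_⟩
      · have : (1 - Wᵀ * Wᵀᴴ) = (1 - Wᴴ * W)ᵀ := by
          rw [transpose_sub, transpose_one, transpose_mul, conjTranspose_transpose_eq_transpose_conjTranspose]
        rw [this]
        exact hW.2.transpose
      · have : (1 - Wᵀᴴ * Wᵀ) = (1 - W * Wᴴ)ᵀ := by
          rw [transpose_sub, transpose_one, transpose_mul, conjTranspose_transpose_eq_transpose_conjTranspose]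
        rw [this]
        exact hW.1.transpose
    have h2 : (W * Xᵀ).trace = (Wᵀ * X).trace := by
      rw [← trace_transpose, transpose_mul, transpose_transpose, trace_mul_comm]
    rw [h2]
    exact norm_trace_mul_le hW' X
  refine le_antisymm (h X) ?_
  have := h Xᵀ
  rwa [transpose_transpose] at this

theorem eve_eq' (Ψ : Matrix (A × B) E ℂ) (M : Matrix A A ℂ) (N : Matrix B B ℂ) :
    eve Ψ M N = (Ψᴴ * (M ⊗ₖ N) * Ψ)ᵀ := by
  ext e e'
  change (∑ p : A × B, ∑ q : A × B, M q.1 p.1 * N q.2 p.2 * (Ψ p e * star (Ψ q e'))) = _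
  simp only [transpose_apply, mul_apply, conjTranspose_apply, kroneckerMap_apply,
    Finset.sum_mul]
  refine Finset.sum_congr rfl fun p _ => Finset.sum_congr rfl fun q _ => ?_
  ring

theorem weight_eve (Ψ : Matrix (A × B) E ℂ) (X : Matrix A A ℂ) (Y : Matrix B B ℂ) :
    weight (Ψ * Ψᴴ) X Y = (eve Ψ (Xᴴ * X) (Yᴴ * Y)).trace.re := by
  change ((X ⊗ₖ Y) * (Ψ * Ψᴴ) * (X ⊗ₖ Y)ᴴ).trace.re = _
  rw [eve_eq', trace_transpose, mul_kronecker_mul, ← conjTranspose_kronecker]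
  congr 1
  calc ((X ⊗ₖ Y) * (Ψ * Ψᴴ) * (X ⊗ₖ Y)ᴴ).trace = (((X ⊗ₖ Y) * Ψ) * (Ψᴴ * (X ⊗ₖ Y)ᴴ)).trace := by
        simp only [Matrix.mul_assoc]
    _ = ((Ψᴴ * (X ⊗ₖ Y)ᴴ) * ((X ⊗ₖ Y) * Ψ)).trace := trace_mul_comm _ _
    _ = _ := by simp only [Matrix.mul_assoc]

/-- Fidelity lower bound in terms of Eve's operators. -/
theorem fidelity_eve_ge (Ψ : Matrix (A × B) E ℂ) (X₀ X₁ : Matrix A A ℂ) (Y₀ Y₁ : Matrix B B ℂ) :
    ((eve Ψ (X₀ᴴ * X₀) (Y₀ᴴ * Y₀)).trace.re + (eve Ψ (X₁ᴴ * X₁) (Y₁ᴴ * Y₁)).trace.re -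
      traceNorm (eve Ψ (X₀ᴴ * X₀) (Y₀ᴴ * Y₀) - eve Ψ (X₁ᴴ * X₁) (Y₁ᴴ * Y₁))) / 2 ≤
      traceNorm ((X₀ ⊗ₖ Y₀) * (Ψ * Ψᴴ) * (X₁ ⊗ₖ Y₁)ᴴ) := by
  have h := fidelity_ge ((X₀ ⊗ₖ Y₀) * Ψ) ((X₁ ⊗ₖ Y₁) * Ψ)
  have e : ∀ (X : Matrix A A ℂ) (Y : Matrix B B ℂ), ((X ⊗ₖ Y) * Ψ)ᴴ * ((X ⊗ₖ Y) * Ψ) =
      (eve Ψ (Xᴴ * X) (Yᴴ * Y))ᵀ := by
    intro X Y
    rw [eve_eq', transpose_transpose, mul_kronecker_mul, ← conjTranspose_kronecker,
      conjTranspose_mul]
    simp only [Matrix.mul_assoc]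
  rw [e, e, ← transpose_sub, traceNorm_transpose, trace_transpose, trace_transpose,
    conjTranspose_mul] at h
  have e2 : (X₀ ⊗ₖ Y₀) * Ψ * (Ψᴴ * (X₁ ⊗ₖ Y₁)ᴴ) = (X₀ ⊗ₖ Y₀) * (Ψ * Ψᴴ) * (X₁ ⊗ₖ Y₁)ᴴ := by
    simp only [Matrix.mul_assoc]
  rwa [e2] at h

theorem num_step {c e F p00 p01 p10 p11 T : ℝ} (hc : 0 < c) (he : e ≤ 1 / 64 * c)
    (a1 : -e ≤ p00 - c / 2 ∧ p00 - c / 2 ≤ e) (a2 : -e ≤ p11 - c / 2 ∧ p11 - c / 2 ≤ e)
    (b1 : p01 ≤ e) (b2 : p10 ≤ e) (n2 : 0 ≤ p11) (n3 : 0 ≤ p01) (n4 : 0 ≤ p10)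
    (hT : T ≤ 2 * e) (hF : (p00 + p11 - T) / 2 ≤ F) : p00 * p01 * p10 * p11 < F ^ 4 := by
  have hFc : c * (1 / 4) ≤ F := by (clear * - hc he a1 a2 hT hF; linarith)
  have hp00 : p00 ≤ c := by linarith only [he, a1]
  have hp11 : p11 ≤ c := by linarith only [he, a2]
  have hp01 : p01 ≤ c / 64 := by linarith only [he, b1]
  have hp10 : p10 ≤ c / 64 := by linarith only [he, b2]
  have h1 : p00 * p01 ≤ c * (c / 64) := mul_le_mul hp00 hp01 n3 hc.le
  have h2 : p10 * p11 ≤ (c / 64) * c := mul_le_mul hp10 hp11 n2 (by linarith only [hc])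
  have h3 : (p00 * p01) * (p10 * p11) ≤ (c * (c / 64)) * ((c / 64) * c) :=
    mul_le_mul h1 h2 (mul_nonneg n4 n2) (by (clear * - hc; positivity))
  have hF4 : (c * (1 / 4)) ^ 4 ≤ F ^ 4 := pow_le_pow_left₀ (by positivity) hFc 4
  have h5 : 0 < c ^ 4 := by positivity
  calc p00 * p01 * p10 * p11 = (p00 * p01) * (p10 * p11) := by ring
    _ ≤ (c * (c / 64)) * ((c / 64) * c) := h3
    _ = c ^ 4 * (1 / 4096) := by ring
    _ < c ^ 4 * (1 / 256) := by
        refine mul_lt_mul_of_pos_left (by norm_num) h5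
    _ = (c * (1 / 4)) ^ 4 := by ring
    _ ≤ F ^ 4 := hF4

theorem tn_zero : traceNorm (0 : Matrix E E ℂ) = 0 := by
  simpa using traceNorm_smul (0 : ℂ) (0 : Matrix E E ℂ)

/-- A protocol with small error gives, for some transcript and a bit of the key, operators of the
two parties for which the test succeeds. -/
theorem test_of_keyError (Ψ : Matrix (A × B) E ℂ) {ℓ : ℕ} (i₀ : Fin ℓ) {T : Type} [Fintype T]
    (f : T → (Fin ℓ → Bool) → Matrix A A ℂ) (g : T → (Fin ℓ → Bool) → Matrix B B ℂ)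
    (hA : ∀ t k, (f t k).PosSemidef) (hB : ∀ t k, (g t k).PosSemidef)
    (h : KeyError f g Ψ (1 / 64)) :
    ∃ (t : T) (X : Bool → Matrix A A ℂ) (Y : Bool → Matrix B B ℂ),
      (∀ b, (X b)ᴴ * X b = ∑ k, if k i₀ = b then f t k else 0) ∧
      (∀ b, (Y b)ᴴ * Y b = ∑ k, if k i₀ = b then g t k else 0) ∧
      weight (Ψ * Ψᴴ) (X false) (Y false) * weight (Ψ * Ψᴴ) (X false) (Y true) *
        weight (Ψ * Ψᴴ) (X true) (Y false) * weight (Ψ * Ψᴴ) (X true) (Y true) <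
      traceNorm ((X false ⊗ₖ Y false) * (Ψ * Ψᴴ) * (X true ⊗ₖ Y true)ᴴ) ^ 4 := by
  obtain ⟨σ, hσ, hσ1, hsum⟩ := h
  -- the error and the weight of a transcript
  set err : T → ℝ := fun t => ∑ k, ∑ l, traceNorm (eve Ψ (f t k) (g t l) -
      if k = l then ((Fintype.card (Fin ℓ → Bool) : ℂ)⁻¹) • σ t else 0) with herr
  have herr0 : ∀ t, 0 ≤ err t := fun t =>
    Finset.sum_nonneg fun k _ => Finset.sum_nonneg fun l _ => traceNorm_nonneg _
  have hc0 : ∀ t, 0 ≤ (σ t).trace.re := fun t => re_tr_nonneg (hσ t)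
  have hc1 : ∑ t, (σ t).trace.re = 1 := by
    rw [← Complex.re_sum, hσ1, Complex.one_re]
  obtain ⟨t, ht0, ht⟩ : ∃ t, 0 < (σ t).trace.re ∧ err t ≤ (1 / 64) * (σ t).trace.re := by
    by_contra hcon
    push Not at hcon
    have h1 : ∑ t, (1 / 64) * (σ t).trace.re < ∑ t, err t := by
      refine Finset.sum_lt_sum (fun t _ => ?_) ?_
      · rcases (hc0 t).eq_or_lt with h | h
        · rw [← h, mul_zero]
          exact herr0 t
        · exact (hcon t h).le
      · by_contra hno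
        push Not at hno
        have : ∀ t, (σ t).trace.re = 0 := by
          intro t
          by_contra hne
          have hpos : 0 < (σ t).trace.re := lt_of_le_of_ne (hc0 t) (Ne.symm hne)
          exact absurd (hcon t hpos) (not_lt.mpr (hno t (Finset.mem_univ _)))
        simp only [this, Finset.sum_const_zero] at hc1
        norm_num at hc1
    rw [← Finset.mul_sum, hc1] at h1
    linarith only [hsum, h1]
  set c := (σ t).trace.re with hc
  -- the effects for one bit of the key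
  let M : Bool → Matrix A A ℂ := fun b => ∑ k, if k i₀ = b then f t k else 0
  let N : Bool → Matrix B B ℂ := fun b => ∑ k, if k i₀ = b then g t k else 0
  have hM : ∀ b, (M b).PosSemidef := fun b => posSemidef_sum _ fun k _ => by
    split_ifs
    · exact hA t k
    · exact PosSemidef.zero
  have hN : ∀ b, (N b).PosSemidef := fun b => posSemidef_sum _ fun k _ => by
    split_ifs
    · exact hB t k
    · exact PosSemidef.zero
  have hR : ∀ b b', eve Ψ (M b) (N b') = ∑ k, ∑ l, if k i₀ = b ∧ l i₀ = b' then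
      eve Ψ (f t k) (g t l) else 0 := by
    intro b b'
    change eve Ψ (∑ k, if k i₀ = b then f t k else 0)
      (∑ k, if k i₀ = b' then g t k else 0) = _
    rw [eve_sum_left]
    refine Finset.sum_congr rfl fun k _ => ?_
    rw [eve_sum_right]
    refine Finset.sum_congr rfl fun l _ => ?_
    by_cases h1 : k i₀ = b
    · by_cases h2 : l i₀ = b'
      · rw [if_pos h1, if_pos h2, if_pos ⟨h1, h2⟩]
      · have h3 : ¬ (k i₀ = b ∧ l i₀ = b') := fun h => h2 h.2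
        rw [if_neg h2, if_neg h3, eve_zero_right]
    · have h3 : ¬ (k i₀ = b ∧ l i₀ = b') := fun h => h1 h.1
      rw [if_neg h1, if_neg h3, eve_zero_left]
  have hS : ∀ b b', ∑ k : Fin ℓ → Bool, ∑ l : Fin ℓ → Bool, (if k i₀ = b ∧ l i₀ = b' then
      (if k = l then ((Fintype.card (Fin ℓ → Bool) : ℂ)⁻¹) • σ t else 0) else 0) =
      if b = b' then (1 / 2 : ℂ) • σ t else 0 := by
    intro b b'
    have h1 : ∀ k : Fin ℓ → Bool, ∑ l : Fin ℓ → Bool, (if k i₀ = b ∧ l i₀ = b' then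
      (if k = l then ((Fintype.card (Fin ℓ → Bool) : ℂ)⁻¹) • σ t else 0) else 0) =
      (if b = b' then (if k i₀ = b then ((Fintype.card (Fin ℓ → Bool) : ℂ)⁻¹) else 0) else 0) •
        σ t := by
      intro k
      rw [Finset.sum_eq_single k]
      · by_cases h2 : k i₀ = b
        · subst h2
          by_cases h3 : k i₀ = b'
          · simp only [h3, and_self, ↓reduceIte]
          · simp [h3]
        · simp [h2]
      · intro l _ hl
        simp [hl.symm]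
      · intro h
        exact absurd (Finset.mem_univ k) h
    simp only [h1]
    rw [← Finset.sum_smul]
    by_cases hb : b = b'
    · simp only [hb, if_true]
      rw [half_bits]
    · simp [hb]
  have hT : ∀ b b', traceNorm (eve Ψ (M b) (N b') - if b = b' then (1 / 2 : ℂ) • σ t else 0) ≤
      err t := by
    intro b b'
    rw [hR, ← hS, ← Finset.sum_sub_distrib]
    refine (traceNorm_sum_le _ _).trans (Finset.sum_le_sum fun k _ => ?_)
    rw [← Finset.sum_sub_distrib]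
    refine (traceNorm_sum_le _ _).trans (Finset.sum_le_sum fun l _ => ?_)
    by_cases h1 : k i₀ = b ∧ l i₀ = b'
    · rw [if_pos h1, if_pos h1]
    · rw [if_neg h1, if_neg h1, sub_zero, tn_zero]
      exact traceNorm_nonneg _
  have hpsd : ∀ b b', (eve Ψ (M b) (N b')).PosSemidef := fun b b' =>
    eve_posSemidef Ψ (hM b) (hN b')
  have hoff : ∀ b b', b ≠ b' → (eve Ψ (M b) (N b')).trace.re ≤ err t := by
    intro b b' hb
    have := hT b b'
    rw [if_neg hb, sub_zero, traceNorm_of_posSemidef (hpsd b b')] at this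
    exact this
  have hdiag : ∀ b, |(eve Ψ (M b) (N b)).trace.re - c / 2| ≤ err t := by
    intro b
    have h1 := hT b b
    rw [if_pos rfl] at h1
    have h2 := (norm_trace_le (eve Ψ (M b) (N b) - (1 / 2 : ℂ) • σ t)).trans h1
    refine le_trans ?_ ((Complex.abs_re_le_norm _).trans h2)
    rw [trace_sub, trace_smul, Complex.sub_re, smul_eq_mul]
    have : ((1 / 2 : ℂ) * (σ t).trace).re = c / 2 := by
      have h3 : (1 / 2 : ℂ) = (((1 / 2 : ℝ)) : ℂ) := by push_cast; rfl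
      rw [h3, Complex.re_ofReal_mul, hc]
      ring
    rw [this]
  have hdd : traceNorm (eve Ψ (M false) (N false) - eve Ψ (M true) (N true)) ≤ 2 * err t := by
    have h1 := hT false false
    have h2 := hT true true
    rw [if_pos rfl] at h1 h2
    have h3 : eve Ψ (M false) (N false) - eve Ψ (M true) (N true) =
        (eve Ψ (M false) (N false) - (1 / 2 : ℂ) • σ t) -
        (eve Ψ (M true) (N true) - (1 / 2 : ℂ) • σ t) := by abel
    rw [h3]
    refine (traceNorm_sub_le _ _).trans ?_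
    linarith only [h1, h2]
  choose X hX using fun b => exists_eq_conjTranspose_mul_self (hM b)
  choose Y hY using fun b => exists_eq_conjTranspose_mul_self (hN b)
  refine ⟨t, X, Y, fun b => (hX b).symm, fun b => (hY b).symm, ?_⟩
  simp only [weight_eve, ← hX, ← hY]
  have hF := fidelity_eve_ge Ψ (X false) (X true) (Y false) (Y true)
  simp only [← hX, ← hY] at hF
  set F := traceNorm ((X false ⊗ₖ Y false) * (Ψ * Ψᴴ) * (X true ⊗ₖ Y true)ᴴ)
  exact num_step ht0 ht (abs_le.mp (hdiag false)) (abs_le.mp (hdiag true))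
    (hoff false true (by simp)) (hoff true false (by simp))
    (re_tr_nonneg (hpsd true true)) (re_tr_nonneg (hpsd false true))
    (re_tr_nonneg (hpsd true false)) hdd hF

theorem copies_mul (n : ℕ) (Ψ : Matrix (A × B) E ℂ) :
    copies n Ψ * (copies n Ψ)ᴴ = tpow n (Ψ * Ψᴴ) := by
  ext p q
  change _ = ∏ i, (Ψ * Ψᴴ) (p.1 i, p.2 i) (q.1 i, q.2 i)
  rw [Matrix.mul_apply]
  have h1 : ∀ z : Fin n → E, copies n Ψ p z * (copies n Ψ)ᴴ z q =
      ∏ i, (Ψ (p.1 i, p.2 i) (z i) * star (Ψ (q.1 i, q.2 i) (z i))) := by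
    intro z
    rw [conjTranspose_apply]
    change (∏ i, Ψ (p.1 i, p.2 i) (z i)) * star (∏ i, Ψ (q.1 i, q.2 i) (z i)) = _
    rw [star_prod, Finset.prod_mul_distrib]
  simp only [h1]
  have h2 := Finset.prod_univ_sum (fun _ : Fin n => (Finset.univ : Finset E))
    (fun i z => Ψ (p.1 i, p.2 i) z * star (Ψ (q.1 i, q.2 i) z))
  simp only [Fintype.piFinset_univ] at h2
  rw [← h2]
  refine Finset.prod_congr rfl fun i _ => ?_
  rw [Matrix.mul_apply]
  rfl

theorem locc_psd' {K : Type} [Fintype K] {A B T : Type} {f : T → K → Matrix A A ℂ}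
    {g : T → K → Matrix B B ℂ} (h : LOCC K A B T f g) : Finite A → Finite B →
    (∀ t k, (f t k).PosSemidef) ∧ ∀ t k, (g t k).PosSemidef := by
  induction h with
  | output P Q hP hP1 hQ hQ1 => exact fun _ _ => ⟨fun _ k => hP k, fun _ k => hQ k⟩
  | alice A' M R V hV T f g h ih =>
    exact fun _ hB => ⟨fun t k => posSemidef_sum _ fun r _ =>
      ((ih t.1 inferInstance hB).1 t.2 k).conjTranspose_mul_mul_same _,
      fun t k => (ih t.1 inferInstance hB).2 t.2 k⟩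
  | bob B' M R V hV T f g h ih =>
    exact fun hA _ => ⟨fun t k => (ih t.1 hA inferInstance).1 t.2 k,
      fun t k => posSemidef_sum _ fun r _ =>
        ((ih t.1 hA inferInstance).2 t.2 k).conjTranspose_mul_mul_same _⟩

theorem locc_psd {K T : Type} [Fintype K] {f : T → K → Matrix A A ℂ} {g : T → K → Matrix B B ℂ}
    (h : LOCC K A B T f g) : (∀ t k, (f t k).PosSemidef) ∧ ∀ t k, (g t k).PosSemidef :=
  locc_psd' h inferInstance inferInstance

end Vale.Agent.P372.PC
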