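import Vale.Agent.P372.TestDefs

open Matrix

namespace Vale.Agent.P372

/-- The partial transpose (on Bob's system). -/
def pTrans {A B : Type} (ρ : Matrix (A × B) (A × B) ℂ) : Matrix (A × B) (A × B) ℂ :=
  fun p q => ρ (p.1, q.2) (q.1, p.2)

/-- The operator `M` on `n` systems with bases `X × Y` (a letter and a shield) is block diagonal
with respect to the letters of the systems in `S`: its matrix elements between basis vectors with
different letters in some system of `S` vanish. -/
def LetterDiag {X Y : Type} {n : ℕ} (S : Set (Fin n))
    (M : Matrix (Fin n → X × Y) (Fin n → X × Y) ℂ) : Prop :=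
  ∀ p q, (∃ i ∈ S, (p i).1 ≠ (q i).1) → M p q = 0

end Vale.Agent.P372
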