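import Vale.Agent.P372.R2.helper492.CondP

/-! Block diagonal matrices are spanned by well conditioned positive operators. -/

open Matrix Kronecker
open scoped ComplexOrder MatrixOrder

set_option linter.unusedSectionVars false

namespace Vale.Agent.P372.PC

variable {A : Type} [Fintype A] [DecidableEq A]

/-- The operator `|u⟩⟨u|` with `u = e_a + ω e_b`. -/
def ph (a b : A) (ω : ℂ) : Matrix A A ℂ :=
  vecMulVec ((Pi.single a 1 : A → ℂ) + ω • Pi.single b 1)
    (star ((Pi.single a 1 : A → ℂ) + ω • Pi.single b 1))

theorem ph_psd (a b : A) (ω : ℂ) : (ph a b ω).PosSemidef := posSemidef_vecMulVec_self_star _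

theorem ph_eq (a b : A) {ω : ℂ} (h : ω * star ω = 1) : ph a b ω =
    single a a 1 + single b b 1 + ω • single b a 1 + star ω • single a b 1 := by
  ext p q
  simp only [ph, vecMulVec_apply, Pi.add_apply, Pi.smul_apply, Pi.star_apply, smul_eq_mul,
    Matrix.add_apply, Matrix.smul_apply, star_add, star_mul', single_apply, Pi.single_apply]
  have s1 : ∀ (a b : A), star (if a = b then (1 : ℂ) else 0) = if a = b then 1 else 0 := by
    intro a b
    split_ifs <;> simp
  simp only [s1]
  have e1 : ∀ (a b x y : A), (if a = x ∧ b = y then (1 : ℂ) else 0) =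
      (if x = a then 1 else 0) * (if y = b then 1 else 0) := by
    intro a b x y
    by_cases h1 : a = x
    · by_cases h2 : b = y
      · simp [h1, h2]
      · have : ¬ y = b := fun h => h2 h.symm
        simp [h2, this]
    · have : ¬ x = a := fun h => h1 h.symm
      simp [h1, this]
  simp only [e1]
  linear_combination ((if p = b then 1 else 0) * (if q = b then (1 : ℂ) else 0)) * h

theorem phase (s : Fin 4) : Complex.I ^ (s : ℕ) * star (Complex.I ^ (s : ℕ)) = 1 := by
  rw [RCLike.star_def, map_pow, Complex.conj_I, ← mul_pow]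
  simp

theorem phase' (s : Fin 4) : -Complex.I ^ (s : ℕ) * star (-Complex.I ^ (s : ℕ)) = 1 := by
  rw [star_neg, neg_mul_neg]
  exact phase s

theorem ph_recon (a b : A) (x : Matrix A A ℂ) :
    ∑ s : Fin 4, (x * (((1 / 16 : ℝ) : ℂ) • ph a b (Complex.I ^ (s : ℕ)) -
      ((1 / 16 : ℝ) : ℂ) • ph a b (-Complex.I ^ (s : ℕ)))).trace • ph a b (Complex.I ^ (s : ℕ)) =
    ((1 / 2 : ℝ) : ℂ) • (x a b • single a b 1 + x b a • single b a 1) := by
  have t1 : ∀ (i j : A), (x * single i j (1 : ℂ)).trace = x j i := by
    intro i j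
    rw [Matrix.trace_mul_comm, Matrix.trace_single_mul]
    simp
  have h1 : ∀ s : Fin 4, (x * (((1 / 16 : ℝ) : ℂ) • ph a b (Complex.I ^ (s : ℕ)) -
      ((1 / 16 : ℝ) : ℂ) • ph a b (-Complex.I ^ (s : ℕ)))).trace =
      ((1 / 8 : ℝ) : ℂ) * (Complex.I ^ (s : ℕ) * x a b + star (Complex.I ^ (s : ℕ)) * x b a) := by
    intro s
    rw [ph_eq a b (phase s), ph_eq a b (phase' s), star_neg]
    simp only [Matrix.mul_sub, Matrix.mul_add, Matrix.mul_smul, trace_sub, trace_add, trace_smul,
      t1, smul_eq_mul]
    push_cast
    ring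
  simp only [h1]
  simp only [fun s => ph_eq a b (phase s)]
  rw [Fin.sum_univ_four]
  ext p q
  simp only [Matrix.add_apply, Matrix.smul_apply, smul_eq_mul]
  simp only [Fin.isValue, Fin.val_zero, pow_zero, Fin.val_one, pow_one, Fin.val_two, star_one,
    star_pow, RCLike.star_def, Complex.conj_I]
  have h3 : ((3 : Fin 4) : ℕ) = 3 := rfl
  rw [h3]
  have hI : Complex.I ^ 2 = -1 := Complex.I_sq
  have hI3 : Complex.I ^ 3 = -Complex.I := by
    rw [pow_succ, hI]; ring
  have hI4 : Complex.I ^ 4 = 1 := by
    rw [pow_succ, hI3]; rw [neg_mul, Complex.I_mul_I, neg_neg]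
  have hI6 : Complex.I ^ 6 = -1 := by
    rw [show (6 : ℕ) = 4 + 2 from rfl, pow_add, hI4, hI, one_mul]
  push_cast
  ring_nf
  simp only [hI, hI3, hI4, hI6]
  ring

/-- The positive operators which span the block diagonal matrices. -/
def bv (c : A → ℕ) : A ⊕ ((A × A) × Fin 4) → Matrix A A ℂ
  | .inl a => single a a 1
  | .inr x => if x.1.1 ≠ x.1.2 ∧ c x.1.1 = c x.1.2 then ph x.1.1 x.1.2 (Complex.I ^ (x.2 : ℕ)) else 0

noncomputable def bp (c : A → ℕ) : A ⊕ ((A × A) × Fin 4) → Matrix A A ℂ
  | .inl a => single a a 1
  | .inr x => if x.1.1 ≠ x.1.2 ∧ c x.1.1 = c x.1.2 then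
      ((1 / 16 : ℝ) : ℂ) • ph x.1.1 x.1.2 (Complex.I ^ (x.2 : ℕ)) else 0

noncomputable def bn (c : A → ℕ) : A ⊕ ((A × A) × Fin 4) → Matrix A A ℂ
  | .inl _ => 0
  | .inr x => if x.1.1 ≠ x.1.2 ∧ c x.1.1 = c x.1.2 then
      ((1 / 16 : ℝ) : ℂ) • ph x.1.1 x.1.2 (-Complex.I ^ (x.2 : ℕ)) else 0

theorem single_psd' (a : A) : (single a a (1 : ℂ)).PosSemidef := by
  have h : single a a (1 : ℂ) = vecMulVec (Pi.single a 1 : A → ℂ) (star (Pi.single a 1 : A → ℂ)) := by
    rw [single_eq_single_vecMulVec_single]
    congr 1
    rw [Pi.star_def]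
    funext j
    by_cases h : j = a
    · subst h
      simp
    · simp [h]
  rw [h]
  exact posSemidef_vecMulVec_self_star _

theorem bv_psd (c : A → ℕ) (y) : (bv c y).PosSemidef := by
  rcases y with a | x
  · exact single_psd' a
  · simp only [bv]
    split_ifs
    · exact ph_psd _ _ _
    · exact PosSemidef.zero

theorem bp_psd (c : A → ℕ) (y) : (bp c y).PosSemidef := by
  rcases y with a | x
  · exact single_psd' a
  · simp only [bp]
    split_ifs
    · exact (ph_psd _ _ _).smul (Complex.zero_le_real.mpr (by norm_num))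
    · exact PosSemidef.zero

theorem bn_psd (c : A → ℕ) (y) : (bn c y).PosSemidef := by
  rcases y with a | x
  · exact PosSemidef.zero
  · simp only [bn]
    split_ifs
    · exact (ph_psd _ _ _).smul (Complex.zero_le_real.mpr (by norm_num))
    · exact PosSemidef.zero

theorem block_recon (c : A → ℕ) {x : Matrix A A ℂ} (hx : ∀ a b, c a ≠ c b → x a b = 0) :
    ∑ y, (x * (bp c y - bn c y)).trace • bv c y = x := by
  have t1 : ∀ (i j : A), (x * single i j (1 : ℂ)).trace = x j i := by
    intro i j
    rw [Matrix.trace_mul_comm, Matrix.trace_single_mul]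
    simp
  rw [Fintype.sum_sum_type, Fintype.sum_prod_type, Fintype.sum_prod_type]
  have h1 : ∀ a b, ∑ s : Fin 4, (x * (bp c (.inr ((a, b), s)) - bn c (.inr ((a, b), s)))).trace •
      bv c (.inr ((a, b), s)) = if a ≠ b ∧ c a = c b then
        ((1 / 2 : ℝ) : ℂ) • (x a b • single a b 1 + x b a • single b a 1) else 0 := by
    intro a b
    by_cases h : a ≠ b ∧ c a = c b
    · rw [if_pos h, ← ph_recon]
      simp only [bp, bn, bv, if_pos h]
    · rw [if_neg h]
      simp only [bp, bn, bv, if_neg h, smul_zero, Finset.sum_const_zero]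
  simp only [h1]
  have h2 : ∀ a, (x * (bp c (.inl a) - bn c (.inl a))).trace • bv c (.inl a) =
      x a a • single a a 1 := by
    intro a
    simp only [bp, bn, bv, sub_zero, t1]
  simp only [h2]
  ext p q
  rw [Matrix.add_apply, Matrix.sum_apply, Matrix.sum_apply]
  simp only [Matrix.sum_apply, Matrix.smul_apply, single_apply, smul_eq_mul]
  have h3 : ∑ a, ∑ b, (if a ≠ b ∧ c a = c b then
        ((1 / 2 : ℝ) : ℂ) • (x a b • single a b (1 : ℂ) + x b a • single b a 1) else 0 :
          Matrix A A ℂ) p q = if p ≠ q ∧ c p = c q then x p q else 0 := by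
    have h4 : ∀ a b, (if a ≠ b ∧ c a = c b then
        ((1 / 2 : ℝ) : ℂ) • (x a b • single a b (1 : ℂ) + x b a • single b a 1) else 0 :
          Matrix A A ℂ) p q =
        (if a = p ∧ b = q then (if p ≠ q ∧ c p = c q then (1 / 2 : ℂ) * x p q else 0) else 0) +
        (if b = p ∧ a = q then (if p ≠ q ∧ c p = c q then (1 / 2 : ℂ) * x p q else 0) else 0) := by
      intro a b
      by_cases h : a ≠ b ∧ c a = c b
      · rw [if_pos h]
        simp only [Matrix.smul_apply, Matrix.add_apply, single_apply, smul_eq_mul]
        by_cases h5 : a = p ∧ b = q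
        · obtain ⟨rfl, rfl⟩ := h5
          have h6 : ¬ (b = a ∧ a = b) := fun h' => h.1 h'.2
          rw [if_neg h6]
          simp [h]
        · by_cases h7 : b = p ∧ a = q
          · obtain ⟨rfl, rfl⟩ := h7
            simp [h.1.symm, h.2]
          · simp [h5, h7]
      · rw [if_neg h]
        have h5 : ¬ (a = p ∧ b = q ∧ (p ≠ q ∧ c p = c q)) := by
          rintro ⟨rfl, rfl, h'⟩
          exact h h'
        have h6 : ¬ (b = p ∧ a = q ∧ (p ≠ q ∧ c p = c q)) := by
          rintro ⟨rfl, rfl, h'⟩
          exact h ⟨h'.1.symm, h'.2.symm⟩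
        have h7 : ∀ (P Q R : Prop) [Decidable P] [Decidable Q] [Decidable R] (z : ℂ),
            ¬ (P ∧ Q ∧ R) → (if P ∧ Q then (if R then z else 0) else 0) = 0 := by
          intro P Q R _ _ _ z hh
          by_cases h8 : P ∧ Q
          · rw [if_pos h8, if_neg (fun hr => hh ⟨h8.1, h8.2, hr⟩)]
          · rw [if_neg h8]
        rw [h7 _ _ _ _ h5, h7 _ _ _ _ h6, add_zero]
        rfl
    simp only [h4, Finset.sum_add_distrib]
    have h8 : ∀ z : ℂ, ∑ a : A, ∑ b : A, (if a = p ∧ b = q then z else 0) = z := by
      intro z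
      rw [Finset.sum_eq_single p, Finset.sum_eq_single q]
      · simp
      · intro b _ hb
        simp [hb]
      · simp
      · intro a _ ha
        simp [ha]
      · simp
    have h9 : ∀ z : ℂ, ∑ a : A, ∑ b : A, (if b = p ∧ a = q then z else 0) = z := by
      intro z
      rw [Finset.sum_comm]
      exact h8 z
    rw [h8, h9]
    split_ifs
    · ring
    · ring
  rw [h3]
  by_cases hpq : p = q
  · subst hpq
    rw [Finset.sum_eq_single p]
    · simp
    · intro a _ ha
      simp [ha]
    · simp
  · rw [Finset.sum_eq_zero]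
    · by_cases hc : c p = c q
      · simp [hpq, hc]
      · simp [hc, hx p q hc]
    · intro a _
      rw [if_neg, mul_zero]
      rintro ⟨rfl, h⟩
      exact hpq h

theorem block_bound (c : A → ℕ) {M : ℕ}
    (hc : ∀ j, (Finset.univ.filter fun a => c a = j).card ≤ M) :
    (((2 * M - 1 : ℝ) : ℂ) • 1 - ∑ y, (bv c y).trace • (bp c y + bn c y)).PosSemidef := by
  rw [Fintype.sum_sum_type, Fintype.sum_prod_type, Fintype.sum_prod_type]
  have h1 : ∀ a b, ∑ s : Fin 4, (bv c (.inr ((a, b), s))).trace •
      (bp c (.inr ((a, b), s)) + bn c (.inr ((a, b), s))) = if a ≠ b ∧ c a = c b then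
        (single a a (1 : ℂ) + single b b 1) else 0 := by
    intro a b
    by_cases h : a ≠ b ∧ c a = c b
    · rw [if_pos h]
      simp only [bp, bn, bv, if_pos h]
      have h2 : ∀ s : Fin 4, (ph a b (Complex.I ^ (s : ℕ))).trace = 2 := by
        intro s
        rw [ph_eq a b (phase s)]
        simp only [trace_add, trace_smul]
        rw [trace_single_eq_same, trace_single_eq_same, trace_single_eq_of_ne _ _ _ h.1,
          trace_single_eq_of_ne _ _ _ h.1.symm]
        simp
        norm_num
      have h3 : ∀ s : Fin 4, ((1 / 16 : ℝ) : ℂ) • ph a b (Complex.I ^ (s : ℕ)) +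
          ((1 / 16 : ℝ) : ℂ) • ph a b (-Complex.I ^ (s : ℕ)) =
          ((1 / 8 : ℝ) : ℂ) • (single a a (1 : ℂ) + single b b 1) := by
        intro s
        rw [ph_eq a b (phase s), ph_eq a b (phase' s), star_neg]
        ext p q
        simp only [Matrix.add_apply, Matrix.smul_apply, smul_eq_mul]
        push_cast
        ring
      simp only [h2, h3, Finset.sum_const, Finset.card_univ, Fintype.card_fin]
      ext p q
      simp only [Matrix.smul_apply, Matrix.add_apply, smul_eq_mul, nsmul_eq_mul]
      push_cast
      ring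
    · rw [if_neg h]
      simp only [bp, bn, bv, if_neg h, smul_zero, add_zero, Finset.sum_const_zero]
  simp only [h1]
  have h2 : ∀ a, (bv c (.inl a)).trace • (bp c (.inl a) + bn c (.inl a)) = single a a (1 : ℂ) := by
    intro a
    simp only [bp, bn, bv, add_zero]
    rw [trace_single_eq_same, one_smul]
  simp only [h2]
  have h3 : ((((2 * M - 1 : ℝ)) : ℂ) • 1 - (∑ a, single a a (1 : ℂ) +
      ∑ a, ∑ b, if a ≠ b ∧ c a = c b then (single a a (1 : ℂ) + single b b 1) else 0)) =
      diagonal fun a => (((2 * M - 2 * (Finset.univ.filter fun b => c b = c a).card : ℝ)) : ℂ) := by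
    ext p q
    rw [Matrix.sub_apply, Matrix.add_apply, Matrix.sum_apply, Matrix.sum_apply, Matrix.smul_apply]
    simp only [Matrix.sum_apply]
    by_cases hpq : p = q
    · subst hpq
      rw [one_apply_eq, diagonal_apply_eq]
      have e1 : ∑ a : A, (single a a (1 : ℂ) : Matrix A A ℂ) p p = 1 := by
        rw [Finset.sum_eq_single p]
        · simp
        · intro a _ ha
          simp [ha]
        · simp
      have e2 : ∑ a : A, ∑ b : A, (if a ≠ b ∧ c a = c b then
          (single a a (1 : ℂ) + single b b 1) else 0 : Matrix A A ℂ) p p =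
          2 * (((Finset.univ.filter fun b => c b = c p).card : ℂ) - 1) := by
        have e3 : ∀ a b : A, (if a ≠ b ∧ c a = c b then
          (single a a (1 : ℂ) + single b b 1) else 0 : Matrix A A ℂ) p p =
          (if a = p then (if b ≠ p ∧ c b = c p then (1 : ℂ) else 0) else 0) +
          (if b = p then (if a ≠ p ∧ c a = c p then (1 : ℂ) else 0) else 0) := by
          intro a b
          by_cases h : a ≠ b ∧ c a = c b
          · rw [if_pos h, Matrix.add_apply, single_apply, single_apply]
            by_cases ha : a = p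
            · subst ha
              have hb : b ≠ a := h.1.symm
              simp [hb, h.2]
            · by_cases hb : b = p
              · subst hb
                simp [ha, h.2]
              · simp [ha, hb]
          · rw [if_neg h, Matrix.zero_apply]
            by_cases ha : a = p
            · subst ha
              by_cases hb : b = a
              · subst hb
                simp
              · have : ¬ c b = c a := fun h' => h ⟨Ne.symm hb, h'.symm⟩
                simp [hb, this]
            · by_cases hb : b = p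
              · subst hb
                have : ¬ c a = c b := fun h' => h ⟨ha, h'⟩
                simp [ha, this]
              · simp [ha, hb]
        simp only [e3, Finset.sum_add_distrib]
        have e4 : ∑ b : A, (if b ≠ p ∧ c b = c p then (1 : ℂ) else 0) =
            ((Finset.univ.filter fun b => c b = c p).card : ℂ) - 1 := by
          have e5 : ∀ b : A, (if b ≠ p ∧ c b = c p then (1 : ℂ) else 0) =
              (if c b = c p then 1 else 0) - (if b = p then 1 else 0) := by
            intro b
            by_cases hb : b = p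
            · subst hb
              simp
            · simp [hb]
          simp only [e5, Finset.sum_sub_distrib]
          rw [Finset.sum_ite_eq', if_pos (Finset.mem_univ p), Finset.sum_boole]
        have e6 : ∑ a : A, ∑ b : A, (if a = p then (if b ≠ p ∧ c b = c p then (1 : ℂ) else 0) else 0) =
            ∑ b : A, (if b ≠ p ∧ c b = c p then (1 : ℂ) else 0) := by
          rw [Finset.sum_eq_single p]
          · simp
          · intro a _ ha
            simp [ha]
          · simp
        have e7 : ∑ a : A, ∑ b : A, (if b = p then (if a ≠ p ∧ c a = c p then (1 : ℂ) else 0) else 0) =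
            ∑ b : A, (if b ≠ p ∧ c b = c p then (1 : ℂ) else 0) := by
          rw [Finset.sum_comm]
          exact e6
        rw [e6, e7, e4]
        ring
      rw [e1, e2]
      push_cast
      simp only [smul_eq_mul]
      ring
    · rw [one_apply_ne hpq, diagonal_apply_ne _ hpq]
      have e1 : ∑ a : A, (single a a (1 : ℂ) : Matrix A A ℂ) p q = 0 := by
        refine Finset.sum_eq_zero fun a _ => ?_
        rw [single_apply, if_neg]
        rintro ⟨rfl, h⟩
        exact hpq h
      have e2 : ∑ a : A, ∑ b : A, (if a ≠ b ∧ c a = c b then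
          (single a a (1 : ℂ) + single b b 1) else 0 : Matrix A A ℂ) p q = 0 := by
        refine Finset.sum_eq_zero fun a _ => Finset.sum_eq_zero fun b _ => ?_
        split_ifs
        · rw [Matrix.add_apply, single_apply, single_apply, if_neg, if_neg, add_zero]
          · rintro ⟨rfl, h⟩
            exact hpq h
          · rintro ⟨rfl, h⟩
            exact hpq h
        · rfl
      rw [e1, e2]
      simp
  rw [h3]
  refine PosSemidef.diagonal fun a => Complex.zero_le_real.mpr ?_
  have : ((Finset.univ.filter fun b => c b = c a).card : ℝ) ≤ M := by exact_mod_cast hc (c a)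
  linarith only [this]

end Vale.Agent.P372.PC
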