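import Vale.Agent.P372.R2.helper492.WPieces
import Vale.Agent.P372.R2.helper492.LetterDefs

/-! A PPT entangled state on `ℂ^4 ⊗ ℂ^4`: rational data. -/

open Matrix Kronecker
open scoped ComplexOrder MatrixOrder

set_option linter.unusedSectionVars false

namespace Vale.Agent.P372.PC

section cast

variable {E : Type} [Fintype E] [DecidableEq E]

theorem rat_nonneg {c : ℚ} (hc : 0 ≤ c) : (0 : ℂ) ≤ (c : ℂ) := by
  have h : ((c : ℝ) : ℂ) = (c : ℂ) := Complex.ofReal_ratCast c
  rw [← h]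
  exact Complex.zero_le_real.mpr (by exact_mod_cast hc)

/-- The complex matrix of a rational matrix. -/
def cq (M : E → E → ℚ) : Matrix E E ℂ := fun p q => (M p q : ℂ)

theorem cq_apply (M : E → E → ℚ) (p q : E) : cq M p q = (M p q : ℂ) := rfl

theorem cq_rank {c : ℚ} (hc : 0 ≤ c) (v : E → ℚ) : (cq fun p q => c * v p * v q).PosSemidef := by
  have h : (cq fun p q => c * v p * v q) =
      (c : ℂ) • vecMulVec (fun p => (v p : ℂ)) (star fun p => (v p : ℂ)) := by
    ext p q
    simp only [cq, Matrix.smul_apply, vecMulVec_apply, Pi.star_apply, smul_eq_mul]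
    have : star ((v q : ℂ)) = (v q : ℂ) := by
      exact star_ratCast _
    rw [this]
    push_cast
    ring
  rw [h]
  exact (posSemidef_vecMulVec_self_star _).smul (rat_nonneg hc)

theorem cq_diag {v : E → ℚ} (hv : ∀ p, 0 ≤ v p) :
    (cq fun p q => if p = q then v p else 0).PosSemidef := by
  have h : (cq fun p q => if p = q then v p else 0) = diagonal fun p => (v p : ℂ) := by
    ext p q
    rw [cq_apply, diagonal_apply]
    split_ifs <;> simp
  rw [h]
  exact PosSemidef.diagonal fun p => rat_nonneg (hv p)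

theorem cq_add (M N : E → E → ℚ) : cq (fun p q => M p q + N p q) = cq M + cq N := by
  ext p q
  simp [cq]

end cast

/-- The symplectic form. -/
def jq : Fin 4 → Fin 4 → ℚ := ![![0, -1, 0, 0], ![1, 0, 0, 0], ![0, 0, 0, -1], ![0, 0, 1, 0]]

def fq (p q : Fin 4 × Fin 4) : ℚ := if p.1 = q.2 ∧ p.2 = q.1 then 1 else 0

def gq (p q : Fin 4 × Fin 4) : ℚ := jq p.2 p.1 * jq q.2 q.1

/-- The state (unnormalised). -/
def rq (p q : Fin 4 × Fin 4) : ℚ := (if p = q then 1 else 0) + 13 / 25 * (fq p q + gq p q)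

theorem cq_fq : cq fq = Near.flip 4 := by
  ext p q
  rw [cq_apply, fq, Near.flip]
  split_ifs <;> simp

theorem cq_gq : cq gq = vecMulVec (fun p => (jq p.2 p.1 : ℂ)) (star fun p => (jq p.2 p.1 : ℂ)) := by
  ext p q
  rw [cq_apply, gq, vecMulVec_apply, Pi.star_apply]
  have : star ((jq q.2 q.1 : ℂ)) = (jq q.2 q.1 : ℂ) := by
    exact star_ratCast _
  rw [this]
  push_cast
  rfl

theorem cq_rq : cq rq = 1 + ((13 / 25 : ℝ) : ℂ) • (Near.flip 4 + cq gq) := by
  rw [← cq_fq]
  ext p q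
  rw [cq_apply, rq, Matrix.add_apply, Matrix.smul_apply, Matrix.add_apply, cq_apply, cq_apply,
    one_apply, smul_eq_mul]
  push_cast
  split_ifs <;> simp

theorem rq_posDef : (cq rq).PosDef := by
  have h1 : (((12 / 25 : ℝ) : ℂ) • (1 : Matrix (Fin 4 × Fin 4) (Fin 4 × Fin 4) ℂ)).PosDef :=
    PosDef.one.smul (Complex.zero_lt_real.mpr (by norm_num))
  have h2 : (((13 / 25 : ℝ) : ℂ) • ((1 + Near.flip 4) + cq gq)).PosSemidef := by
    refine PosSemidef.smul ((Near.one_add_flip 4).add ?_) (Complex.zero_le_real.mpr (by norm_num))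
    rw [cq_gq]
    exact posSemidef_vecMulVec_self_star _
  have h := h1.add_posSemidef h2
  rw [cq_rq]
  have e : (1 : Matrix (Fin 4 × Fin 4) (Fin 4 × Fin 4) ℂ) +
      ((13 / 25 : ℝ) : ℂ) • (Near.flip 4 + cq gq) =
      ((12 / 25 : ℝ) : ℂ) • (1 : Matrix (Fin 4 × Fin 4) (Fin 4 × Fin 4) ℂ) +
        ((13 / 25 : ℝ) : ℂ) • ((1 + Near.flip 4) + cq gq) := by
    ext p q
    simp only [Matrix.add_apply, Matrix.smul_apply, smul_eq_mul]
    push_cast
    ring
  rwa [e]

def ft (p q : Fin 4 × Fin 4) : ℚ := fq (p.1, q.2) (q.1, p.2)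

def gt (p q : Fin 4 × Fin 4) : ℚ := gq (p.1, q.2) (q.1, p.2)

theorem ft_psd : (cq ft).PosSemidef := by
  have h : cq ft = cq (fun p q : Fin 4 × Fin 4 => 1 * (if p.1 = p.2 then 1 else 0) *
      (if q.1 = q.2 then 1 else 0)) := by
    ext p q
    rw [cq_apply, cq_apply]
    congr 1
    revert p q
    decide +kernel
  rw [h]
  exact cq_rank (by norm_num) _

theorem gt_psd : (1 + cq gt).PosSemidef := by
  have hs : (cq gt)ᴴ = cq gt := by
    ext p q
    rw [conjTranspose_apply, cq_apply, cq_apply]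
    have : gt q p = gt p q := by
      revert p q
      decide +kernel
    rw [this]
    exact star_ratCast _
  have hsq : cq gt * cq gt = 1 := by
    ext p q
    rw [Matrix.mul_apply, one_apply]
    simp only [cq_apply]
    have : ∀ p q : Fin 4 × Fin 4, (∑ r, gt p r * gt r q) = if p = q then 1 else 0 := by
      decide +kernel
    have h1 := this p q
    have h2 : ((∑ r, gt p r * gt r q : ℚ) : ℂ) = ((if p = q then 1 else 0 : ℚ) : ℂ) := by rw [h1]
    rw [Rat.cast_sum] at h2
    simp only [Rat.cast_mul] at h2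
    rw [h2]
    split_ifs <;> simp
  have h : 1 + cq gt = ((1 / 2 : ℝ) : ℂ) • ((1 + cq gt)ᴴ * (1 + cq gt)) := by
    rw [conjTranspose_add, conjTranspose_one, hs, Matrix.mul_add, Matrix.add_mul,
      Matrix.add_mul, hsq, one_mul, one_mul, mul_one]
    have : (1 : Matrix (Fin 4 × Fin 4) (Fin 4 × Fin 4) ℂ) + cq gt + (cq gt + 1) =
        (2 : ℂ) • (1 + cq gt) := by rw [two_smul]; abel
    rw [this, smul_smul]
    push_cast
    norm_num
  rw [h]
  exact (posSemidef_conjTranspose_mul_self _).smul (Complex.zero_le_real.mpr (by norm_num))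

theorem rq_pTrans : (pTrans (cq rq)).PosDef := by
  have h1 : (((12 / 25 : ℝ) : ℂ) • (1 : Matrix (Fin 4 × Fin 4) (Fin 4 × Fin 4) ℂ)).PosDef :=
    PosDef.one.smul (Complex.zero_lt_real.mpr (by norm_num))
  have h2 : (((13 / 25 : ℝ) : ℂ) • (cq ft + (1 + cq gt))).PosSemidef :=
    PosSemidef.smul (ft_psd.add gt_psd) (Complex.zero_le_real.mpr (by norm_num))
  have h := h1.add_posSemidef h2
  have e : pTrans (cq rq) =
      ((12 / 25 : ℝ) : ℂ) • (1 : Matrix (Fin 4 × Fin 4) (Fin 4 × Fin 4) ℂ) +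
        ((13 / 25 : ℝ) : ℂ) • (cq ft + (1 + cq gt)) := by
    ext p q
    simp only [pTrans, Matrix.add_apply, Matrix.smul_apply, smul_eq_mul, cq_apply, one_apply]
    rw [rq]
    have e1 : fq (p.1, q.2) (q.1, p.2) = ft p q := rfl
    have e2 : gq (p.1, q.2) (q.1, p.2) = gt p q := rfl
    rw [e1, e2]
    have e3 : ((p.1, q.2) = (q.1, p.2)) ↔ p = q := by
      constructor
      · intro h
        rw [Prod.mk.injEq] at h
        exact Prod.ext h.1 h.2.symm
      · rintro rfl
        rfl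
    rw [if_congr e3 rfl rfl]
    push_cast
    split_ifs
    · rw [Rat.cast_one]
      ring
    · rw [Rat.cast_zero]
      ring
  rwa [e]

theorem rq_trace : (cq rq).trace = ((504 / 25 : ℝ) : ℂ) := by
  have h : ∑ p, rq p p = 504 / 25 := by decide +kernel
  rw [Matrix.trace]
  simp only [diag_apply, cq_apply]
  rw [← Rat.cast_sum, h]
  push_cast
  norm_num

end Vale.Agent.P372.PC
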