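import Vale.Agent.P372.R2.helper492.Br1

/-! Pieces of the PPT state adapted to the projection on the first basis vector. -/

open Matrix Kronecker
open scoped ComplexOrder MatrixOrder

set_option linter.unusedSectionVars false

namespace Vale.Agent.P372.PC

section coupling

variable {d : ℕ}

/-- A separable operator which couples `|i l⟩` and `|j k⟩`. -/
def cpl (i j k l : Fin d) (c y z : ℚ) (p q : Fin d × Fin d) : ℚ :=
  c * (((if i = p.1 ∧ i = q.1 then 1 else 0) + y ^ 2 * (if j = p.1 ∧ j = q.1 then 1 else 0)) *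
      ((if k = p.2 ∧ k = q.2 then 1 else 0) + z ^ 2 * (if l = p.2 ∧ l = q.2 then 1 else 0)) +
    y * z * ((if i = p.1 ∧ j = q.1 then 1 else 0) * (if l = p.2 ∧ k = q.2 then 1 else 0) +
      (if j = p.1 ∧ i = q.1 then 1 else 0) * (if k = p.2 ∧ l = q.2 then 1 else 0)))

theorem vec_phase (i j : Fin d) (y c : ℂ) (hy : star y = y) (hc : c * star c = 1) :
    vecMulVec ((Pi.single i 1 : Fin d → ℂ) + (c * y) • Pi.single j 1)
      (star ((Pi.single i 1 : Fin d → ℂ) + (c * y) • Pi.single j 1)) =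
      (single i i (1 : ℂ) + y ^ 2 • single j j 1) + (c * y) • single j i 1 +
        (star c * y) • single i j 1 := by
  ext p q
  simp only [vecMulVec_apply, Pi.add_apply, Pi.smul_apply, Pi.star_apply, smul_eq_mul,
    Matrix.add_apply, Matrix.smul_apply, star_add, star_mul', single_apply, Pi.single_apply]
  have s1 : ∀ (a b : Fin d), star (if a = b then (1 : ℂ) else 0) = if a = b then 1 else 0 := by
    intro a b
    split_ifs <;> simp
  simp only [s1, hy]
  have e1 : ∀ (a b x y : Fin d), (if a = x ∧ b = y then (1 : ℂ) else 0) =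
      (if x = a then 1 else 0) * (if y = b then 1 else 0) := by
    intro a b x y
    by_cases h1 : a = x
    · by_cases h2 : b = y
      · simp [h1, h2]
      · have : ¬ y = b := fun h => h2 h.symm
        simp [h2, this]
    · have : ¬ x = a := fun h => h1 h.symm
      simp [h1, this]
  simp only [e1]
  linear_combination (y ^ 2 * (if p = j then 1 else 0) * (if q = j then (1 : ℂ) else 0)) * hc

theorem sep_cpl (i j k l : Fin d) {c : ℚ} (hc0 : 0 ≤ c) (y z : ℚ) :
    IsSep (cq (cpl i j k l c y z)) := by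
  have hc : ∀ k : Fin 4, Complex.I ^ (k : ℕ) * star (Complex.I ^ (k : ℕ)) = 1 := by
    intro k
    rw [RCLike.star_def, map_pow, Complex.conj_I, ← mul_pow]
    simp
  have := isSep_of_fintype (κ := Fin 4)
    (fun m => (c : ℂ) • ((1 / 4 : ℚ) : ℂ) • vecMulVec
      ((Pi.single i 1 : Fin d → ℂ) + (Complex.I ^ (m : ℕ) * (y : ℂ)) • Pi.single j 1)
      (star ((Pi.single i 1 : Fin d → ℂ) + (Complex.I ^ (m : ℕ) * (y : ℂ)) • Pi.single j 1)))
    (fun m => vecMulVec
      ((Pi.single k 1 : Fin d → ℂ) + (Complex.I ^ (m : ℕ) * (z : ℂ)) • Pi.single l 1)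
      (star ((Pi.single k 1 : Fin d → ℂ) + (Complex.I ^ (m : ℕ) * (z : ℂ)) • Pi.single l 1)))
    (fun m => ((posSemidef_vecMulVec_self_star _).smul (rat_nonneg (by norm_num))).smul
      (rat_nonneg hc0))
    (fun m => posSemidef_vecMulVec_self_star _)
  refine isSep_congr this ?_
  simp only [fun m => vec_phase i j (y : ℂ) _ (star_ratCast y) (hc m),
    fun m => vec_phase k l (z : ℂ) _ (star_ratCast z) (hc m)]
  rw [Fin.sum_univ_four]
  ext p q
  simp only [cq_apply, cpl, Matrix.add_apply, kroneckerMap_apply, Matrix.smul_apply,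
    smul_eq_mul, single_apply]
  simp only [Fin.isValue, Fin.val_zero, pow_zero, Fin.val_one, pow_one, Fin.val_two, star_one,
    star_pow, RCLike.star_def, Complex.conj_I]
  have h3 : ((3 : Fin 4) : ℕ) = 3 := rfl
  rw [h3]
  have hI : Complex.I ^ 2 = -1 := Complex.I_sq
  have hI3 : Complex.I ^ 3 = -Complex.I := by
    rw [pow_succ, hI]; ring
  have hI4 : Complex.I ^ 4 = 1 := by
    rw [pow_succ, hI3]; rw [neg_mul, Complex.I_mul_I, neg_neg]
  have hI6 : Complex.I ^ 6 = -1 := by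
    rw [show (6 : ℕ) = 4 + 2 from rfl, pow_add, hI4, hI, one_mul]
  have r1 : ∀ (P : Prop) [Decidable P], ((if P then 1 else 0 : ℚ) : ℂ) = if P then 1 else 0 := by
    intro P _
    split_ifs <;> simp
  push_cast
  simp only [r1]
  generalize (if i = p.1 ∧ i = q.1 then (1 : ℂ) else 0) = a1
  generalize (if j = p.1 ∧ j = q.1 then (1 : ℂ) else 0) = a2
  generalize (if k = p.2 ∧ k = q.2 then (1 : ℂ) else 0) = a3
  generalize (if l = p.2 ∧ l = q.2 then (1 : ℂ) else 0) = a4
  generalize (if i = p.1 ∧ j = q.1 then (1 : ℂ) else 0) = a5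
  generalize (if j = p.1 ∧ i = q.1 then (1 : ℂ) else 0) = a6
  generalize (if l = p.2 ∧ k = q.2 then (1 : ℂ) else 0) = a7
  generalize (if k = p.2 ∧ l = q.2 then (1 : ℂ) else 0) = a8
  ring_nf
  simp only [hI, hI3, hI4, hI6]
  ring

theorem sep_diagq {v : Fin d × Fin d → ℚ} (hv : ∀ p, 0 ≤ v p) :
    IsSep (cq fun p q => if p = q then v p else 0) := by
  refine isSep_congr (isSep_sum Finset.univ fun (p : Fin d × Fin d) _ => isSep_kron
    ((single_psd p.1).smul (rat_nonneg (hv p))) (single_psd p.2)) ?_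
  ext a b
  rw [cq_apply, Matrix.sum_apply]
  simp only [Matrix.smul_apply, kroneckerMap_apply, single_apply, smul_eq_mul]
  by_cases h : a = b
  · subst h
    rw [Finset.sum_eq_single a]
    · simp
    · rintro ⟨x, y⟩ _ hp
      by_cases h1 : x = a.1
      · by_cases h2 : y = a.2
        · exact absurd (Prod.ext h1 h2) hp
        · simp [h2]
      · simp [h1]
    · simp
  · rw [if_neg h]
    symm
    rw [Rat.cast_zero]
    refine Finset.sum_eq_zero fun p _ => ?_
    by_cases h1 : p.1 = a.1 ∧ p.1 = b.1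
    · by_cases h2 : p.2 = a.2 ∧ p.2 = b.2
      · exact absurd (Prod.ext (h1.1.symm.trans h1.2) (h2.1.symm.trans h2.2)) h
      · simp [h2]
    · simp [h1]

end coupling

def ket (l : List ((Fin 4 × Fin 4) × ℚ)) (p : Fin 4 × Fin 4) : ℚ :=
  (l.map fun x => if x.1 = p then x.2 else 0).sum

def dgq (p : Fin 4 × Fin 4) : ℚ :=
  if p = (2, 2) ∨ p = (3, 3) then 169 / 475 else if p = (0, 0) then 19 / 25 else
    if p = (2, 1) ∨ p = (3, 1) then 169 / 475 * (38 / 25) else 0

/-- The entangled piece. -/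
def zq (p q : Fin 4 × Fin 4) : ℚ :=
  1 * ket [((0, 2), 1), ((2, 0), 13 / 25)] p * ket [((0, 2), 1), ((2, 0), 13 / 25)] q +
  (1 * ket [((0, 3), 1), ((3, 0), 13 / 25)] p * ket [((0, 3), 1), ((3, 0), 13 / 25)] q +
  (38 / 25 * ket [((0, 1), 1), ((2, 3), 13 / 38), ((3, 2), -(13 / 38))] p *
    ket [((0, 1), 1), ((2, 3), 13 / 38), ((3, 2), -(13 / 38))] q +
  (169 / 950 * ket [((2, 3), 1), ((3, 2), 1)] p * ket [((2, 3), 1), ((3, 2), 1)] q +
    if p = q then dgq p else 0)))

theorem dgq_nonneg : ∀ p, 0 ≤ dgq p := by decide +kernel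

theorem zq_psd : (cq zq).PosSemidef := by
  have h := (cq_rank (c := 1) (by norm_num) (ket [((0, 2), 1), ((2, 0), 13 / 25)])).add
    ((cq_rank (c := 1) (by norm_num) (ket [((0, 3), 1), ((3, 0), 13 / 25)])).add
    ((cq_rank (c := 38 / 25) (by norm_num) (ket [((0, 1), 1), ((2, 3), 13 / 38), ((3, 2), -(13 / 38))])).add
    ((cq_rank (c := 169 / 950) (by norm_num) (ket [((2, 3), 1), ((3, 2), 1)])).add
    (cq_diag dgq_nonneg))))
  rw [← cq_add, ← cq_add, ← cq_add, ← cq_add] at h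
  exact h

def usq : Fin 4 → ℚ := ![1, -1, -1, -1]
def aq : Fin 4 → ℚ := ![1, 0, 169 / 475, 169 / 475]
def bq : Fin 4 → ℚ := ![19 / 25, 38 / 25, 1, 1]

theorem zq_twirl : ∀ p q : Fin 4 × Fin 4, zq p q + usq p.1 * usq q.1 * zq p q =
    2 * if p = q then aq p.1 * bq p.2 else 0 := by decide +kernel

/-- The couplings in the remainder. -/
def eq4 (p q : Fin 4 × Fin 4) : ℚ :=
  cpl 1 2 1 2 (19 / 25) (31 / 40) (520 / 589) p q +
  (cpl 1 3 1 3 (19 / 25) (31 / 40) (520 / 589) p q +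
  (cpl 1 2 3 0 (64 / 171) (-(39 / 40)) (57 / 40) p q +
  cpl 1 3 2 0 (64 / 171) (39 / 40) (57 / 40) p q))

def rdq (p : Fin 4 × Fin 4) : ℚ := rq p p - zq p p - eq4 p p

theorem rdq_nonneg : ∀ p, 0 ≤ rdq p := by decide +kernel

theorem rq_eq : ∀ p q, rq p q - zq p q = eq4 p q + if p = q then rdq p else 0 := by decide +kernel

theorem rem_sep4 : IsSep (cq rq - cq zq) := by
  have h := IsSep.add' (IsSep.add' (sep_cpl (1 : Fin 4) 2 1 2 (c := 19 / 25) (by norm_num) (31 / 40)
    (520 / 589)) (IsSep.add' (sep_cpl (1 : Fin 4) 3 1 3 (c := 19 / 25) (by norm_num) (31 / 40)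
    (520 / 589)) (IsSep.add' (sep_cpl (1 : Fin 4) 2 3 0 (c := 64 / 171) (by norm_num) (-(39 / 40))
    (57 / 40)) (sep_cpl (1 : Fin 4) 3 2 0 (c := 64 / 171) (by norm_num) (39 / 40)
    (57 / 40))))) (sep_diagq rdq_nonneg)
  rw [← cq_add, ← cq_add, ← cq_add, ← cq_add] at h
  refine isSep_congr h ?_
  ext p q
  rw [Matrix.sub_apply, cq_apply, cq_apply, cq_apply, ← Rat.cast_sub, rq_eq]
  rfl

end Vale.Agent.P372.PC
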