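import Vale.Agent.P372.R2.helper492.Br1

/-! The PPT state is entangled; its symmetries. -/

open Matrix Kronecker
open scoped ComplexOrder MatrixOrder

set_option linter.unusedSectionVars false

namespace Vale.Agent.P372.PC

section witness

theorem g_form (x y : Fin 4 → ℂ) :
    (cq gq * (vecMulVec x (star x) ⊗ₖ vecMulVec y (star y))).trace =
      (y 1 * x 0 - y 0 * x 1 + y 3 * x 2 - y 2 * x 3) *
        (star (y 1) * star (x 0) - star (y 0) * star (x 1) + star (y 3) * star (x 2) -
          star (y 2) * star (x 3)) := by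
  rw [cq_gq, vecMulVec_mul, trace_vecMulVec]
  have h : ∀ p : Fin 4 × Fin 4, ((star fun p : Fin 4 × Fin 4 => (jq p.2 p.1 : ℂ)) ᵥ*
      (vecMulVec x (star x) ⊗ₖ vecMulVec y (star y))) p =
      (y 1 * x 0 - y 0 * x 1 + y 3 * x 2 - y 2 * x 3) * (star (x p.1) * star (y p.2)) := by
    intro p
    rw [vecMul, dotProduct, Fintype.sum_prod_type]
    simp only [Fin.sum_univ_four, Pi.star_apply, kroneckerMap_apply, vecMulVec_apply, star_ratCast]
    simp [jq]
    ring
  rw [dotProduct]
  simp only [h]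
  rw [Fintype.sum_prod_type]
  simp only [Fin.sum_univ_four]
  simp [jq]
  ring

theorem f_form (x y : Fin 4 → ℂ) :
    (Near.flip 4 * (vecMulVec x (star x) ⊗ₖ vecMulVec y (star y))).trace =
      (∑ i, x i * star (y i)) * ∑ i, y i * star (x i) := by
  rw [trace]
  simp only [diag_apply, Near.flip_mul, kroneckerMap_apply, vecMulVec_apply]
  rw [Fintype.sum_prod_type, Finset.sum_mul_sum, Finset.sum_comm]
  refine Finset.sum_congr rfl fun i _ => Finset.sum_congr rfl fun j _ => ?_
  simp only [Pi.star_apply]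
  ring

/-- Bessel's inequality for `y` and its antiunitary image. -/
theorem bessel (x y : Fin 4 → ℂ) :
    0 ≤ (∑ i, x i * star (x i)) * (∑ i, y i * star (y i)) -
      (∑ i, x i * star (y i)) * (∑ i, y i * star (x i)) -
      (y 1 * x 0 - y 0 * x 1 + y 3 * x 2 - y 2 * x 3) *
        (star (y 1) * star (x 0) - star (y 0) * star (x 1) + star (y 3) * star (x 2) -
          star (y 2) * star (x 3)) := by
  set n : ℂ := ∑ i, y i * star (y i) with hn
  set s : ℂ := ∑ i, x i * star (y i) with hs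
  set S : ℂ := ∑ i, y i * star (x i) with hS
  set X : ℂ := ∑ i, x i * star (x i) with hX
  set u : ℂ := y 1 * x 0 - y 0 * x 1 + y 3 * x 2 - y 2 * x 3 with hu
  set U : ℂ := star (y 1) * star (x 0) - star (y 0) * star (x 1) + star (y 3) * star (x 2) -
          star (y 2) * star (x 3) with hU
  have sS : star s = S := by
    rw [hs, hS, star_sum]
    refine Finset.sum_congr rfl fun i _ => ?_
    rw [star_mul', star_star, mul_comm]
  have sn : star n = n := by
    rw [hn, star_sum]
    refine Finset.sum_congr rfl fun i _ => ?_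
    rw [star_mul', star_star, mul_comm]
  have su : star u = U := by
    rw [hu, hU]
    simp only [star_add, star_sub, star_mul']
  have n0 : 0 ≤ n := Finset.sum_nonneg fun i _ => mul_star_self_nonneg _
  let z : Fin 4 → ℂ := ![star (y 1), -star (y 0), star (y 3), -star (y 2)]
  have hv : 0 ≤ ∑ i, (n * x i - s * y i - u * z i) * star (n * x i - s * y i - u * z i) :=
    Finset.sum_nonneg fun i _ => mul_star_self_nonneg _
  have e : ∑ i, (n * x i - s * y i - u * z i) * star (n * x i - s * y i - u * z i) =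
      n * (X * n - s * S - u * U) := by
    simp only [star_sub, star_mul', sn, sS, su]
    simp only [Fin.sum_univ_four] at hn hs hS hX ⊢
    simp only [z, Matrix.cons_val, star_neg, star_star]
    linear_combination (n * n) * (-hX) + (-n * S) * (-hs) + (-n * U) * (-hu) + (-s * n) * (-hS) +
      (s * S) * (-hn) + (-u * n) * (-hU) + (u * U) * (-hn)
  rw [e] at hv
  rcases n0.eq_or_lt with h0 | h0
  · have hy : ∀ i, y i = 0 := by
      have h1 := (Finset.sum_eq_zero_iff_of_nonneg
        (fun i _ => mul_star_self_nonneg (y i))).mp h0.symm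
      intro i
      have h2 := h1 i (Finset.mem_univ i)
      rcases mul_eq_zero.mp h2 with h3 | h3
      · exact h3
      · exact star_eq_zero.mp h3
    have e1 : s = 0 := by rw [hs]; simp [hy]
    have e2 : u = 0 := by rw [hu]; simp [hy]
    rw [← h0, e1, e2]
    simp
  · obtain ⟨r, hr⟩ : ∃ r : ℝ, (r : ℂ) = n := ⟨n.re, Complex.ext rfl (by
      have := (Complex.le_def.mp n0).2
      simpa using this)⟩
    have hr0 : 0 < r := by
      rw [← hr] at h0
      exact_mod_cast h0
    have h1 : (0 : ℂ) ≤ ((r⁻¹ : ℝ) : ℂ) := Complex.zero_le_real.mpr (inv_nonneg.mpr hr0.le)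
    have h2 := mul_nonneg h1 hv
    have h3 : ((r⁻¹ : ℝ) : ℂ) * (n * (X * n - s * S - u * U)) = X * n - s * S - u * U := by
      rw [← mul_assoc, ← hr, ← Complex.ofReal_mul, inv_mul_cancel₀ hr0.ne', Complex.ofReal_one,
        one_mul]
    rwa [h3] at h2

/-- The witness. -/
def Wit : Matrix (Fin 4 × Fin 4) (Fin 4 × Fin 4) ℂ := 1 - Near.flip 4 - cq gq

theorem wit_rank (x y : Fin 4 → ℂ) :
    0 ≤ (Wit * (vecMulVec x (star x) ⊗ₖ vecMulVec y (star y))).trace := by
  rw [Wit, Matrix.sub_mul, Matrix.sub_mul, trace_sub, trace_sub, one_mul, g_form, f_form,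
    trace_kronecker, trace_vecMulVec, trace_vecMulVec]
  exact bessel x y

theorem psd_ranks {M : Matrix (Fin 4) (Fin 4) ℂ} (h : M.PosSemidef) :
    ∃ x : Fin 4 → Fin 4 → ℂ, M = ∑ k, vecMulVec (x k) (star (x k)) := by
  obtain ⟨C, hC⟩ := exists_eq_conjTranspose_mul_self h
  refine ⟨fun k => star (C k), ?_⟩
  rw [hC]
  ext i j
  rw [Matrix.mul_apply, Matrix.sum_apply]
  refine Finset.sum_congr rfl fun k _ => ?_
  rw [vecMulVec_apply, conjTranspose_apply, star_star]
  rfl

theorem wit_prod {M N : Matrix (Fin 4) (Fin 4) ℂ} (hM : M.PosSemidef) (hN : N.PosSemidef) :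
    0 ≤ (Wit * (M ⊗ₖ N)).trace := by
  obtain ⟨x, hx⟩ := psd_ranks hM
  obtain ⟨y, hy⟩ := psd_ranks hN
  have e : M ⊗ₖ N = ∑ k, ∑ l, vecMulVec (x k) (star (x k)) ⊗ₖ vecMulVec (y l) (star (y l)) := by
    rw [hx, hy]
    ext p q
    simp only [kroneckerMap_apply, Matrix.sum_apply]
    rw [Finset.sum_mul_sum]
  rw [e, Matrix.mul_sum, trace_sum]
  refine Finset.sum_nonneg fun k _ => ?_
  rw [Matrix.mul_sum, trace_sum]
  exact Finset.sum_nonneg fun l _ => wit_rank _ _

theorem wit_sep {R : Matrix (Fin 4 × Fin 4) (Fin 4 × Fin 4) ℂ} (h : IsSep R) :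
    0 ≤ (Wit * R).trace := by
  obtain ⟨n, M, N, hM, hN, rfl⟩ := h
  rw [Matrix.mul_sum, trace_sum]
  exact Finset.sum_nonneg fun k _ => wit_prod (hM k) (hN k)

def witq (p q : Fin 4 × Fin 4) : ℚ := (if p = q then 1 else 0) - fq p q - gq p q

theorem wit_rq : (Wit * cq rq).trace = ((-(8 / 25) : ℝ) : ℂ) := by
  have h : ∑ p, ∑ q, witq p q * rq q p = -(8 / 25) := by decide +kernel
  have hW : Wit = cq witq := by
    rw [Wit, ← cq_fq]
    ext p q
    rw [Matrix.sub_apply, Matrix.sub_apply, cq_apply, cq_apply, cq_apply, one_apply, witq]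
    push_cast
    split_ifs <;> simp
  rw [hW, Matrix.trace]
  simp only [diag_apply, Matrix.mul_apply, cq_apply]
  simp only [← Rat.cast_mul]
  simp only [← Rat.cast_sum]
  rw [h]
  push_cast
  norm_num

theorem rq_not_sep {c : ℝ} (hc : 0 < c) : ¬ IsSep ((c : ℂ) • cq rq) := by
  intro h
  have h1 := wit_sep h
  rw [Matrix.mul_smul, trace_smul, wit_rq, smul_eq_mul, ← Complex.ofReal_mul] at h1
  have h2 : (0 : ℝ) ≤ c * -(8 / 25) := Complex.zero_le_real.mp h1
  linarith

end witness

end Vale.Agent.P372.PC
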