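import Vale.Agent.P372.R2.helper492.Br2
import Vale.Agent.P372.R2.helper492.Br3

/-! Symmetries of the PPT state, and its pieces adapted to an arbitrary rank-one projection. -/

open Matrix Kronecker
open scoped ComplexOrder MatrixOrder

set_option linter.unusedSectionVars false

namespace Vale.Agent.P372.PC

/-- The symplectic form. -/
def Jc : Matrix (Fin 4) (Fin 4) ℂ := !![0, -1, 0, 0; 1, 0, 0, 0; 0, 0, 0, -1; 0, 0, 1, 0]

/-- The antiunitary map. -/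
def th (x : Fin 4 → ℂ) : Fin 4 → ℂ := ![-star (x 1), star (x 0), -star (x 3), star (x 2)]

theorem exists_perp (e : Fin 4 → ℂ) : ∃ r : Fin 4 → ℂ, ∑ i, r i * star (r i) = 1 ∧
    ∑ i, star (e i) * r i = 0 ∧ ∑ i, star (th e i) * r i = 0 := by
  have hdet : (of ![star e, star (th e), 0, 0] : Matrix (Fin 4) (Fin 4) ℂ).det = 0 :=
    Matrix.det_eq_zero_of_row_eq_zero (2 : Fin 4) fun j => rfl
  obtain ⟨r, hr0, hr⟩ := Matrix.exists_mulVec_eq_zero_iff.mpr hdet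
  have h1 : ∑ i, star (e i) * r i = 0 := congrFun hr 0
  have h2 : ∑ i, star (th e i) * r i = 0 := congrFun hr 1
  set s : ℝ := ∑ i, Complex.normSq (r i) with hs
  have hs0 : 0 < s := by
    obtain ⟨i, hi⟩ := Function.ne_iff.mp hr0
    exact Finset.sum_pos' (fun j _ => Complex.normSq_nonneg _)
      ⟨i, Finset.mem_univ i, Complex.normSq_pos.mpr hi⟩
  have hsc : ∑ i, r i * star (r i) = (s : ℂ) := by
    rw [hs]
    push_cast
    refine Finset.sum_congr rfl fun i _ => ?_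
    rw [RCLike.star_def, Complex.mul_conj]
  refine ⟨fun i => ((√s)⁻¹ : ℝ) * r i, ?_, ?_, ?_⟩
  · have h3 : ∀ i, (((√s)⁻¹ : ℝ) : ℂ) * r i * star ((((√s)⁻¹ : ℝ) : ℂ) * r i) =
        ((s⁻¹ : ℝ) : ℂ) * (r i * star (r i)) := by
      intro i
      rw [star_mul', RCLike.star_def, Complex.conj_ofReal]
      have h4 : (((√s)⁻¹ : ℝ) : ℂ) * (((√s)⁻¹ : ℝ) : ℂ) = ((s⁻¹ : ℝ) : ℂ) := by
        rw [← Complex.ofReal_mul, ← mul_inv, Real.mul_self_sqrt hs0.le]
      rw [← h4]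
      ring
    simp only [h3]
    rw [← Finset.mul_sum, hsc, ← Complex.ofReal_mul, inv_mul_cancel₀ hs0.ne', Complex.ofReal_one]
  · have h3 : ∀ i, star (e i) * ((((√s)⁻¹ : ℝ) : ℂ) * r i) =
        (((√s)⁻¹ : ℝ) : ℂ) * (star (e i) * r i) := fun i => by ring
    simp only [h3]
    rw [← Finset.mul_sum, h1, mul_zero]
  · have h3 : ∀ i, star (th e i) * ((((√s)⁻¹ : ℝ) : ℂ) * r i) =
        (((√s)⁻¹ : ℝ) : ℂ) * (star (th e i) * r i) := fun i => by ring
    simp only [h3]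
    rw [← Finset.mul_sum, h2, mul_zero]

theorem exists_symp (e : Fin 4 → ℂ) (he : ∑ i, e i * star (e i) = 1) :
    ∃ V : Matrix (Fin 4) (Fin 4) ℂ, V * Vᴴ = 1 ∧ Vᴴ * V = 1 ∧ V * Jc * Vᵀ = Jc ∧
      ∀ i, V i 0 = e i := by
  obtain ⟨r, h1, h2, h3⟩ := exists_perp e
  have h2' : ∑ i, e i * star (r i) = 0 := by
    have := congrArg star h2
    rw [star_sum, star_zero] at this
    simpa only [star_mul', star_star] using this
  have h3' : ∑ i, th e i * star (r i) = 0 := by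
    have := congrArg star h3
    rw [star_sum, star_zero] at this
    simpa only [star_mul', star_star] using this
  simp only [Fin.sum_univ_four, th, Matrix.cons_val, star_neg, star_star] at he h1 h2 h3 h2' h3'
  set V : Matrix (Fin 4) (Fin 4) ℂ := of fun i j => ![e i, th e i, r i, th r i] j with hV
  have k1 : Vᴴ * V = 1 := by
    ext i j
    rw [Matrix.mul_apply]
    simp only [Fin.sum_univ_four, conjTranspose_apply, hV, of_apply]
    fin_cases i <;> fin_cases j <;>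
      simp only [th, Fin.zero_eta, Fin.mk_one, Fin.reduceFinMk, Matrix.cons_val, star_neg,
        star_star, one_apply, Fin.isValue, Fin.reduceEq, if_true, if_false]
    · linear_combination he
    · ring
    · linear_combination h2
    · linear_combination -h3'
    · ring
    · linear_combination he
    · linear_combination h3
    · linear_combination h2'
    · linear_combination h2'
    · linear_combination h3'
    · linear_combination h1
    · ring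
    · linear_combination -h3
    · linear_combination h2
    · ring
    · linear_combination h1
  have k2 : V * Vᴴ = 1 := mul_eq_one_comm.mp k1
  have k3 : V * Jc = Jc * V.map star := by
    ext i j
    rw [Matrix.mul_apply, Matrix.mul_apply]
    simp only [Fin.sum_univ_four, map_apply, hV, of_apply]
    fin_cases i <;> fin_cases j <;> simp [th, Jc]
  have k4 : V.map star * Vᵀ = 1 := by
    rw [mul_eq_one_comm]
    have := congrArg Matrix.transpose k1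
    rw [transpose_mul, transpose_one] at this
    exact this
  refine ⟨V, k2, k1, ?_, fun i => rfl⟩
  rw [k3, Matrix.mul_assoc, k4, mul_one]

theorem omega_inv {V : Matrix (Fin 4) (Fin 4) ℂ} (h : V * Jc * Vᵀ = Jc) :
    (V ⊗ₖ V) *ᵥ (fun p : Fin 4 × Fin 4 => (jq p.2 p.1 : ℂ)) = fun p => (jq p.2 p.1 : ℂ) := by
  have hj : ∀ i j, (jq i j : ℂ) = Jc i j := by
    intro i j
    fin_cases i <;> fin_cases j <;> simp [jq, Jc]
  funext p
  have h1 := congrFun (congrFun h p.2) p.1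
  rw [Matrix.mul_apply] at h1
  simp only [Matrix.mul_apply, transpose_apply] at h1
  rw [mulVec, dotProduct, Fintype.sum_prod_type, hj, ← h1]
  refine Finset.sum_congr rfl fun c _ => ?_
  rw [Finset.sum_mul]
  refine Finset.sum_congr rfl fun d _ => ?_
  simp only [kroneckerMap_apply, hj]
  ring

theorem rq_inv {V : Matrix (Fin 4) (Fin 4) ℂ} (h0 : V * Vᴴ = 1) (h : V * Jc * Vᵀ = Jc) :
    (V ⊗ₖ V) * cq rq * (V ⊗ₖ V)ᴴ = cq rq := by
  have e1 : (V ⊗ₖ V) * (V ⊗ₖ V)ᴴ = 1 := by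
    rw [conjTranspose_kronecker, ← mul_kronecker_mul, h0, one_kronecker_one]
  have e2 : (V ⊗ₖ V) * Near.flip 4 * (V ⊗ₖ V)ᴴ = Near.flip 4 := by
    rw [kron_sw, Matrix.mul_assoc, e1, mul_one]
  have e3 : (V ⊗ₖ V) * cq gq * (V ⊗ₖ V)ᴴ = cq gq := by
    rw [cq_gq, mul_vecMulVec, vecMulVec_mul, ← star_mulVec, omega_inv h]
  rw [cq_rq, Matrix.mul_add, Matrix.add_mul, mul_one, e1, Matrix.mul_smul, Matrix.smul_mul,
    Matrix.mul_add, Matrix.add_mul, e2, e3]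

theorem Piece.conj {A B : Type} [Fintype A] [DecidableEq A] [Fintype B] [DecidableEq B]
    {v : Matrix A A ℂ} {w : Matrix B B ℂ} {Z : Matrix (A × B) (A × B) ℂ} (h : Piece v w Z)
    {V : Matrix A A ℂ} {W : Matrix B B ℂ} (hV : Vᴴ * V = 1) (hW : Wᴴ * W = 1) :
    Piece (V * v * Vᴴ) (W * w * Wᴴ) ((V ⊗ₖ W) * Z * (V ⊗ₖ W)ᴴ) := by
  obtain ⟨h1, α, β, h2, h3, h4⟩ := h
  refine ⟨h1.mul_mul_conjTranspose_same _, V * α * Vᴴ, W * β * Wᴴ,
    h2.mul_mul_conjTranspose_same _, h3.mul_mul_conjTranspose_same _, ?_⟩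
  have e1 : (V * v * Vᴴ) ⊗ₖ (W * w * Wᴴ) = (V ⊗ₖ W) * (v ⊗ₖ w) * (V ⊗ₖ W)ᴴ := by
    rw [conjTranspose_kronecker, ← mul_kronecker_mul, ← mul_kronecker_mul]
  have e2 : (V ⊗ₖ W)ᴴ * (V ⊗ₖ W) = 1 := by
    rw [conjTranspose_kronecker, ← mul_kronecker_mul, hV, hW, one_kronecker_one]
  have e3 : (V * α * Vᴴ) ⊗ₖ (W * β * Wᴴ) = (V ⊗ₖ W) * (α ⊗ₖ β) * (V ⊗ₖ W)ᴴ := by
    rw [conjTranspose_kronecker, ← mul_kronecker_mul, ← mul_kronecker_mul]
  have e4 : (V ⊗ₖ W) * (v ⊗ₖ w) * (V ⊗ₖ W)ᴴ * ((V ⊗ₖ W) * Z * (V ⊗ₖ W)ᴴ) *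
      ((V ⊗ₖ W) * (v ⊗ₖ w) * (V ⊗ₖ W)ᴴ)ᴴ = (V ⊗ₖ W) * ((v ⊗ₖ w) * Z * (v ⊗ₖ w)ᴴ) * (V ⊗ₖ W)ᴴ := by
    rw [conjTranspose_mul, conjTranspose_mul, conjTranspose_conjTranspose]
    calc (V ⊗ₖ W) * (v ⊗ₖ w) * (V ⊗ₖ W)ᴴ * ((V ⊗ₖ W) * Z * (V ⊗ₖ W)ᴴ) *
        ((V ⊗ₖ W) * ((v ⊗ₖ w)ᴴ * (V ⊗ₖ W)ᴴ))
        = (V ⊗ₖ W) * (v ⊗ₖ w) * ((V ⊗ₖ W)ᴴ * (V ⊗ₖ W)) * Z * ((V ⊗ₖ W)ᴴ * (V ⊗ₖ W)) *
          (v ⊗ₖ w)ᴴ * (V ⊗ₖ W)ᴴ := by simp only [Matrix.mul_assoc]
      _ = _ := by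
        rw [e2, mul_one, mul_one]
        simp only [Matrix.mul_assoc]
  rw [e1, e4, ← Matrix.add_mul, ← Matrix.mul_add, h4, e3, Matrix.mul_smul, Matrix.smul_mul]

theorem Piece.swap {d : ℕ} {v w : Matrix (Fin d) (Fin d) ℂ}
    {Z : Matrix (Fin d × Fin d) (Fin d × Fin d) ℂ} (h : Piece v w Z) :
    Piece w v (Near.flip d * Z * Near.flip d) := by
  obtain ⟨h1, α, β, h2, h3, h4⟩ := h
  refine ⟨?_, β, α, h3, h2, ?_⟩
  · have := h1.mul_mul_conjTranspose_same (Near.flip d)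
    rwa [Near.flip_herm] at this
  have e1 : ∀ M N : Matrix (Fin d) (Fin d) ℂ, Near.flip d * (M ⊗ₖ N) = (N ⊗ₖ M) * Near.flip d :=
    fun M N => (kron_sw N M).symm
  have e2 : (w ⊗ₖ v) * (Near.flip d * Z * Near.flip d) * (w ⊗ₖ v)ᴴ =
      Near.flip d * ((v ⊗ₖ w) * Z * (v ⊗ₖ w)ᴴ) * Near.flip d := by
    rw [conjTranspose_kronecker, conjTranspose_kronecker]
    calc (w ⊗ₖ v) * (Near.flip d * Z * Near.flip d) * (wᴴ ⊗ₖ vᴴ)
        = ((w ⊗ₖ v) * Near.flip d) * Z * (Near.flip d * (wᴴ ⊗ₖ vᴴ)) := by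
          simp only [Matrix.mul_assoc]
      _ = _ := by
          rw [kron_sw w v, e1 wᴴ vᴴ]
          simp only [Matrix.mul_assoc]
  rw [e2, ← Matrix.add_mul, ← Matrix.mul_add, h4, Matrix.mul_smul, Matrix.smul_mul, e1,
    Matrix.mul_assoc, Near.flip_sq, mul_one]

theorem rq_swap : Near.flip 4 * cq rq * Near.flip 4 = cq rq := by
  have e : Near.flip 4 * cq gq * Near.flip 4 = cq gq := by
    rw [← cq_fq]
    ext p q
    rw [Matrix.mul_apply]
    simp only [Matrix.mul_apply, cq_apply]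
    have h : ∀ p q, ∑ r, (∑ s, fq p s * gq s r) * fq r q = gq p q := by decide +kernel
    rw [← h p q]
    simp only [Rat.cast_sum, Rat.cast_mul]
  rw [cq_rq, Matrix.mul_add, Matrix.add_mul, mul_one, Near.flip_sq, Matrix.mul_smul,
    Matrix.smul_mul, Matrix.mul_add, Matrix.add_mul, Near.flip_sq, one_mul, e]

/-- The projection on the first basis vector. -/
def Q0 : Matrix (Fin 4) (Fin 4) ℂ := single 0 0 1

theorem uu_Q0 : uu Q0 = diagonal fun i => (usq i : ℂ) := by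
  ext i j
  rw [uu, Q0, Matrix.sub_apply, Matrix.smul_apply]
  fin_cases i <;> fin_cases j <;> norm_num [usq]

theorem zq_piece : Piece (uu Q0) 1 (cq zq) := by
  refine ⟨zq_psd, diagonal fun i => (aq i : ℂ), diagonal fun i => (bq i : ℂ),
    PosSemidef.diagonal fun i => rat_nonneg ?_, PosSemidef.diagonal fun i => rat_nonneg ?_, ?_⟩
  · revert i
    decide +kernel
  · revert i
    decide +kernel
  · have e1 : uu Q0 ⊗ₖ (1 : Matrix (Fin 4) (Fin 4) ℂ) =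
        diagonal fun p : Fin 4 × Fin 4 => (usq p.1 : ℂ) := by
      rw [uu_Q0, ← diagonal_one, diagonal_kronecker_diagonal]
      simp
    rw [e1, diagonal_conjTranspose, diagonal_kronecker_diagonal]
    ext p q
    rw [Matrix.add_apply, Matrix.mul_diagonal, Matrix.diagonal_mul, Matrix.smul_apply,
      diagonal_apply, cq_apply, Pi.star_apply, star_ratCast, smul_eq_mul]
    have h := zq_twirl p q
    have h1 : ((zq p q + usq p.1 * usq q.1 * zq p q : ℚ) : ℂ) =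
        ((2 * if p = q then aq p.1 * bq p.2 else 0 : ℚ) : ℂ) := by rw [h]
    push_cast at h1
    have h2 : (((if p = q then aq p.1 * bq p.2 else 0 : ℚ)) : ℂ) =
        if p = q then (aq p.1 : ℂ) * (bq p.2 : ℂ) else 0 := by
      split_ifs <;> simp
    rw [h2] at h1
    linear_combination h1

theorem pieces0 : ∃ (m : ℕ) (σ : Fin m → Matrix (Fin 4 × Fin 4) (Fin 4 × Fin 4) ℂ),
    ∑ x, σ x = cq rq ∧ ∀ x, Piece (uu Q0) 1 (σ x) := by
  obtain ⟨n, M, N, hM, hN, hMN⟩ := rem_sep4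
  refine ⟨n + 1, Fin.cons (cq zq) fun k => M k ⊗ₖ N k, ?_, ?_⟩
  · rw [Fin.sum_univ_succ, Fin.cons_zero]
    simp only [Fin.cons_succ]
    rw [← hMN]
    abel
  · intro k
    refine Fin.cases ?_ (fun k => ?_) k
    · rw [Fin.cons_zero]
      exact zq_piece
    · rw [Fin.cons_succ]
      exact (prod_piece (hM k) (hN k)).1

theorem rank_one {d : ℕ} {Q : Matrix (Fin d) (Fin d) ℂ} (h : IsPr Q) (ht : Q.trace = 1) :
    ∃ e : Fin d → ℂ, ∑ i, e i * star (e i) = 1 ∧ Q = vecMulVec e (star e) := by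
  obtain ⟨W, J, h1, h2, h3⟩ := proj_diag h
  have hJ : J.card = 1 := by
    have e : Q.trace = (J.card : ℂ) := by
      rw [h3, trace_mul_comm, ← Matrix.mul_assoc, h2, one_mul, trace_diagonal]
      simp
    rw [e] at ht
    exact_mod_cast ht
  obtain ⟨j, rfl⟩ := Finset.card_eq_one.mp hJ
  have e : Q = vecMulVec (fun i => W i j) (star fun i => W i j) := by
    rw [h3]
    ext a b
    rw [Matrix.mul_apply, vecMulVec_apply, Finset.sum_eq_single j]
    · rw [Matrix.mul_diagonal]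
      simp
    · intro k _ hk
      rw [Matrix.mul_diagonal]
      simp [hk]
    · simp
  refine ⟨_, ?_, e⟩
  rw [e, trace_vecMulVec] at ht
  exact ht

theorem symp_proj {Q : Matrix (Fin 4) (Fin 4) ℂ} (h : IsPr Q) (ht : Q.trace = 1) :
    ∃ V : Matrix (Fin 4) (Fin 4) ℂ, V * Vᴴ = 1 ∧ Vᴴ * V = 1 ∧ V * Jc * Vᵀ = Jc ∧
      uu Q = V * uu Q0 * Vᴴ := by
  obtain ⟨e, he, hQ⟩ := rank_one h ht
  obtain ⟨V, h1, h2, h3, h4⟩ := exists_symp e he
  refine ⟨V, h1, h2, h3, ?_⟩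
  have e1 : Q = V * Q0 * Vᴴ := by
    rw [hQ]
    ext a b
    rw [Matrix.mul_apply, vecMulVec_apply, Finset.sum_eq_single 0]
    · rw [Matrix.mul_apply, Finset.sum_eq_single 0, Q0, single_apply_same, mul_one,
        conjTranspose_apply, h4, h4]
      · rfl
      · intro k _ hk
        rw [Q0, single_apply, if_neg (by simp [Ne.symm hk]), mul_zero]
      · simp
    · intro k _ hk
      rw [Matrix.mul_apply]
      rw [Finset.sum_eq_zero, zero_mul]
      intro l _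
      rw [Q0, single_apply, if_neg (by simp [Ne.symm hk]), mul_zero]
    · simp
  rw [uu, uu, Matrix.mul_sub, Matrix.sub_mul, mul_one, h1, Matrix.mul_smul, Matrix.smul_mul, ← e1]

/-- Pieces for Alice's projection. -/
theorem pieces4 {Q : Matrix (Fin 4) (Fin 4) ℂ} (h : IsPr Q) (ht : Q.trace = 1) :
    ∃ (m : ℕ) (σ : Fin m → Matrix (Fin 4 × Fin 4) (Fin 4 × Fin 4) ℂ),
      ∑ x, σ x = cq rq ∧ ∀ x, Piece (uu Q) 1 (σ x) := by
  obtain ⟨V, h1, h2, h3, h4⟩ := symp_proj h ht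
  obtain ⟨m, σ, s1, s2⟩ := pieces0
  refine ⟨m, fun x => (V ⊗ₖ V) * σ x * (V ⊗ₖ V)ᴴ, ?_, fun x => ?_⟩
  · rw [← Matrix.sum_mul, ← Matrix.mul_sum, s1, rq_inv h1 h3]
  · have := (s2 x).conj h2 h2
    rwa [← h4, mul_one, h1] at this

/-- Pieces for Bob's projection. -/
theorem pieces4' {Q : Matrix (Fin 4) (Fin 4) ℂ} (h : IsPr Q) (ht : Q.trace = 1) :
    ∃ (m : ℕ) (σ : Fin m → Matrix (Fin 4 × Fin 4) (Fin 4 × Fin 4) ℂ),
      ∑ x, σ x = cq rq ∧ ∀ x, Piece 1 (uu Q) (σ x) := by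
  obtain ⟨m, σ, s1, s2⟩ := pieces4 h ht
  refine ⟨m, fun x => Near.flip 4 * σ x * Near.flip 4, ?_, fun x => (s2 x).swap⟩
  rw [← Matrix.sum_mul, ← Matrix.mul_sum, s1, rq_swap]

end Vale.Agent.P372.PC
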