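import Vale.Agent.P372.R2.helper492.BlockC
import Vale.Agent.P372.R2.helper492.Br4

/-! The classes of matrices at one site. -/

open Matrix Kronecker
open scoped ComplexOrder MatrixOrder

set_option linter.unusedSectionVars false

namespace Vale.Agent.P372.PC

variable {A B : Type} [Fintype A] [DecidableEq A] [Fintype B] [DecidableEq B]

/-- The state is a sum of pieces. -/
def Good (VA : Set (Matrix A A ℂ)) (VB : Set (Matrix B B ℂ)) (ρ : Matrix (A × B) (A × B) ℂ) : Prop :=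
  ∃ (m : ℕ) (σ : Fin m → Matrix (A × B) (A × B) ℂ), ∑ x, σ x = ρ ∧ ∀ x, Pc VA VB (σ x)

/-- Closed under finite sums. -/
def Addi (V : Set (Matrix A A ℂ)) : Prop := 0 ∈ V ∧ ∀ x ∈ V, ∀ y ∈ V, x + y ∈ V

theorem Addi.sum {V : Set (Matrix A A ℂ)} (h : Addi V) {κ : Type} (s : Finset κ)
    (f : κ → Matrix A A ℂ) (hf : ∀ k ∈ s, f k ∈ V) : ∑ k ∈ s, f k ∈ V := by
  classical
  induction s using Finset.induction_on with
  | empty => simpa using h.1
  | insert a s ha ih =>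
    rw [Finset.sum_insert ha]
    exact h.2 _ (hf a (Finset.mem_insert_self a s)) _
      (ih fun k hk => hf k (Finset.mem_insert_of_mem hk))

/-! ### Exchange of the parties -/

/-- Exchange of the systems. -/
def swp (Z : Matrix (B × A) (B × A) ℂ) : Matrix (A × B) (A × B) ℂ := Z.submatrix Prod.swap Prod.swap

theorem swp_kron (M : Matrix B B ℂ) (N : Matrix A A ℂ) : swp (M ⊗ₖ N) = N ⊗ₖ M := by
  ext p q
  simp only [swp, submatrix_apply, kroneckerMap_apply, Prod.fst_swap, Prod.snd_swap]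
  ring

theorem swp_mul (M N : Matrix (B × A) (B × A) ℂ) : swp (M * N) = swp M * swp N := by
  rw [swp, swp, swp]
  exact (submatrix_mul_equiv M N Prod.swap (Equiv.prodComm A B) Prod.swap).symm

theorem swp_trace (M : Matrix (B × A) (B × A) ℂ) : (swp M).trace = M.trace := by
  rw [swp, Matrix.trace, Matrix.trace]
  exact Equiv.sum_comp (Equiv.prodComm A B) fun x => M x x

theorem swp_psd {M : Matrix (B × A) (B × A) ℂ} (h : M.PosSemidef) : (swp M).PosSemidef :=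
  h.submatrix _

theorem swp_swp (M : Matrix (B × A) (B × A) ℂ) : swp (swp M) = M := rfl

theorem swp_one : swp (1 : Matrix (B × A) (B × A) ℂ) = 1 := by
  rw [← one_kronecker_one, swp_kron, one_kronecker_one]

theorem Pc.swp {VA : Set (Matrix A A ℂ)} {VB : Set (Matrix B B ℂ)}
    {Z : Matrix (B × A) (B × A) ℂ} (h : Pc VB VA Z) : Pc VA VB (swp Z) := by
  obtain ⟨h1, α, β, h2, h3, h4⟩ := h
  refine ⟨swp_psd h1, β, α, h3, h2, fun m hm m' hm' => ?_⟩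
  rw [← swp_kron m' m, ← swp_mul, swp_trace, h4 m' hm' m hm, mul_comm]

theorem Good.swp {VA : Set (Matrix A A ℂ)} {VB : Set (Matrix B B ℂ)}
    {ρ : Matrix (A × B) (A × B) ℂ} (h : Good VB VA (swp ρ)) : Good VA VB ρ := by
  obtain ⟨m, σ, h1, h2⟩ := h
  refine ⟨m, fun x => PC.swp (σ x), ?_, fun x => (h2 x).swp⟩
  have h3 := congrArg PC.swp h1
  rw [swp_swp] at h3
  rw [← h3]
  ext p q
  simp only [PC.swp, Matrix.sum_apply, submatrix_apply]

/-! ### States close to the identity -/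

theorem Cond.good {C : ℝ} {V : Set (Matrix A A ℂ)} (h : Cond C V) {ρ : Matrix (A × B) (A × B) ℂ}
    {a b : ℝ} (h1 : (ρ - (a : ℂ) • 1).PosSemidef) (h2 : ((b : ℂ) • 1 - ρ).PosSemidef) (hab : a ≤ b)
    (hC0 : 0 ≤ C) (hC : C * b ≤ (C + 1) * a) :
    ∃ V', V ⊆ V' ∧ Addi V' ∧ Good V' Set.univ ρ := by
  obtain ⟨m, v, p, n, g1, g2, g3⟩ := h
  refine ⟨{x | ∑ y, (x * (p y - n y)).trace • v y = x}, fun x hx => g3 x hx, ⟨?_, ?_⟩,
    cond_pieces h1 h2 hab hC0 hC (fun y => (g1 y).1) (fun y => (g1 y).2.1) (fun y => (g1 y).2.2) g2⟩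
  · simp
  · intro x hx y hy
    have hx' : ∑ y, (x * (p y - n y)).trace • v y = x := hx
    have hy' : ∑ z, (y * (p z - n z)).trace • v z = y := hy
    change ∑ z, ((x + y) * (p z - n z)).trace • v z = x + y
    conv_rhs => rw [← hx', ← hy', ← Finset.sum_add_distrib]
    refine Finset.sum_congr rfl fun z _ => ?_
    rw [Matrix.add_mul, trace_add, add_smul]

theorem Blocks.cond {M : ℕ} {V : Set (Matrix A A ℂ)} (h : Blocks M V) : Cond (2 * M - 1) V := by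
  obtain ⟨W, c, hW, hc, hV⟩ := h
  have hW' : W * Wᴴ = 1 := mul_eq_one_comm.mp hW
  let e := Fintype.equivFin (A ⊕ ((A × A) × Fin 4))
  refine ⟨Fintype.card (A ⊕ ((A × A) × Fin 4)), fun y => W * bv c (e.symm y) * Wᴴ,
    fun y => W * bp c (e.symm y) * Wᴴ, fun y => W * bn c (e.symm y) * Wᴴ,
    fun y => ⟨(bv_psd c _).mul_mul_conjTranspose_same _, (bp_psd c _).mul_mul_conjTranspose_same _,
      (bn_psd c _).mul_mul_conjTranspose_same _⟩, ?_, ?_⟩
  · have h1 := (block_bound c hc).mul_mul_conjTranspose_same W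
    have ht : ∀ X : Matrix A A ℂ, (W * X * Wᴴ).trace = X.trace := by
      intro X
      rw [trace_mul_comm, ← Matrix.mul_assoc, hW, one_mul]
    have e1 : ∑ y, (W * bv c (e.symm y) * Wᴴ).trace •
        (W * bp c (e.symm y) * Wᴴ + W * bn c (e.symm y) * Wᴴ) =
        ∑ y, (W * bv c y * Wᴴ).trace • (W * bp c y * Wᴴ + W * bn c y * Wᴴ) :=
      Equiv.sum_comp e.symm fun y => (W * bv c y * Wᴴ).trace • (W * bp c y * Wᴴ + W * bn c y * Wᴴ)
    rw [e1]
    have e2 : W * ((((2 * M - 1 : ℝ)) : ℂ) • 1 - ∑ y, (bv c y).trace • (bp c y + bn c y)) * Wᴴ =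
        (((2 * M - 1 : ℝ)) : ℂ) • 1 -
          ∑ y, (W * bv c y * Wᴴ).trace • (W * bp c y * Wᴴ + W * bn c y * Wᴴ) := by
      rw [Matrix.mul_sub, Matrix.sub_mul, Matrix.mul_smul, Matrix.smul_mul, mul_one, hW',
        Matrix.mul_sum, Matrix.sum_mul]
      congr 1
      refine Finset.sum_congr rfl fun y _ => ?_
      rw [ht, Matrix.mul_smul, Matrix.smul_mul, Matrix.mul_add, Matrix.add_mul]
    rwa [← e2]
  · intro x hx
    have h1 := block_recon c (x := Wᴴ * x * W) (hV x hx)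
    have e1 : ∑ y, (x * (W * bp c (e.symm y) * Wᴴ - W * bn c (e.symm y) * Wᴴ)).trace •
        (W * bv c (e.symm y) * Wᴴ) =
        ∑ y, (x * (W * bp c y * Wᴴ - W * bn c y * Wᴴ)).trace • (W * bv c y * Wᴴ) :=
      Equiv.sum_comp e.symm fun y =>
        (x * (W * bp c y * Wᴴ - W * bn c y * Wᴴ)).trace • (W * bv c y * Wᴴ)
    rw [e1]
    have e2 : ∀ y, (x * (W * bp c y * Wᴴ - W * bn c y * Wᴴ)).trace =
        (Wᴴ * x * W * (bp c y - bn c y)).trace := by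
      intro y
      rw [← Matrix.sub_mul, ← Matrix.mul_sub, ← Matrix.mul_assoc, trace_mul_comm,
        ← Matrix.mul_assoc, ← Matrix.mul_assoc]
    simp only [e2]
    have e3 : ∑ y, (Wᴴ * x * W * (bp c y - bn c y)).trace • (W * bv c y * Wᴴ) =
        W * (∑ y, (Wᴴ * x * W * (bp c y - bn c y)).trace • bv c y) * Wᴴ := by
      rw [Matrix.mul_sum, Matrix.sum_mul]
      refine Finset.sum_congr rfl fun y _ => ?_
      rw [Matrix.mul_smul, Matrix.smul_mul]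
    rw [e3, h1]
    calc W * (Wᴴ * x * W) * Wᴴ = (W * Wᴴ) * x * (W * Wᴴ) := by simp only [Matrix.mul_assoc]
      _ = x := by rw [hW', one_mul, mul_one]

/-! ### Werner states: commutants of projections -/

theorem Piece.pc {v : Matrix A A ℂ} {w : Matrix B B ℂ} {Z : Matrix (A × B) (A × B) ℂ}
    (h : Piece v w Z) (hv : v * v = 1 ∧ vᴴ = v) (hw : w * w = 1 ∧ wᴴ = w)
    {VA : Set (Matrix A A ℂ)} {VB : Set (Matrix B B ℂ)} (h1 : ∀ x ∈ VA, v * x = x * v)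
    (h2 : ∀ x ∈ VB, w * x = x * w) : Pc VA VB Z := by
  obtain ⟨hZ, α, β, hα, hβ, hαβ⟩ := h
  refine ⟨hZ, α, β, hα, hβ, fun m hm m' hm' => ?_⟩
  have e1 : ((m ⊗ₖ m') * ((v ⊗ₖ w) * Z * (v ⊗ₖ w)ᴴ)).trace = ((m ⊗ₖ m') * Z).trace := by
    rw [← Matrix.mul_assoc, trace_mul_comm, ← Matrix.mul_assoc, ← Matrix.mul_assoc,
      conjTranspose_kronecker, hv.2, hw.2, ← mul_kronecker_mul, ← mul_kronecker_mul, h1 m hm,
      h2 m' hm', Matrix.mul_assoc m, Matrix.mul_assoc m', hv.1, hw.1, mul_one, mul_one]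
  have e2 : (2 : ℂ) * ((m ⊗ₖ m') * Z).trace = 2 * ((m * α).trace * (m' * β).trace) := by
    calc (2 : ℂ) * ((m ⊗ₖ m') * Z).trace
        = ((m ⊗ₖ m') * (Z + (v ⊗ₖ w) * Z * (v ⊗ₖ w)ᴴ)).trace := by
          rw [Matrix.mul_add, trace_add, e1]
          ring
      _ = _ := by
          rw [hαβ, Matrix.mul_smul, trace_smul, ← mul_kronecker_mul, trace_kronecker, smul_eq_mul]
  exact mul_left_cancel₀ two_ne_zero e2

theorem comm_addi (Q : Matrix A A ℂ) : Addi {x | Q * x = x * Q} := by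
  refine ⟨by simp, fun x hx y hy => ?_⟩
  have hx' : Q * x = x * Q := hx
  have hy' : Q * y = y * Q := hy
  change Q * (x + y) = (x + y) * Q
  rw [Matrix.mul_add, Matrix.add_mul, hx', hy']

theorem uu_comm {d : ℕ} {Q x : Matrix (Fin d) (Fin d) ℂ} (h : Q * x = x * Q) :
    uu Q * x = x * uu Q := by
  rw [uu, Matrix.sub_mul, Matrix.mul_sub, Matrix.smul_mul, Matrix.mul_smul, h, one_mul, mul_one]

theorem one_sym : (1 : Matrix A A ℂ) * 1 = 1 ∧ (1 : Matrix A A ℂ)ᴴ = 1 :=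
  ⟨one_mul 1, conjTranspose_one⟩

theorem Split.good {d : ℕ} (hd : 3 ≤ d) {t : ℝ} (ht : t = (d ^ 2 + 1) / d ^ 3)
    {V : Set (Matrix (Fin d) (Fin d) ℂ)} (h : Split V) :
    ∃ V', V ⊆ V' ∧ Addi V' ∧ Good V' Set.univ (1 - (t : ℂ) • Near.flip d) ∧
      Good Set.univ V' (1 - (t : ℂ) • Near.flip d) := by
  obtain ⟨Q, q1, q2, q3, q4, q5⟩ := h
  obtain ⟨m, σ, s1, s2⟩ := pieces hd ⟨q1, q2⟩ q3 q4 ht
  refine ⟨{x | Q * x = x * Q}, fun x hx => q5 x hx, comm_addi Q,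
    ⟨m, σ, s1, fun x => (s2 x).1.pc ⟨uu_sq ⟨q1, q2⟩, uu_herm ⟨q1, q2⟩⟩ one_sym
      (fun y hy => uu_comm hy) fun y _ => by rw [one_mul, mul_one]⟩,
    ⟨m, σ, s1, fun x => (s2 x).2.pc one_sym ⟨uu_sq ⟨q1, q2⟩, uu_herm ⟨q1, q2⟩⟩
      (fun y _ => by rw [one_mul, mul_one]) fun y hy => uu_comm hy⟩⟩

theorem Split1.good {V : Set (Matrix (Fin 4) (Fin 4) ℂ)} (h : Split1 V) :
    ∃ V', V ⊆ V' ∧ Addi V' ∧ Good V' Set.univ (cq rq) ∧ Good Set.univ V' (cq rq) := by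
  obtain ⟨Q, q1, q2, q3, q5⟩ := h
  obtain ⟨m, σ, s1, s2⟩ := pieces4 ⟨q1, q2⟩ q3
  obtain ⟨m', σ', s1', s2'⟩ := pieces4' ⟨q1, q2⟩ q3
  refine ⟨{x | Q * x = x * Q}, fun x hx => q5 x hx, comm_addi Q,
    ⟨m, σ, s1, fun x => (s2 x).pc ⟨uu_sq ⟨q1, q2⟩, uu_herm ⟨q1, q2⟩⟩ one_sym
      (fun y hy => uu_comm hy) fun y _ => by rw [one_mul, mul_one]⟩,
    ⟨m', σ', s1', fun x => (s2' x).pc one_sym ⟨uu_sq ⟨q1, q2⟩, uu_herm ⟨q1, q2⟩⟩
      (fun y _ => by rw [one_mul, mul_one]) fun y hy => uu_comm hy⟩⟩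

end Vale.Agent.P372.PC
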