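import Vale.Agent.P372.Bdl.B1

open Matrix Kronecker
open scoped ComplexOrder MatrixOrder

set_option linter.unusedSectionVars false

namespace Vale.Agent.P372.PC

variable {A B : Type} [Fintype A] [DecidableEq A] [Fintype B] [DecidableEq B]

theorem isSep_of_fintype {κ : Type} [Fintype κ] (M : κ → Matrix A A ℂ) (N : κ → Matrix B B ℂ)
    (hM : ∀ k, (M k).PosSemidef) (hN : ∀ k, (N k).PosSemidef) : IsSep (∑ k, M k ⊗ₖ N k) := by
  let e := Fintype.equivFin κ
  refine ⟨Fintype.card κ, fun k => M (e.symm k), fun k => N (e.symm k), fun k => hM _,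
    fun k => hN _, ?_⟩
  exact (Equiv.sum_comp e.symm fun k => M k ⊗ₖ N k).symm

theorem isSep_kron {M : Matrix A A ℂ} {N : Matrix B B ℂ} (hM : M.PosSemidef)
    (hN : N.PosSemidef) : IsSep (M ⊗ₖ N) := by
  have := isSep_of_fintype (κ := Unit) (fun _ => M) (fun _ => N) (fun _ => hM) (fun _ => hN)
  simpa using this

theorem IsSep.add' {R S : Matrix (A × B) (A × B) ℂ} (hR : IsSep R) (hS : IsSep S) :
    IsSep (R + S) := by
  obtain ⟨n, M, N, hM, hN, rfl⟩ := hR
  obtain ⟨n', M', N', hM', hN', rfl⟩ := hS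
  have := isSep_of_fintype (κ := Fin n ⊕ Fin n') (Sum.elim M M') (Sum.elim N N')
    (fun k => by cases k <;> simp [hM, hM']) (fun k => by cases k <;> simp [hN, hN'])
  simpa using this

theorem isSep_zero : IsSep (0 : Matrix (A × B) (A × B) ℂ) :=
  ⟨0, fun _ => 0, fun _ => 0, fun _ => PosSemidef.zero, fun _ => PosSemidef.zero, by simp⟩

theorem isSep_sum {κ : Type} (s : Finset κ) {R : κ → Matrix (A × B) (A × B) ℂ}
    (h : ∀ k ∈ s, IsSep (R k)) : IsSep (∑ k ∈ s, R k) := by
  classical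
  induction s using Finset.induction_on with
  | empty => simpa using isSep_zero
  | insert a s ha ih =>
    rw [Finset.sum_insert ha]
    exact IsSep.add' (h a (Finset.mem_insert_self a s))
      (ih fun k hk => h k (Finset.mem_insert_of_mem hk))

theorem IsSep.smul' {R : Matrix (A × B) (A × B) ℂ} (hR : IsSep R) {c : ℝ} (hc : 0 ≤ c) :
    IsSep ((c : ℂ) • R) := by
  obtain ⟨n, M, N, hM, hN, rfl⟩ := hR
  refine ⟨n, fun k => (c : ℂ) • M k, N, fun k => (hM k).smul (Complex.zero_le_real.mpr hc), hN, ?_⟩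
  rw [Finset.smul_sum]
  exact Finset.sum_congr rfl fun k _ => (smul_kronecker _ _ _).symm

theorem IsSep.conj' {R : Matrix (A × B) (A × B) ℂ} (hR : IsSep R) (V : Matrix A A ℂ)
    (W : Matrix B B ℂ) : IsSep ((V ⊗ₖ W) * R * (V ⊗ₖ W)ᴴ) := by
  obtain ⟨n, M, N, hM, hN, rfl⟩ := hR
  refine ⟨n, fun k => V * M k * Vᴴ, fun k => W * N k * Wᴴ,
    fun k => (hM k).mul_mul_conjTranspose_same _, fun k => (hN k).mul_mul_conjTranspose_same _, ?_⟩
  rw [Matrix.mul_sum, Matrix.sum_mul]
  refine Finset.sum_congr rfl fun k _ => ?_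
  rw [conjTranspose_kronecker, ← mul_kronecker_mul, ← mul_kronecker_mul]

theorem isSep_congr {R S : Matrix (A × B) (A × B) ℂ} (h : IsSep R) (e : S = R) : IsSep S := e ▸ h

end Vale.Agent.P372.PC
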