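import Vale.Agent.P372.R2.helper492.SiteM
import Vale.Agent.P372.R2.helper492.SepCone

/-! Pieces of a state close to the identity for matrices spanned by a well conditioned POVM. -/

open Matrix Kronecker
open scoped ComplexOrder MatrixOrder

set_option linter.unusedSectionVars false

namespace Vale.Agent.P372.PC

variable {A B : Type} [Fintype A] [DecidableEq A] [Fintype B] [DecidableEq B]

/-- The operator `tr_A [(v ⊗ 1) Z]`. -/
def pa (v : Matrix A A ℂ) (Z : Matrix (A × B) (A × B) ℂ) : Matrix B B ℂ :=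
  fun b b' => ∑ a, ∑ a', v a a' * Z (a', b) (a, b')

theorem pa_trace (v : Matrix A A ℂ) (m : Matrix B B ℂ) (Z : Matrix (A × B) (A × B) ℂ) :
    ((v ⊗ₖ m) * Z).trace = (m * pa v Z).trace := by
  rw [trace_expand]
  simp only [Fintype.sum_prod_type, Matrix.trace, Matrix.diag, Matrix.mul_apply, pa,
    Finset.mul_sum]
  calc ∑ a, ∑ a', ∑ b, ∑ b', v a a' * m b b' * Z (a', b') (a, b)
      = ∑ w : A × A, ∑ z : B × B, v w.1 w.2 * m z.1 z.2 * Z (w.2, z.2) (w.1, z.1) := by
        simp only [Fintype.sum_prod_type]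
    _ = ∑ z : B × B, ∑ w : A × A, v w.1 w.2 * m z.1 z.2 * Z (w.2, z.2) (w.1, z.1) :=
        Finset.sum_comm
    _ = _ := by
        simp only [Fintype.sum_prod_type]
        refine Finset.sum_congr rfl fun b _ => Finset.sum_congr rfl fun b' _ =>
          Finset.sum_congr rfl fun a _ => Finset.sum_congr rfl fun a' _ => ?_
        ring

theorem pa_add (v : Matrix A A ℂ) (Z Z' : Matrix (A × B) (A × B) ℂ) :
    pa v (Z + Z') = pa v Z + pa v Z' := by
  ext b b'
  simp only [pa, Matrix.add_apply, mul_add, Finset.sum_add_distrib]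

theorem pa_sub (v : Matrix A A ℂ) (Z Z' : Matrix (A × B) (A × B) ℂ) :
    pa v (Z - Z') = pa v Z - pa v Z' := by
  ext b b'
  simp only [pa, Matrix.sub_apply, mul_sub, Finset.sum_sub_distrib]

theorem pa_smul_one (v : Matrix A A ℂ) (c : ℂ) :
    pa v (c • (1 : Matrix (A × B) (A × B) ℂ)) = (c * v.trace) • 1 := by
  ext b b'
  simp only [pa, Matrix.smul_apply, smul_eq_mul, Matrix.trace, Matrix.diag]
  by_cases h : b = b'
  · subst h
    rw [one_apply_eq, mul_one, Finset.mul_sum]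
    refine Finset.sum_congr rfl fun a _ => ?_
    rw [Finset.sum_eq_single a]
    · rw [one_apply_eq]
      ring
    · intro a' _ ha
      rw [one_apply_ne (fun e => ha (congrArg Prod.fst e))]
      ring
    · simp
  · rw [one_apply_ne h, mul_zero]
    refine Finset.sum_eq_zero fun a _ => Finset.sum_eq_zero fun a' _ => ?_
    rw [one_apply_ne (fun e => h (congrArg Prod.snd e))]
    ring

/-- The operator `⟨f| ⊗ 1`. -/
def br (B : Type) [DecidableEq B] (f : A → ℂ) : Matrix B (A × B) ℂ :=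
  fun b p => if p.2 = b then f p.1 else 0

theorem br_conj (f : A → ℂ) (Z : Matrix (A × B) (A × B) ℂ) (b b' : B) :
    (br B f * Z * (br B f)ᴴ) b b' = ∑ a, ∑ a', star (f a) * f a' * Z (a', b) (a, b') := by
  rw [Matrix.mul_apply, Fintype.sum_prod_type]
  refine Finset.sum_congr rfl fun a _ => ?_
  rw [Finset.sum_eq_single b']
  · rw [Matrix.mul_apply, conjTranspose_apply, br, if_pos rfl, Fintype.sum_prod_type,
      Finset.sum_mul]
    refine Finset.sum_congr rfl fun a' _ => ?_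
    rw [Finset.sum_eq_single b]
    · simp only [br, if_true]
      ring
    · intro x _ hx
      simp only [br]
      rw [if_neg hx, zero_mul]
    · simp
  · intro x _ hx
    rw [conjTranspose_apply, br, if_neg hx, star_zero, mul_zero]
  · simp

theorem pa_psd {v : Matrix A A ℂ} {Z : Matrix (A × B) (A × B) ℂ} (hv : v.PosSemidef)
    (hZ : Z.PosSemidef) : (pa v Z).PosSemidef := by
  obtain ⟨C, hC⟩ := exists_eq_conjTranspose_mul_self hv
  have e : pa v Z = ∑ k, br B (C k) * Z * (br B (C k))ᴴ := by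
    ext b b'
    rw [Matrix.sum_apply]
    simp only [br_conj]
    rw [Finset.sum_comm, pa]
    refine Finset.sum_congr rfl fun a _ => ?_
    rw [Finset.sum_comm]
    refine Finset.sum_congr rfl fun a' _ => ?_
    rw [hC, Matrix.mul_apply, Finset.sum_mul]
    rfl
  rw [e]
  exact posSemidef_sum _ fun k _ => hZ.mul_mul_conjTranspose_same _

theorem pc_prod (VA : Set (Matrix A A ℂ)) (VB : Set (Matrix B B ℂ)) {M : Matrix A A ℂ}
    {N : Matrix B B ℂ} (hM : M.PosSemidef) (hN : N.PosSemidef) : Pc VA VB (M ⊗ₖ N) :=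
  ⟨hM.kronecker hN, M, N, hM, hN, fun m _ m' _ => by rw [← mul_kronecker_mul, trace_kronecker]⟩

/-- One piece and a separable rest. -/
theorem pieces_of_rem {VA : Set (Matrix A A ℂ)} {VB : Set (Matrix B B ℂ)}
    {ρ Z : Matrix (A × B) (A × B) ℂ} (h1 : Pc VA VB Z) (h2 : IsSep (ρ - Z)) :
    ∃ (m : ℕ) (σ : Fin m → Matrix (A × B) (A × B) ℂ), ∑ x, σ x = ρ ∧ ∀ x, Pc VA VB (σ x) := by
  obtain ⟨n, M, N, hM, hN, hMN⟩ := h2
  refine ⟨n + 1, Fin.cons Z fun k => M k ⊗ₖ N k, ?_, ?_⟩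
  · rw [Fin.sum_univ_succ, Fin.cons_zero]
    simp only [Fin.cons_succ]
    rw [← hMN]
    abel
  · intro k
    refine Fin.cases ?_ (fun k => ?_) k
    · rw [Fin.cons_zero]
      exact h1
    · rw [Fin.cons_succ]
      exact pc_prod VA VB (hM k) (hN k)

theorem cond_pieces {κ : Type} [Fintype κ] {ρ : Matrix (A × B) (A × B) ℂ} {a b C : ℝ}
    (h1 : (ρ - (a : ℂ) • 1).PosSemidef) (h2 : ((b : ℂ) • 1 - ρ).PosSemidef) (hab : a ≤ b)
    (hC0 : 0 ≤ C) (hC : C * b ≤ (C + 1) * a) {v p n : κ → Matrix A A ℂ} (hv : ∀ y, (v y).PosSemidef)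
    (hp : ∀ y, (p y).PosSemidef) (hn : ∀ y, (n y).PosSemidef)
    (hb : ((C : ℂ) • 1 - ∑ y, (v y).trace • (p y + n y)).PosSemidef) :
    ∃ (m : ℕ) (σ : Fin m → Matrix (A × B) (A × B) ℂ), ∑ x, σ x = ρ ∧
      ∀ x, Pc {x | ∑ y, (x * (p y - n y)).trace • v y = x} Set.univ (σ x) := by
  set θ : ℝ := (a + b) / 2 with hθ
  set ε : ℝ := (b - a) / 2 with hε
  have hε0 : 0 ≤ ε := by linarith only [hε, hab]
  have hεc : (0 : ℂ) ≤ (ε : ℂ) := Complex.zero_le_real.mpr hε0
  set Z : Matrix (A × B) (A × B) ℂ := ρ - (θ : ℂ) • 1 with hZ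
  have z1 : ((ε : ℂ) • 1 - Z).PosSemidef := by
    have e : (ε : ℂ) • 1 - Z = (b : ℂ) • 1 - ρ := by
      have e1 : (b : ℂ) = (ε : ℂ) + (θ : ℂ) := by
        rw [← Complex.ofReal_add]
        congr 1
        linarith only [hε, hθ]
      rw [hZ, e1, add_smul]
      abel
    rwa [e]
  have z2 : ((ε : ℂ) • 1 + Z).PosSemidef := by
    have e : (ε : ℂ) • 1 + Z = ρ - (a : ℂ) • 1 := by
      have e1 : (a : ℂ) = (θ : ℂ) - (ε : ℂ) := by
        rw [← Complex.ofReal_sub]
        congr 1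
        linarith only [hε, hθ]
      rw [hZ, e1, sub_smul]
      abel
    rwa [e]
  set ξ : κ → Matrix B B ℂ := fun y => pa (v y) Z with hξ
  have x1 : ∀ y, (((ε : ℂ) * (v y).trace) • 1 - ξ y).PosSemidef := by
    intro y
    have := pa_psd (hv y) z1
    rwa [pa_sub, pa_smul_one] at this
  have x2 : ∀ y, (((ε : ℂ) * (v y).trace) • 1 + ξ y).PosSemidef := by
    intro y
    have := pa_psd (hv y) z2
    rwa [pa_add, pa_smul_one] at this
  set L : Matrix (A × B) (A × B) ℂ := ∑ y, (p y - n y) ⊗ₖ ξ y with hL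
  set D : Matrix A A ℂ := (C : ℂ) • 1 - ∑ y, (v y).trace • (p y + n y) with hD
  -- the two bounds
  have s1 : ((ε * C : ℝ) : ℂ) • 1 - L = (ε : ℂ) • (D ⊗ₖ (1 : Matrix B B ℂ)) +
      (∑ y, p y ⊗ₖ (((ε : ℂ) * (v y).trace) • 1 - ξ y) +
        ∑ y, n y ⊗ₖ (((ε : ℂ) * (v y).trace) • 1 + ξ y)) := by
    ext q r
    simp only [hL, hD, Matrix.add_apply, Matrix.sub_apply, Matrix.smul_apply, Matrix.sum_apply,
      kroneckerMap_apply, smul_eq_mul, ← one_kronecker_one (α := ℂ) (m := A) (n := B)]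
    rw [← Finset.sum_add_distrib, sub_mul, mul_sub, Finset.sum_mul, Finset.mul_sum, sub_add,
      ← Finset.sum_sub_distrib]
    push_cast
    congr 1
    · ring
    · refine Finset.sum_congr rfl fun y _ => ?_
      ring
  have s2 : ((ε * C : ℝ) : ℂ) • 1 + L = (ε : ℂ) • (D ⊗ₖ (1 : Matrix B B ℂ)) +
      (∑ y, p y ⊗ₖ (((ε : ℂ) * (v y).trace) • 1 + ξ y) +
        ∑ y, n y ⊗ₖ (((ε : ℂ) * (v y).trace) • 1 - ξ y)) := by
    ext q r
    simp only [hL, hD, Matrix.add_apply, Matrix.sub_apply, Matrix.smul_apply, Matrix.sum_apply,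
      kroneckerMap_apply, smul_eq_mul, ← one_kronecker_one (α := ℂ) (m := A) (n := B)]
    rw [← Finset.sum_add_distrib, sub_mul, mul_sub, Finset.sum_mul, Finset.mul_sum]
    have e3 : ∑ y, (p y q.1 r.1 - n y q.1 r.1) * ξ y q.2 r.2 =
        -(∑ y, (ε : ℂ) * ((v y).trace * (p y q.1 r.1 + n y q.1 r.1) *
          (1 : Matrix B B ℂ) q.2 r.2)) +
        ∑ y, (p y q.1 r.1 * ((ε : ℂ) * (v y).trace * (1 : Matrix B B ℂ) q.2 r.2 + ξ y q.2 r.2) +
          n y q.1 r.1 * ((ε : ℂ) * (v y).trace * (1 : Matrix B B ℂ) q.2 r.2 - ξ y q.2 r.2)) := by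
      rw [← Finset.sum_neg_distrib, ← Finset.sum_add_distrib]
      refine Finset.sum_congr rfl fun y _ => ?_
      ring
    rw [e3]
    push_cast
    ring
  have hsep : IsSep (((ε * C : ℝ) : ℂ) • 1 + L) := by
    rw [s2]
    refine IsSep.add' (IsSep.smul' (isSep_kron hb PosSemidef.one) hε0)
      (IsSep.add' (isSep_sum _ fun y _ => isSep_kron (hp y) (x2 y))
        (isSep_sum _ fun y _ => isSep_kron (hn y) (x1 y)))
  have hpsd : (((ε * C : ℝ) : ℂ) • 1 - L).PosSemidef := by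
    rw [s1]
    exact ((hb.kronecker PosSemidef.one).smul hεc).add
      ((posSemidef_sum _ fun y _ => (hp y).kronecker (x1 y)).add
        (posSemidef_sum _ fun y _ => (hn y).kronecker (x2 y)))
  set δ : ℝ := ε * (1 + C) with hδ
  -- the piece
  refine pieces_of_rem (Z := (δ : ℂ) • 1 + Z - L) ⟨?_, (δ : ℂ) • 1, 1, ?_, PosSemidef.one, ?_⟩ ?_
  · have e : (δ : ℂ) • 1 + Z - L = ((ε : ℂ) • 1 + Z) + (((ε * C : ℝ) : ℂ) • 1 - L) := by
      have e1 : (δ : ℂ) = (ε : ℂ) + ((ε * C : ℝ) : ℂ) := by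
        rw [← Complex.ofReal_add]
        congr 1
        rw [hδ]
        ring
      rw [e1, add_smul]
      abel
    rw [e]
    exact z2.add hpsd
  · exact PosSemidef.one.smul (Complex.zero_le_real.mpr
      (mul_nonneg hε0 (by linarith only [hC0])))
  · intro x hx m' _
    have hx' : ∑ y, (x * (p y - n y)).trace • v y = x := hx
    have e1 : ((x ⊗ₖ m') * L).trace = ((x ⊗ₖ m') * Z).trace := by
      rw [hL, Matrix.mul_sum, trace_sum]
      have e2 : ∀ y, ((x ⊗ₖ m') * ((p y - n y) ⊗ₖ ξ y)).trace =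
          ((((x * (p y - n y)).trace • v y) ⊗ₖ m') * Z).trace := by
        intro y
        rw [← mul_kronecker_mul, trace_kronecker, smul_kronecker, Matrix.smul_mul, trace_smul,
          pa_trace, smul_eq_mul]
      simp only [e2]
      rw [← trace_sum, ← Matrix.sum_mul]
      congr 2
      conv_rhs => rw [← hx']
      ext q r
      simp only [Matrix.sum_apply, kroneckerMap_apply, Finset.sum_mul]
    rw [Matrix.mul_sub, Matrix.mul_add, trace_sub, trace_add, e1, Matrix.mul_smul, mul_one,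
      trace_smul, trace_kronecker, Matrix.mul_smul, mul_one, mul_one, trace_smul, smul_eq_mul,
      smul_eq_mul]
    ring
  · have e : ρ - ((δ : ℂ) • 1 + Z - L) =
        (((C + 1) * a - C * b : ℝ) : ℂ) • (1 ⊗ₖ 1) + (((ε * C : ℝ) : ℂ) • 1 + L) := by
      have e1 : (((C + 1) * a - C * b : ℝ) : ℂ) = (θ : ℂ) - (δ : ℂ) - ((ε * C : ℝ) : ℂ) := by
        rw [← Complex.ofReal_sub, ← Complex.ofReal_sub]
        congr 1
        rw [hδ, hθ, hε]
        ring
      rw [one_kronecker_one, e1, hZ, sub_smul, sub_smul]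
      abel
    rw [e]
    exact IsSep.add' (IsSep.smul' (isSep_kron PosSemidef.one PosSemidef.one)
      (by linarith only [hC])) hsep

end Vale.Agent.P372.PC
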