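import Vale.Agent.P372.PiTensor
import Vale.Agent.P372.TestDefs

open Matrix Kronecker
open scoped ComplexOrder MatrixOrder

set_option linter.unusedSectionVars false

namespace Vale.Agent.P372.LD

section PiT

variable {ι : Type} [Fintype ι] [DecidableEq ι] {E F : Type} [Fintype E] [DecidableEq E]
  [Fintype F] [DecidableEq F]

theorem piT_smul (c : ι → ℂ) (X : ι → Matrix E F ℂ) :
    piT (fun i => c i • X i) = (∏ i, c i) • piT X := by
  ext e f
  simp only [piT, Matrix.smul_apply, smul_eq_mul, Finset.prod_mul_distrib]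

/-- The sign `1` or `-1` of a bit. -/
def sg (b : Bool) : ℝ := if b then 1 else -1

theorem sg_prod (b : ι → Bool) : 0 ≤ 1 - ∏ i, sg (b i) := by
  have h : |∏ i, sg (b i)| = 1 := by
    rw [Finset.abs_prod]
    refine Finset.prod_eq_one fun i _ => ?_
    unfold sg
    split_ifs <;> norm_num
  have := le_abs_self (∏ i, sg (b i))
  linarith

/-- The difference of the tensor products of `U + V` and `U - V` is positive semidefinite. -/
theorem piT_add_sub (U V : ι → Matrix E E ℂ) (hU : ∀ i, (U i).PosSemidef)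
    (hV : ∀ i, (V i).PosSemidef) :
    (piT (fun i => U i + V i) - piT (fun i => U i - V i)).PosSemidef := by
  have h1 : (fun i => U i + V i) = fun i => ∑ b : Bool, (if b then U i else V i) := by
    funext i
    simp
  have h2 : (fun i => U i - V i) =
      fun i => ∑ b : Bool, ((sg b : ℂ) • (if b then U i else V i)) := by
    funext i
    simp [sg, sub_eq_add_neg]
  have h3 : piT (fun i => U i - V i) =
      ∑ b : ι → Bool, ((∏ i, (sg (b i) : ℂ)) • piT (fun i => if b i then U i else V i)) := by
    rw [h2, piT_sum]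
    refine Finset.sum_congr rfl fun b _ => ?_
    rw [← piT_smul]
  have h4 : piT (fun i => U i + V i) =
      ∑ b : ι → Bool, piT (fun i => if b i then U i else V i) := by
    rw [h1, piT_sum]
  rw [h3, h4, ← Finset.sum_sub_distrib]
  refine posSemidef_sum _ fun b _ => ?_
  have h5 : piT (fun i => if b i then U i else V i) -
      (∏ i, (sg (b i) : ℂ)) • piT (fun i => if b i then U i else V i) =
      ((1 - ∏ i, sg (b i) : ℝ) : ℂ) • piT (fun i => if b i then U i else V i) := by
    push_cast
    rw [sub_smul, one_smul]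
  rw [h5]
  refine PosSemidef.smul (piT_posSemidef fun i => ?_) ?_
  · split_ifs
    · exact hU i
    · exact hV i
  · exact_mod_cast sg_prod b

end PiT

section Tp

variable {A B : Type} {n : ℕ}

/-- The tensor product of the operators `Z i` on `A × B`, Alice's and Bob's systems collected. -/
def tp (Z : Fin n → Matrix (A × B) (A × B) ℂ) :
    Matrix ((Fin n → A) × (Fin n → B)) ((Fin n → A) × (Fin n → B)) ℂ :=
  fun p q => ∏ i, Z i (p.1 i, p.2 i) (q.1 i, q.2 i)

theorem tpow_eq (ρ : Matrix (A × B) (A × B) ℂ) : tpow n ρ = tp (fun _ => ρ) := rfl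

theorem tp_eq (Z : Fin n → Matrix (A × B) (A × B) ℂ) :
    tp Z = (piT Z).submatrix (Equiv.arrowProdEquivProdArrow (Fin n) (fun _ => A)
      (fun _ => B)).symm
      (Equiv.arrowProdEquivProdArrow (Fin n) (fun _ => A) (fun _ => B)).symm := rfl

variable [Fintype A] [DecidableEq A] [Fintype B] [DecidableEq B]

theorem tp_mul (Z W : Fin n → Matrix (A × B) (A × B) ℂ) :
    tp (fun i => Z i * W i) = tp Z * tp W := by
  rw [tp_eq, tp_eq, tp_eq, piT_mul, Matrix.submatrix_mul_equiv]

theorem tp_conjTranspose (Z : Fin n → Matrix (A × B) (A × B) ℂ) :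
    (tp Z)ᴴ = tp (fun i => (Z i)ᴴ) := by
  rw [tp_eq, tp_eq, conjTranspose_submatrix, piT_conjTranspose]

theorem tp_posSemidef {Z : Fin n → Matrix (A × B) (A × B) ℂ} (h : ∀ i, (Z i).PosSemidef) :
    (tp Z).PosSemidef := by
  rw [tp_eq]
  exact (piT_posSemidef h).submatrix _

theorem tp_sum {L : Type} [Fintype L] (Z : Fin n → L → Matrix (A × B) (A × B) ℂ) :
    tp (fun i => ∑ x, Z i x) = ∑ x : Fin n → L, tp (fun i => Z i (x i)) := by
  ext p q
  simp only [tp, Matrix.sum_apply]
  rw [Finset.prod_univ_sum]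
  simp only [Fintype.piFinset_univ]

theorem tp_smul (c : Fin n → ℂ) (Z : Fin n → Matrix (A × B) (A × B) ℂ) :
    tp (fun i => c i • Z i) = (∏ i, c i) • tp Z := by
  ext e f
  simp only [tp, Matrix.smul_apply, smul_eq_mul, Finset.prod_mul_distrib]

end Tp

end Vale.Agent.P372.LD
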