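import Vale.Agent.P372.R2.helper492.Proto

/-!
# Eve simulates any decomposition of the state (lemma (E) of helper353)
-/

namespace Vale.Agent.P372.LD.EveSim

open Matrix Kronecker Vale.Agent.P372.LD
open scoped ComplexOrder MatrixOrder

set_option linter.unusedSectionVars false

variable {G E κ : Type} [Fintype G] [DecidableEq G] [Fintype E] [DecidableEq E] [Fintype κ]

/-- `M ≤ S`, `P` a projection (Hermitian idempotent) with `P S = S`: `P M P = M`. -/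
theorem proj_mul_psd {S M P : Matrix G G ℂ} (hM : M.PosSemidef) (hMS : (S - M).PosSemidef)
    (hPH : P.IsHermitian) (hPS : P * S = S) : P * M * P = M := by
  -- (1-P) M (1-P) is PSD and ≤ 0
  have h1 : ((1 - P)ᴴ * M * (1 - P)).PosSemidef := hM.conjTranspose_mul_mul_same (1 - P)
  have h2 : ((1 - P)ᴴ * (S - M) * (1 - P)).PosSemidef := hMS.conjTranspose_mul_mul_same (1 - P)
  have hH : (1 - P)ᴴ = 1 - P := by
    rw [conjTranspose_sub, conjTranspose_one, hPH.eq]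
  rw [hH] at h1 h2
  have h3 : (1 - P) * (S - M) * (1 - P) = -((1 - P) * M * (1 - P)) := by
    have h0 : (1 - P) * S = 0 := by rw [Matrix.sub_mul, Matrix.one_mul, hPS, sub_self]
    rw [Matrix.mul_sub (1 - P) S M, h0, zero_sub, Matrix.neg_mul]
  rw [h3] at h2
  have h4 : (1 - P) * M * (1 - P) = 0 := by
    have ha : (0 : Matrix G G ℂ) ≤ (1 - P) * M * (1 - P) := Matrix.nonneg_iff_posSemidef.mpr h1
    have hb : (0 : Matrix G G ℂ) ≤ -((1 - P) * M * (1 - P)) := Matrix.nonneg_iff_posSemidef.mpr h2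
    exact le_antisymm (neg_nonneg.mp hb) ha
  -- M = R^H R
  obtain ⟨R, hR⟩ := CStarAlgebra.nonneg_iff_eq_star_mul_self.mp (Matrix.nonneg_iff_posSemidef.mpr hM)
  rw [Matrix.star_eq_conjTranspose] at hR
  have h5 : (R * (1 - P))ᴴ * (R * (1 - P)) = 0 := by
    rw [conjTranspose_mul, hH, Matrix.mul_assoc, ← Matrix.mul_assoc Rᴴ, ← hR, ← Matrix.mul_assoc, h4]
  have h6 : R * (1 - P) = 0 := conjTranspose_mul_self_eq_zero.mp h5
  have h7 : M * (1 - P) = 0 := by rw [hR, Matrix.mul_assoc, h6, Matrix.mul_zero]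
  have h8 : M * P = M := by
    rw [Matrix.mul_sub, Matrix.mul_one, sub_eq_zero] at h7
    exact h7.symm
  have h9 : P * M = M := by
    have := congrArg conjTranspose h8
    rwa [conjTranspose_mul, hPH.eq, hM.1.eq] at this
  rw [h9, h8]

/-- Lemma (E), matrix form: every decomposition `∑ M k = Ψ Ψᴴ` into positive semidefinite
matrices is realised by a sub-POVM `W` of Eve: `Ψ W_k Ψᴴ = M k`. -/
theorem exists_W (Ψ : Matrix G E ℂ) (M : κ → Matrix G G ℂ) (hM : ∀ k, (M k).PosSemidef)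
    (hsum : ∑ k, M k = Ψ * Ψᴴ) :
    ∃ W : κ → Matrix E E ℂ, (∀ k, (W k).PosSemidef) ∧ (1 - ∑ k, W k).PosSemidef ∧
      ∀ k, Ψ * W k * Ψᴴ = M k := by
  classical
  have hS : (Ψ * Ψᴴ).PosSemidef := posSemidef_self_mul_conjTranspose Ψ
  obtain ⟨Q, Q', P, hQ, hQ', hP1, hQQ, hl, hr, hP⟩ := exists_sqrt_pinv hS
  have hPl : Q' * Q = P := by rw [← hP, Matrix.mul_assoc, hr]
  have hPr : Q * Q' = P := by rw [← hP, hl]
  have hPS : P * (Ψ * Ψᴴ) = Ψ * Ψᴴ := by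
    rw [← hPr, Matrix.mul_assoc, hl, hQQ]
  have hSP : (Ψ * Ψᴴ) * P = Ψ * Ψᴴ := by
    rw [← hPl, ← Matrix.mul_assoc, hr, hQQ]
  have hPH : P.IsHermitian := by
    have := hP1.1
    have h2 : ((1 : Matrix G G ℂ) - P)ᴴ = 1 - P := this
    rw [conjTranspose_sub, conjTranspose_one] at h2
    have h3 : Pᴴ = P := by
      have := congrArg (fun X => 1 - X) h2
      simpa using this
    exact h3
  have hPP : P * P = P := by
    calc P * P = (Q' * Q) * P := by rw [hPl]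
      _ = Q' * (Q * (Q * Q')) := by rw [hPr, Matrix.mul_assoc]
      _ = Q' * ((Q * Q) * Q') := by rw [Matrix.mul_assoc Q]
      _ = Q' * (Ψ * Ψᴴ) * Q' := by rw [hQQ, ← Matrix.mul_assoc]
      _ = P := hP
  have hMS : ∀ k, (Ψ * Ψᴴ - M k).PosSemidef := by
    intro k
    rw [← hsum, ← Finset.add_sum_erase _ _ (Finset.mem_univ k), add_sub_cancel_left]
    exact posSemidef_sum _ fun j _ => hM j
  refine ⟨fun k => (Q' * Q' * Ψ)ᴴ * M k * (Q' * Q' * Ψ), fun k =>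
    (hM k).conjTranspose_mul_mul_same _, ?_, ?_⟩
  · -- sum of W
    have hR : (Q' * Ψ) * (Q' * Ψ)ᴴ = P := by
      rw [conjTranspose_mul, hQ'.1.eq]
      conv_rhs => rw [← hP]
      simp only [Matrix.mul_assoc]
    have hPR : P * (Q' * Ψ) = Q' * Ψ := by
      have h1 : ((1 - P) * (Q' * Ψ)) * ((1 - P) * (Q' * Ψ))ᴴ = 0 := by
        rw [conjTranspose_mul, Matrix.mul_assoc, ← Matrix.mul_assoc (Q' * Ψ), hR, ← Matrix.mul_assoc,
          Matrix.sub_mul, Matrix.one_mul, hPP, sub_self, Matrix.zero_mul]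
      have h2 := self_mul_conjTranspose_eq_zero.mp h1
      rw [Matrix.sub_mul, Matrix.one_mul, sub_eq_zero] at h2
      exact h2.symm
    have hsW : ∑ k, (Q' * Q' * Ψ)ᴴ * M k * (Q' * Q' * Ψ) = (Q' * Ψ)ᴴ * (Q' * Ψ) := by
      rw [← Matrix.sum_mul, ← Matrix.mul_sum, hsum]
      calc (Q' * Q' * Ψ)ᴴ * (Ψ * Ψᴴ) * (Q' * Q' * Ψ)
          = (Q' * Ψ)ᴴ * (Q' * (Ψ * Ψᴴ) * Q') * (Q' * Ψ) := by
            rw [Matrix.mul_assoc Q' Q' Ψ, conjTranspose_mul Q' (Q' * Ψ), hQ'.1.eq]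
            simp only [Matrix.mul_assoc]
        _ = (Q' * Ψ)ᴴ * (P * (Q' * Ψ)) := by rw [hP, Matrix.mul_assoc]
        _ = (Q' * Ψ)ᴴ * (Q' * Ψ) := by rw [hPR]
    rw [hsW]
    have hid : ((Q' * Ψ)ᴴ * (Q' * Ψ)) * ((Q' * Ψ)ᴴ * (Q' * Ψ)) = (Q' * Ψ)ᴴ * (Q' * Ψ) := by
      calc ((Q' * Ψ)ᴴ * (Q' * Ψ)) * ((Q' * Ψ)ᴴ * (Q' * Ψ))
          = (Q' * Ψ)ᴴ * (((Q' * Ψ) * (Q' * Ψ)ᴴ) * (Q' * Ψ)) := by simp only [Matrix.mul_assoc]
        _ = (Q' * Ψ)ᴴ * (Q' * Ψ) := by rw [hR, hPR]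
    have hH2 : ((Q' * Ψ)ᴴ * (Q' * Ψ))ᴴ = (Q' * Ψ)ᴴ * (Q' * Ψ) :=
      (isHermitian_conjTranspose_mul_self (Q' * Ψ)).eq
    have e : (1 - (Q' * Ψ)ᴴ * (Q' * Ψ)) =
        (1 - (Q' * Ψ)ᴴ * (Q' * Ψ))ᴴ * (1 - (Q' * Ψ)ᴴ * (Q' * Ψ)) := by
      rw [conjTranspose_sub, conjTranspose_one, hH2, Matrix.sub_mul, Matrix.mul_sub, Matrix.mul_sub,
        Matrix.one_mul, Matrix.mul_one, Matrix.one_mul, hid, sub_self, sub_zero]
    rw [e]
    exact posSemidef_conjTranspose_mul_self _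
  · intro k
    have h := proj_mul_psd (hM k) (hMS k) hPH hPS
    calc Ψ * ((Q' * Q' * Ψ)ᴴ * M k * (Q' * Q' * Ψ)) * Ψᴴ
        = ((Ψ * Ψᴴ) * Q') * Q' * M k * (Q' * (Q' * (Ψ * Ψᴴ))) := by
          simp only [conjTranspose_mul, hQ'.1.eq, Matrix.mul_assoc]
      _ = P * M k * P := by rw [hr, hl, hPr, hPl]
      _ = M k := h

/-- Lemma (E): Eve simulates any decomposition of the state. -/
theorem exists_Z {A B : Type} [Fintype A] [DecidableEq A] [Fintype B] [DecidableEq B]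
    (Ψ : Matrix (A × B) E ℂ) (M : κ → Matrix (A × B) (A × B) ℂ) (hM : ∀ k, (M k).PosSemidef)
    (hsum : ∑ k, M k = Ψ * Ψᴴ) :
    ∃ Z : κ → Matrix E E ℂ, (∀ k, (Z k).PosSemidef) ∧ (1 - ∑ k, Z k).PosSemidef ∧
      ∀ k X Y, (Z k * eve Ψ X Y).trace = ((X ⊗ₖ Y) * M k).trace := by
  obtain ⟨W, h1, h2, h3⟩ := exists_W Ψ M hM hsum
  refine ⟨fun k => (W k)ᵀ, fun k => (h1 k).transpose, ?_, fun k X Y => ?_⟩
  · have := h2.transpose
    rwa [transpose_sub, transpose_one, transpose_sum] at this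
  · rw [eve_eq', ← transpose_mul, trace_transpose, ← h3 k]
    calc (Ψᴴ * (X ⊗ₖ Y) * Ψ * W k).trace = ((Ψᴴ * (X ⊗ₖ Y)) * (Ψ * W k)).trace := by
          simp only [Matrix.mul_assoc]
      _ = ((Ψ * W k) * (Ψᴴ * (X ⊗ₖ Y))).trace := trace_mul_comm _ _
      _ = ((Ψ * W k * Ψᴴ) * (X ⊗ₖ Y)).trace := by simp only [Matrix.mul_assoc]
      _ = _ := trace_mul_comm _ _

end Vale.Agent.P372.LD.EveSim
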