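import Vale.Agent.P372.R2.helper492.SepCone

open Matrix Kronecker
open scoped ComplexOrder MatrixOrder

set_option linter.unusedSectionVars false

namespace Vale.Agent.P372.PC

variable {d : ℕ}

theorem kron_sw (M N : Matrix (Fin d) (Fin d) ℂ) : (M ⊗ₖ N) * Near.flip d = Near.flip d * (N ⊗ₖ M) := by
  ext ⟨a, b⟩ ⟨c, e⟩
  simp only [Matrix.mul_apply, Fintype.sum_prod_type, kroneckerMap_apply, Near.flip]
  rw [Finset.sum_eq_single e, Finset.sum_eq_single c, Finset.sum_eq_single b,
    Finset.sum_eq_single a]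
  · simp
    ring
  · intro y _ hy
    simp [Ne.symm hy]
  · simp
  · intro x _ hx
    refine Finset.sum_eq_zero fun y _ => ?_
    simp [Ne.symm hx]
  · simp
  · intro y _ hy
    simp [hy]
  · simp
  · intro x _ hx
    refine Finset.sum_eq_zero fun y _ => ?_
    simp [hx]
  · simp

theorem sep_pair (i j : Fin d) : IsSep
    ((single i i (1 : ℂ) + single j j 1) ⊗ₖ (single i i (1 : ℂ) + single j j 1) -
      single i j (1 : ℂ) ⊗ₖ single j i (1 : ℂ) - single j i (1 : ℂ) ⊗ₖ single i j (1 : ℂ)) := by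
  have hv : ∀ c : ℂ, c * star c = 1 → vecMulVec ((Pi.single i 1 : Fin d → ℂ) + c • Pi.single j 1)
      (star ((Pi.single i 1 : Fin d → ℂ) + c • Pi.single j 1)) =
      (single i i (1 : ℂ) + single j j 1) + c • single j i 1 + star c • single i j 1 := by
    intro c hc
    ext p q
    simp only [vecMulVec_apply, Pi.add_apply, Pi.smul_apply, Pi.star_apply, smul_eq_mul,
      Matrix.add_apply, Matrix.smul_apply, star_add, star_mul', single_apply, Pi.single_apply]
    have s1 : ∀ (a b : Fin d), star (if a = b then (1 : ℂ) else 0) = if a = b then 1 else 0 := by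
      intro a b
      split_ifs <;> simp
    simp only [s1]
    have e1 : ∀ (a b x y : Fin d), (if a = x ∧ b = y then (1 : ℂ) else 0) =
        (if x = a then 1 else 0) * (if y = b then 1 else 0) := by
      intro a b x y
      by_cases h1 : a = x
      · by_cases h2 : b = y
        · simp [h1, h2]
        · have : ¬ y = b := fun h => h2 h.symm
          simp [h2, this]
      · have : ¬ x = a := fun h => h1 h.symm
        simp [h1, this]
    simp only [e1]
    linear_combination ((if p = j then 1 else 0) * (if q = j then (1 : ℂ) else 0)) * hc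
  set D : Matrix (Fin d) (Fin d) ℂ := single i i (1 : ℂ) + single j j 1 with hD
  have hc : ∀ k : Fin 4, Complex.I ^ (k : ℕ) * star (Complex.I ^ (k : ℕ)) = 1 := by
    intro k
    rw [RCLike.star_def, map_pow, Complex.conj_I, ← mul_pow]
    simp
  have hc' : ∀ k : Fin 4, (-Complex.I ^ (k : ℕ)) * star (-Complex.I ^ (k : ℕ)) = 1 := by
    intro k
    rw [star_neg, neg_mul_neg]
    exact hc k
  have := isSep_of_fintype (κ := Fin 4)
    (fun k => ((1 / 4 : ℝ) : ℂ) • vecMulVec
      ((Pi.single i 1 : Fin d → ℂ) + (Complex.I ^ (k : ℕ)) • Pi.single j 1)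
      (star ((Pi.single i 1 : Fin d → ℂ) + (Complex.I ^ (k : ℕ)) • Pi.single j 1)))
    (fun k => vecMulVec
      ((Pi.single i 1 : Fin d → ℂ) + (-Complex.I ^ (k : ℕ)) • Pi.single j 1)
      (star ((Pi.single i 1 : Fin d → ℂ) + (-Complex.I ^ (k : ℕ)) • Pi.single j 1)))
    (fun k => (posSemidef_vecMulVec_self_star _).smul
      (Complex.zero_le_real.mpr (by norm_num)))
    (fun k => posSemidef_vecMulVec_self_star _)
  refine isSep_congr this ?_
  simp only [fun k => hv _ (hc k), fun k => hv _ (hc' k)]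
  rw [Fin.sum_univ_four]
  ext p q
  simp only [Matrix.add_apply, Matrix.sub_apply, kroneckerMap_apply, Matrix.smul_apply,
    smul_eq_mul]
  simp only [Fin.isValue, Fin.val_zero, pow_zero, Fin.val_one, pow_one, Fin.val_two, star_one,
    star_neg, star_pow, RCLike.star_def, Complex.conj_I]
  have h3 : ((3 : Fin 4) : ℕ) = 3 := rfl
  rw [h3]
  have hI : Complex.I ^ 2 = -1 := Complex.I_sq
  have hI3 : Complex.I ^ 3 = -Complex.I := by
    rw [pow_succ, hI]; ring
  have hI4 : Complex.I ^ 4 = 1 := by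
    rw [pow_succ, hI3]; rw [neg_mul, Complex.I_mul_I, neg_neg]
  have hI6 : Complex.I ^ 6 = -1 := by
    rw [show (6 : ℕ) = 4 + 2 from rfl, pow_add, hI4, hI, one_mul]
  push_cast
  ring_nf
  simp only [hI, hI3, hI4, hI6]
  ring

theorem single_psd (i : Fin d) : (single i i (1 : ℂ) : Matrix (Fin d) (Fin d) ℂ).PosSemidef := by
  rw [single_eq_single_vecMulVec_single]
  have : (Pi.single i 1 : Fin d → ℂ) = star (Pi.single i 1 : Fin d → ℂ) := by
    rw [Pi.star_def]
    funext j
    by_cases h : j = i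
    · subst h
      simp
    · simp [h]
  conv => arg 1; arg 2; rw [this]
  exact posSemidef_vecMulVec_self_star _

theorem sum_erase2 {M : Type} [AddCommGroup M] (J : Finset (Fin d)) (f : Fin d → Fin d → M) :
    ∑ i ∈ J, ∑ j ∈ J.erase i, f i j = ∑ i ∈ J, ∑ j ∈ J, f i j - ∑ i ∈ J, f i i := by
  rw [← Finset.sum_sub_distrib]
  refine Finset.sum_congr rfl fun i hi => ?_
  rw [← Finset.sum_erase_add J (f i) hi, add_sub_cancel_right]

theorem diag_eq_sum (J : Finset (Fin d)) :
    (diagonal fun j => if j ∈ J then (1 : ℂ) else 0) = ∑ i ∈ J, single i i (1 : ℂ) := by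
  ext a b
  rw [Matrix.sum_apply]
  simp only [diagonal_apply, single_apply]
  by_cases h : a = b
  · subst h
    simp only [and_self, if_true, Finset.sum_ite_eq']
  · rw [if_neg h]
    symm
    refine Finset.sum_eq_zero fun i _ => ?_
    rw [if_neg]
    rintro ⟨rfl, h'⟩
    exact h h'

theorem kron_single_sw (i j : Fin d) :
    (single i i (1 : ℂ) ⊗ₖ single j j (1 : ℂ)) * Near.flip d = single i j (1 : ℂ) ⊗ₖ single j i 1 := by
  ext ⟨a, b⟩ ⟨c, e⟩
  simp only [Matrix.mul_apply, Fintype.sum_prod_type, kroneckerMap_apply, Near.flip, single_apply]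
  rw [Finset.sum_eq_single i, Finset.sum_eq_single j]
  · split_ifs <;> simp_all
  · intro y _ hy
    simp [Ne.symm hy]
  · simp
  · intro x _ hx
    refine Finset.sum_eq_zero fun y _ => ?_
    simp [Ne.symm hx]
  · simp

/-- `m Π ⊗ Π - (Π ⊗ Π) F` is separable for a diagonal projection `Π` of rank `m`. -/
theorem sep_diag (J : Finset (Fin d)) : IsSep
    ((J.card : ℂ) • ((diagonal fun j => if j ∈ J then (1 : ℂ) else 0) ⊗ₖ
      (diagonal fun j => if j ∈ J then (1 : ℂ) else 0)) -
      ((diagonal fun j => if j ∈ J then (1 : ℂ) else 0) ⊗ₖ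
        (diagonal fun j => if j ∈ J then (1 : ℂ) else 0)) * Near.flip d) := by
  classical
  have h1 : IsSep (((1 / 2 : ℝ) : ℂ) • ∑ i ∈ J, ∑ j ∈ J.erase i,
      ((single i i (1 : ℂ) + single j j 1) ⊗ₖ (single i i (1 : ℂ) + single j j 1) -
      single i j (1 : ℂ) ⊗ₖ single j i (1 : ℂ) - single j i (1 : ℂ) ⊗ₖ single i j (1 : ℂ))) :=
    IsSep.smul' (isSep_sum _ fun i _ => isSep_sum _ fun j _ => sep_pair i j) (by norm_num)
  have h2 : IsSep (∑ i ∈ J, ∑ j ∈ J.erase i, (((J.card - 1 : ℝ) : ℂ) •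
      (single i i (1 : ℂ) ⊗ₖ single j j (1 : ℂ)))) := by
    refine isSep_sum _ fun i hi => isSep_sum _ fun j _ =>
      IsSep.smul' (isSep_kron (single_psd i) (single_psd j)) ?_
    have : 0 < J.card := Finset.card_pos.mpr ⟨i, hi⟩
    have : (1 : ℝ) ≤ J.card := by exact_mod_cast this
    linarith
  refine isSep_congr (IsSep.add' h1 h2) ?_
  set D : Fin d → Fin d → Matrix (Fin d × Fin d) (Fin d × Fin d) ℂ := fun i j =>
    single i i (1 : ℂ) ⊗ₖ single j j (1 : ℂ) with hD
  set X : Fin d → Fin d → Matrix (Fin d × Fin d) (Fin d × Fin d) ℂ := fun i j =>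
    single i j (1 : ℂ) ⊗ₖ single j i (1 : ℂ) with hX
  have e0 : (diagonal fun j => if j ∈ J then (1 : ℂ) else 0) ⊗ₖ
      (diagonal fun j => if j ∈ J then (1 : ℂ) else 0) = ∑ i ∈ J, ∑ j ∈ J, D i j := by
    rw [diag_eq_sum]
    ext p q
    rw [kroneckerMap_apply, Matrix.sum_apply, Matrix.sum_apply, Finset.sum_mul_sum,
      Matrix.sum_apply]
    refine Finset.sum_congr rfl fun i _ => ?_
    rw [Matrix.sum_apply]
    rfl
  have e1 : (∑ i ∈ J, ∑ j ∈ J, D i j) * Near.flip d = ∑ i ∈ J, ∑ j ∈ J, X i j := by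
    rw [Matrix.sum_mul]
    refine Finset.sum_congr rfl fun i _ => ?_
    rw [Matrix.sum_mul]
    exact Finset.sum_congr rfl fun j _ => kron_single_sw i j
  have e2 : ∀ i j, ((single i i (1 : ℂ) + single j j 1) ⊗ₖ (single i i (1 : ℂ) + single j j 1) -
      single i j (1 : ℂ) ⊗ₖ single j i (1 : ℂ) - single j i (1 : ℂ) ⊗ₖ single i j (1 : ℂ)) =
      D i i + D i j + D j i + D j j - X i j - X j i := by
    intro i j
    simp only [hD, hX, add_kronecker, kronecker_add]
    abel
  have e3 : ∀ i, X i i = D i i := fun i => rfl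
  have e4 : ∀ i j : Fin d, single i i (1 : ℂ) ⊗ₖ single j j (1 : ℂ) = D i j := fun _ _ => rfl
  rw [e0, e1]
  simp only [e2, e4]
  rw [sum_erase2, sum_erase2]
  simp only [Finset.sum_add_distrib, Finset.sum_sub_distrib, e3, Finset.sum_const]
  have c1 : ∑ i ∈ J, ∑ j ∈ J, D j i = ∑ i ∈ J, ∑ j ∈ J, D i j := Finset.sum_comm
  have c2 : ∑ i ∈ J, ∑ j ∈ J, X j i = ∑ i ∈ J, ∑ j ∈ J, X i j := Finset.sum_comm
  rw [c1, c2]
  simp only [← Finset.smul_sum]
  have c3 : ∀ M : Matrix (Fin d × Fin d) (Fin d × Fin d) ℂ, J.card • M = (J.card : ℂ) • M :=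
    fun M => (Nat.cast_smul_eq_nsmul ℂ _ _).symm
  simp only [c3]
  ext p q
  simp only [Matrix.add_apply, Matrix.sub_apply, Matrix.smul_apply, smul_eq_mul]
  push_cast
  ring

end Vale.Agent.P372.PC
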