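import Vale.Agent.P372.Bdl.B1

/-! Giving up a part of the purification: a test on `R ⊗ S` is not better than a test on `R`. -/

open Matrix Kronecker
open scoped ComplexOrder MatrixOrder

set_option linter.unusedSectionVars false

namespace Vale.Agent.P372.PC

open Vale.Agent.P372.Half

variable {A B α β F : Type} [Fintype A] [DecidableEq A] [Fintype B] [DecidableEq B] [Fintype α]
  [DecidableEq α] [Fintype β] [DecidableEq β] [Fintype F] [DecidableEq F]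

/-- The test inequality for four operators. -/
def TT (R : Matrix (A × B) (A × B) ℂ) (X₀ X₁ : Matrix A A ℂ) (Y₀ Y₁ : Matrix B B ℂ) : Prop :=
  traceNorm ((X₀ ⊗ₖ Y₀) * R * (X₁ ⊗ₖ Y₁)ᴴ) ^ 4 ≤
    weight R X₀ Y₀ * weight R X₀ Y₁ * weight R X₁ Y₀ * weight R X₁ Y₁

def Gam (X : Matrix (A × α) (A × α) ℂ) (Y : Matrix (B × β) (B × β) ℂ) (K : Matrix (α × β) F ℂ) :
    Matrix (((A × α) × (B × β)) × F) (A × B) ℂ :=
  fun p q => ∑ x, ∑ y, X p.1.1 (q.1, x) * Y p.1.2 (q.2, y) * K (x, y) p.2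

theorem gam_sum (X : Matrix (A × α) (A × α) ℂ) (Y : Matrix (B × β) (B × β) ℂ)
    (K : Matrix (α × β) F ℂ) (c : (A × α) × (B × β)) (f : F) (φ : A × B → ℂ) :
    ∑ p : (A × α) × (B × β), (X ⊗ₖ Y) c p * (φ (p.1.1, p.2.1) * K (p.1.2, p.2.2) f) =
      ∑ r, Gam X Y K (c, f) r * φ r := by
  simp only [Fintype.sum_prod_type, kroneckerMap_apply, Gam, Finset.sum_mul]
  refine Finset.sum_congr rfl fun a _ => ?_
  rw [Finset.sum_comm]
  refine Finset.sum_congr rfl fun b _ => ?_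
  refine Finset.sum_congr rfl fun x _ => Finset.sum_congr rfl fun y _ => ?_
  ring

theorem join_eq_ptr (R : Matrix (A × B) (A × B) ℂ) (K : Matrix (α × β) F ℂ)
    (X₀ X₁ : Matrix (A × α) (A × α) ℂ) (Y₀ Y₁ : Matrix (B × β) (B × β) ℂ) :
    (X₀ ⊗ₖ Y₀) * join R (K * Kᴴ) * (X₁ ⊗ₖ Y₁)ᴴ =
      Half.ptr (Gam X₀ Y₀ K * R * (Gam X₁ Y₁ K)ᴴ) := by
  ext c c'
  have h1 : ∀ q : (A × α) × (B × β), ((X₀ ⊗ₖ Y₀) * join R (K * Kᴴ)) c q =
      ∑ f, (Gam X₀ Y₀ K * R) (c, f) (q.1.1, q.2.1) * star (K (q.1.2, q.2.2) f) := by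
    intro q
    have h2 : ∀ f, (Gam X₀ Y₀ K * R) (c, f) (q.1.1, q.2.1) =
        ∑ p : (A × α) × (B × β), (X₀ ⊗ₖ Y₀) c p *
          (R (p.1.1, p.2.1) (q.1.1, q.2.1) * K (p.1.2, p.2.2) f) := by
      intro f
      rw [Matrix.mul_apply]
      exact (gam_sum X₀ Y₀ K c f (fun r => R r (q.1.1, q.2.1))).symm
    simp only [h2, Finset.sum_mul]
    rw [Finset.sum_comm, Matrix.mul_apply]
    refine Finset.sum_congr rfl fun p _ => ?_
    simp only [join, Matrix.mul_apply (M := K), conjTranspose_apply]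
    rw [Finset.mul_sum, Finset.mul_sum]
    refine Finset.sum_congr rfl fun f _ => ?_
    ring
  rw [Matrix.mul_apply]
  simp only [h1, conjTranspose_apply, Finset.sum_mul]
  rw [Finset.sum_comm, Half.ptr]
  refine Finset.sum_congr rfl fun f _ => ?_
  have h3 := congrArg star (gam_sum X₁ Y₁ K c' f (fun r => star ((Gam X₀ Y₀ K * R) (c, f) r)))
  rw [star_sum, star_sum] at h3
  rw [Matrix.mul_apply]
  simp only [conjTranspose_apply]
  calc _ = ∑ p : (A × α) × (B × β), star ((X₁ ⊗ₖ Y₁) c' p *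
        (star ((Gam X₀ Y₀ K * R) (c, f) (p.1.1, p.2.1)) * K (p.1.2, p.2.2) f)) := by
        refine Finset.sum_congr rfl fun p _ => ?_
        rw [star_mul', star_mul', star_star]
        ring
    _ = _ := h3
    _ = _ := by
        refine Finset.sum_congr rfl fun r _ => ?_
        rw [star_mul', star_star]
        ring

theorem gam_gram (X : Matrix (A × α) (A × α) ℂ) (Y : Matrix (B × β) (B × β) ℂ)
    (K : Matrix (α × β) F ℂ) {P : Matrix A A ℂ} {Q : Matrix B B ℂ}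
    (h : ∀ a a' b b', ∑ x, ∑ x', ∑ y, ∑ y', (Xᴴ * X) (a, x) (a', x') * (Yᴴ * Y) (b, y) (b', y') *
      (K * Kᴴ) (x', y') (x, y) = P a a' * Q b b') :
    (Gam X Y K)ᴴ * Gam X Y K = P ⊗ₖ Q := by
  ext ⟨a, b⟩ ⟨a', b'⟩
  rw [kroneckerMap_apply, ← h, Matrix.mul_apply]
  simp only [conjTranspose_apply, Gam, star_sum, Fintype.sum_prod_type (α₁ := (A × α) × (B × β)),
    Fintype.sum_prod_type (α₁ := A × α) (α₂ := B × β)]
  have e : ∀ (x x' : α) (y y' : β), (Xᴴ * X) (a, x) (a', x') * (Yᴴ * Y) (b, y) (b', y') *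
      (K * Kᴴ) (x', y') (x, y) = ∑ i, ∑ j, ∑ f, star (X i (a, x) * Y j (b, y) * K (x, y) f) *
        (X i (a', x') * Y j (b', y') * K (x', y') f) := by
    intro x x' y y'
    rw [Matrix.mul_apply, Matrix.mul_apply, Matrix.mul_apply, Finset.sum_mul_sum, Finset.sum_mul]
    refine Finset.sum_congr rfl fun i _ => ?_
    rw [Finset.sum_mul]
    refine Finset.sum_congr rfl fun j _ => ?_
    rw [Finset.mul_sum]
    refine Finset.sum_congr rfl fun f _ => ?_
    simp only [conjTranspose_apply, star_mul']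
    ring
  simp only [e]
  have c1 : ∀ (G : (A × α) → (B × β) → F → α → β → α → β → ℂ),
      ∑ i, ∑ j, ∑ f, ∑ x, ∑ y, ∑ x', ∑ y', G i j f x y x' y' =
      ∑ x, ∑ x', ∑ y, ∑ y', ∑ i, ∑ j, ∑ f, G i j f x y x' y' := by
    intro G
    calc ∑ i, ∑ j, ∑ f, ∑ x, ∑ y, ∑ x', ∑ y', G i j f x y x' y'
        = ∑ w : (A × α) × (B × β) × F, ∑ z : α × β × α × β, G w.1 w.2.1 w.2.2 z.1 z.2.1 z.2.2.1
            z.2.2.2 := by
          simp only [Fintype.sum_prod_type]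
      _ = ∑ z : α × β × α × β, ∑ w : (A × α) × (B × β) × F, G w.1 w.2.1 w.2.2 z.1 z.2.1 z.2.2.1
            z.2.2.2 := Finset.sum_comm
      _ = ∑ x, ∑ y, ∑ x', ∑ y', ∑ i, ∑ j, ∑ f, G i j f x y x' y' := by
          simp only [Fintype.sum_prod_type]
      _ = _ := Finset.sum_congr rfl fun x _ => Finset.sum_comm
  rw [← c1]
  refine Finset.sum_congr rfl fun i _ => Finset.sum_congr rfl fun j _ =>
    Finset.sum_congr rfl fun f _ => ?_
  rw [Finset.sum_mul]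
  refine Finset.sum_congr rfl fun x _ => ?_
  rw [Finset.sum_mul]
  refine Finset.sum_congr rfl fun y _ => ?_
  rw [Finset.mul_sum]
  refine Finset.sum_congr rfl fun x' _ => ?_
  rw [Finset.mul_sum]

theorem join_gen (R : Matrix (A × B) (A × B) ℂ) (S : Matrix (α × β) (α × β) ℂ)
    (hS : S.PosSemidef) (X : Bool → Matrix (A × α) (A × α) ℂ) (Y : Bool → Matrix (B × β) (B × β) ℂ)
    (P : Bool → Matrix A A ℂ) (Q : Bool → Matrix B B ℂ) (hP : ∀ k, (P k).PosSemidef)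
    (hQ : ∀ k, (Q k).PosSemidef)
    (h : ∀ k l a a' b b', ∑ x, ∑ x', ∑ y, ∑ y', ((X k)ᴴ * X k) (a, x) (a', x') *
      ((Y l)ᴴ * Y l) (b, y) (b', y') * S (x', y') (x, y) = P k a a' * Q l b b')
    (hR : ∀ (X₀ X₁ : Matrix A A ℂ) (Y₀ Y₁ : Matrix B B ℂ), TT R X₀ X₁ Y₀ Y₁) :
    TT (join R S) (X false) (X true) (Y false) (Y true) := by
  obtain ⟨C, hC⟩ := exists_eq_conjTranspose_mul_self hS
  obtain ⟨K, hK⟩ : ∃ K : Matrix (α × β) (α × β) ℂ, S = K * Kᴴ :=
    ⟨Cᴴ, by rw [conjTranspose_conjTranspose, hC]⟩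
  subst hK
  choose s hs using fun k => exists_eq_conjTranspose_mul_self (hP k)
  choose t ht using fun k => exists_eq_conjTranspose_mul_self (hQ k)
  have hgram : ∀ k l, (Gam (X k) (Y l) K)ᴴ * Gam (X k) (Y l) K =
      (s k ⊗ₖ t l)ᴴ * (s k ⊗ₖ t l) := by
    intro k l
    rw [gam_gram (X k) (Y l) K (h k l), conjTranspose_kronecker, ← mul_kronecker_mul, ← hs, ← ht]
  have hw : ∀ k l, weight (join R (K * Kᴴ)) (X k) (Y l) = weight R (s k) (t l) := by
    intro k l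
    rw [weight, join_eq_ptr, Half.trace_ptr, weight]
    have h3 : ∀ {C : Type} [Fintype C] [DecidableEq C] (L : Matrix C (A × B) ℂ),
        (L * R * Lᴴ).trace = (R * (Lᴴ * L)).trace := by
      intro C _ _ L
      rw [trace_mul_comm, ← Matrix.mul_assoc, trace_mul_comm]
    rw [h3, h3, hgram]
  rw [TT, hw, hw, hw, hw]
  refine le_trans (pow_le_pow_left₀ (traceNorm_nonneg _) ?_ 4)
    (hR (s false) (s true) (t false) (t true))
  rw [join_eq_ptr]
  exact (Half.ptr_le _).trans (traceNorm_gram_le _ _ _ _ (hgram _ _) (hgram _ _) R)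

end Vale.Agent.P372.PC
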