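import Vale.Agent.P372.R2.helper492.Split

/-! The tests on sites where the state is close to the identity; the sum over the pieces. -/

open Matrix Kronecker
open scoped ComplexOrder MatrixOrder

set_option linter.unusedSectionVars false

namespace Vale.Agent.P372.PC

open Vale.Agent.P372.Half (tf join)

variable {ι : Type} [Fintype ι] [DecidableEq ι]
variable {A B : Type} [Fintype A] [DecidableEq A] [Fintype B] [DecidableEq B]

theorem tf_smul_one (a : ℝ) :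
    tf (fun _ : ι => (a : ℂ) • (1 : Matrix (A × B) (A × B) ℂ)) =
      ((a ^ Fintype.card ι : ℝ) : ℂ) • 1 := by
  ext p q
  simp only [tf_apply, Matrix.smul_apply, smul_eq_mul, Finset.prod_mul_distrib, Finset.prod_const,
    Finset.card_univ]
  push_cast
  congr 1
  have h0 : tf (fun _ : ι => (1 : Matrix (A × B) (A × B) ℂ)) = 1 := by
    rw [← one_kronecker_one, tf_kron, piT_one, piT_one, one_kronecker_one]
  exact congrFun (congrFun h0 p) q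

theorem tf_mono {C D : ι → Matrix (A × B) (A × B) ℂ} (h0 : ∀ i, (D i).PosSemidef)
    (h1 : ∀ i, (C i - D i).PosSemidef) : (tf C - tf D).PosSemidef := by
  have h := (Near.piT_sub_piT_posSemidef h0 h1).submatrix
    (fun (p : (ι → A) × (ι → B)) k => (p.1 k, p.2 k))
  exact h

theorem near_sites {ρ : Matrix (A × B) (A × B) ℂ} {t : ℝ} (ht1 : t ≤ 1)
    (h1 : (ρ - (((1 - t : ℝ)) : ℂ) • 1).PosSemidef)
    (h2 : ((((1 + t : ℝ)) : ℂ) • 1 - ρ).PosSemidef)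
    (h3 : 6 / 7 ≤ (1 - t) ^ Fintype.card ι) (h4 : (1 + t) ^ Fintype.card ι ≤ 8 / 7)
    (X₀ X₁ : Matrix (ι → A) (ι → A) ℂ) (Y₀ Y₁ : Matrix (ι → B) (ι → B) ℂ) :
    TT (tf fun _ : ι => ρ) X₀ X₁ Y₀ Y₁ := by
  have hone : ∀ {a : ℝ}, 0 ≤ a → ((a : ℂ) • (1 : Matrix (A × B) (A × B) ℂ)).PosSemidef :=
    fun ha => PosSemidef.one.smul (by exact_mod_cast ha)
  have hone' : ∀ {a : ℝ}, 0 ≤ a →
      ((a : ℂ) • (1 : Matrix ((ι → A) × (ι → B)) ((ι → A) × (ι → B)) ℂ)).PosSemidef :=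
    fun ha => PosSemidef.one.smul (by exact_mod_cast ha)
  have hρ : ρ.PosSemidef := by
    have := h1.add (hone (sub_nonneg.mpr ht1))
    rwa [sub_add_cancel] at this
  have k1 := tf_mono (fun _ : ι => hone (sub_nonneg.mpr ht1)) (fun _ => h1)
  have k2 := tf_mono (fun _ : ι => hρ) (fun _ => h2)
  rw [tf_smul_one] at k1 k2
  refine Near.all_tests ?_ ?_ X₀ X₁ Y₀ Y₁
  · have := k1.add (hone' (sub_nonneg.mpr h3))
    rw [Complex.ofReal_sub, sub_smul] at this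
    have e : tf (fun _ : ι => ρ) - ((((1 - t) ^ Fintype.card ι : ℝ)) : ℂ) •
        (1 : Matrix ((ι → A) × (ι → B)) ((ι → A) × (ι → B)) ℂ) +
        (((((1 - t) ^ Fintype.card ι : ℝ)) : ℂ) • 1 - ((6 / 7 : ℝ) : ℂ) • 1) =
        tf (fun _ : ι => ρ) - ((6 / 7 : ℝ) : ℂ) • 1 := by abel
    rwa [e] at this
  · have := k2.add (hone' (sub_nonneg.mpr h4))
    rw [Complex.ofReal_sub, sub_smul] at this
    have e : ((((1 + t) ^ Fintype.card ι : ℝ)) : ℂ) •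
        (1 : Matrix ((ι → A) × (ι → B)) ((ι → A) × (ι → B)) ℂ) - tf (fun _ : ι => ρ) +
        (((8 / 7 : ℝ) : ℂ) • 1 - ((((1 + t) ^ Fintype.card ι : ℝ)) : ℂ) • 1) =
        ((8 / 7 : ℝ) : ℂ) • 1 - tf (fun _ : ι => ρ) := by abel
    rwa [e] at this

theorem TT_sum {κ : Type} [Fintype κ] (S : κ → Matrix (A × B) (A × B) ℂ)
    (hS : ∀ τ, (S τ).PosSemidef) (X₀ X₁ : Matrix A A ℂ) (Y₀ Y₁ : Matrix B B ℂ)
    (h : ∀ τ, TT (S τ) X₀ X₁ Y₀ Y₁) : TT (∑ τ, S τ) X₀ X₁ Y₀ Y₁ :=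
  Half.sum_tests4 S hS X₀ X₁ Y₀ Y₁ h

/-- All tests fail when the sites outside `pr` have decompositions into pieces. -/
theorem all_sites (pr : ι → Prop) [DecidablePred pr] (ρ : Matrix (A × B) (A × B) ℂ)
    (hρ : ρ.PosSemidef) (v : ι → Matrix A A ℂ) (w : ι → Matrix B B ℂ)
    (hv : ∀ i, ¬ pr i → v i * v i = 1 ∧ (v i)ᴴ = v i)
    (hw : ∀ i, ¬ pr i → w i * w i = 1 ∧ (w i)ᴴ = w i)
    (hpc : ∀ i, ¬ pr i → ∃ (m : ℕ) (σ : Fin m → Matrix (A × B) (A × B) ℂ), ∑ x, σ x = ρ ∧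
      ∀ x, Piece (v i) (w i) (σ x))
    (X : Bool → Matrix (ι → A) (ι → A) ℂ) (Y : Bool → Matrix (ι → B) (ι → B) ℂ)
    (hX : ∀ k i, ¬ pr i → at1 i (v i) * ((X k)ᴴ * X k) = (X k)ᴴ * X k * at1 i (v i))
    (hY : ∀ k i, ¬ pr i → at1 i (w i) * ((Y k)ᴴ * Y k) = (Y k)ᴴ * Y k * at1 i (w i))
    (hR : ∀ X₀ X₁ Y₀ Y₁, TT (tf fun _ : {i // pr i} => ρ) X₀ X₁ Y₀ Y₁) :
    TT (tf fun _ : ι => ρ) (X false) (X true) (Y false) (Y true) := by
  have h1 : ∀ i, ∃ (m : ℕ) (σ : Fin m → Matrix (A × B) (A × B) ℂ), ∑ x, σ x = ρ ∧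
      (pr i → ∀ x, σ x = ρ) ∧ (¬ pr i → ∀ x, Piece (v i) (w i) (σ x)) := by
    intro i
    by_cases hi : pr i
    · exact ⟨1, fun _ => ρ, by simp, fun _ _ => rfl, fun h => absurd hi h⟩
    · obtain ⟨m, σ, hσ, hσ'⟩ := hpc i hi
      exact ⟨m, σ, hσ, fun h => absurd h hi, fun _ => hσ'⟩
  choose m σ hσ hσ1 hσ2 using h1
  have e : tf (fun _ : ι => ρ) = ∑ x : (∀ i, Fin (m i)), tf (fun i => σ i (x i)) := by
    rw [← tf_sum]
    congr 1
    funext i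
    exact (hσ i).symm
  have hps : ∀ i x, (σ i x).PosSemidef := by
    intro i x
    by_cases hi : pr i
    · rw [hσ1 i hi x]; exact hρ
    · exact (hσ2 i hi x).1
  rw [e]
  refine TT_sum (fun x : (∀ i, Fin (m i)) => tf (fun i => σ i (x i)))
    (fun x => tf_posSemidef fun i => hps i (x i)) (X false) (X true) (Y false) (Y true)
    fun x => ?_
  refine base pr (fun i => σ i (x i)) v w hv hw (fun i hi => hσ2 i hi (x i)) X Y hX hY ?_
  have e2 : (fun i : {i // pr i} => σ i (x i)) = fun _ => ρ := by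
    funext i
    exact hσ1 i.1 i.2 (x i)
  rw [e2]
  exact hR

end Vale.Agent.P372.PC
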