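import Vale.Agent.P372.R2.helper492.RealC
import Vale.Agent.P372.R2.helper492.ProtoB

/-! No key when on all but a few copies the effects of one party are restricted. -/

open Matrix Kronecker
open scoped ComplexOrder MatrixOrder

set_option linter.unusedSectionVars false

namespace Vale.Agent.P372.PC

open Vale.Agent.P372.Half (tf join)

section scale

variable {A B : Type} [Fintype A] [DecidableEq A] [Fintype B] [DecidableEq B]

theorem TT_smul {R : Matrix (A × B) (A × B) ℂ} {c : ℝ} (hc : 0 ≤ c) {X₀ X₁ : Matrix A A ℂ}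
    {Y₀ Y₁ : Matrix B B ℂ} (h : TT R X₀ X₁ Y₀ Y₁) : TT ((c : ℂ) • R) X₀ X₁ Y₀ Y₁ := by
  rw [TT] at h ⊢
  rw [Near.weight_smul, Near.weight_smul, Near.weight_smul, Near.weight_smul, Matrix.mul_smul,
    Matrix.smul_mul, traceNorm_smul, Complex.norm_real, Real.norm_of_nonneg hc]
  have h4 : 0 ≤ c ^ 4 := by positivity
  calc (c * traceNorm ((X₀ ⊗ₖ Y₀) * R * (X₁ ⊗ₖ Y₁)ᴴ)) ^ 4
      = c ^ 4 * traceNorm ((X₀ ⊗ₖ Y₀) * R * (X₁ ⊗ₖ Y₁)ᴴ) ^ 4 := by ring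
    _ ≤ c ^ 4 * (weight R X₀ Y₀ * weight R X₀ Y₁ * weight R X₁ Y₀ * weight R X₁ Y₁) :=
      mul_le_mul_of_nonneg_left h h4
    _ = _ := by ring

theorem tpow_smul (n : ℕ) (c : ℝ) (R : Matrix (A × B) (A × B) ℂ) :
    tpow n ((c : ℂ) • R) = ((c ^ n : ℝ) : ℂ) • tpow n R := by
  ext p q
  simp only [tpow, Matrix.smul_apply, smul_eq_mul, Finset.prod_mul_distrib, Finset.prod_const,
    Finset.card_univ, Fintype.card_fin]
  push_cast
  rfl

/-- Bounds for tensor powers. -/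
theorem tf_bounds {ι : Type} [Fintype ι] [DecidableEq ι] {ρ : Matrix (A × B) (A × B) ℂ} {a b : ℝ}
    (ha : 0 ≤ a) (h1 : (ρ - (a : ℂ) • 1).PosSemidef) (h2 : ((b : ℂ) • 1 - ρ).PosSemidef) :
    (tf (fun _ : ι => ρ) - ((a ^ Fintype.card ι : ℝ) : ℂ) • 1).PosSemidef ∧
      (((b ^ Fintype.card ι : ℝ) : ℂ) • 1 - tf (fun _ : ι => ρ)).PosSemidef := by
  have hone : ((a : ℂ) • (1 : Matrix (A × B) (A × B) ℂ)).PosSemidef :=
    PosSemidef.one.smul (Complex.zero_le_real.mpr ha)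
  have hρ : ρ.PosSemidef := by
    have := h1.add hone
    rwa [sub_add_cancel] at this
  have k1 := tf_mono (fun _ : ι => hone) (fun _ => h1)
  have k2 := tf_mono (fun _ : ι => hρ) (fun _ => h2)
  rw [tf_smul_one] at k1 k2
  exact ⟨k1, k2⟩

/-- All tests fail for a state whose largest eigenvalue is at most `4/3` times the smallest. -/
theorem near_ratio {R : Matrix (A × B) (A × B) ℂ} {a b : ℝ} (ha : 0 < a)
    (h1 : (R - (a : ℂ) • 1).PosSemidef) (h2 : ((b : ℂ) • 1 - R).PosSemidef) (hb : 3 * b ≤ 4 * a)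
    (X₀ X₁ : Matrix A A ℂ) (Y₀ Y₁ : Matrix B B ℂ) : TT R X₀ X₁ Y₀ Y₁ := by
  set c : ℝ := 6 / 7 / a with hc
  have hc0 : 0 < c := by positivity
  have hca : c * a = 6 / 7 := by rw [hc]; field_simp
  have e : R = ((c⁻¹ : ℝ) : ℂ) • ((c : ℂ) • R) := by
    rw [smul_smul, ← Complex.ofReal_mul, inv_mul_cancel₀ hc0.ne', Complex.ofReal_one, one_smul]
  rw [e]
  refine TT_smul (inv_nonneg.mpr hc0.le) (Near.all_tests ?_ ?_ X₀ X₁ Y₀ Y₁)
  · have e1 : (c : ℂ) • R - ((6 / 7 : ℝ) : ℂ) • 1 = (c : ℂ) • (R - (a : ℂ) • 1) := by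
      rw [smul_sub, smul_smul, ← Complex.ofReal_mul, hca]
    rw [e1]
    exact h1.smul (Complex.zero_le_real.mpr hc0.le)
  · have e1 : ((8 / 7 : ℝ) : ℂ) • 1 - (c : ℂ) • R =
        (c : ℂ) • ((b : ℂ) • 1 - R) + ((8 / 7 - c * b : ℝ) : ℂ) • 1 := by
      rw [smul_sub, smul_smul, Complex.ofReal_sub, sub_smul, Complex.ofReal_mul]
      abel
    rw [e1]
    refine (h2.smul (Complex.zero_le_real.mpr hc0.le)).add
      (PosSemidef.one.smul (Complex.zero_le_real.mpr ?_))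
    have : c * b ≤ c * (4 / 3 * a) := mul_le_mul_of_nonneg_left (by linarith only [hb]) hc0.le
    have h3 : c * (4 / 3 * a) = 8 / 7 := by
      calc c * (4 / 3 * a) = 4 / 3 * (c * a) := by ring
        _ = 8 / 7 := by rw [hca]; norm_num
    linarith only [this, h3]

theorem pow_ratio {a b : ℝ} (ha : 0 < a) (hab : a ≤ b) {s N : ℕ} (hs : s ≤ N)
    (h : 3 * b ^ N ≤ 4 * a ^ N) : 3 * b ^ s ≤ 4 * a ^ s := by
  obtain ⟨k, rfl⟩ := Nat.exists_eq_add_of_le hs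
  rw [pow_add, pow_add] at h
  have h1 : a ^ k ≤ b ^ k := pow_le_pow_left₀ ha.le hab k
  have h2 : 0 < a ^ k := pow_pos ha k
  have h3 : 0 ≤ b ^ s := pow_nonneg (ha.le.trans hab) s
  have h4 : 3 * b ^ s * a ^ k ≤ 4 * a ^ s * a ^ k := by
    calc 3 * b ^ s * a ^ k ≤ 3 * b ^ s * b ^ k :=
          mul_le_mul_of_nonneg_left h1 (mul_nonneg (by norm_num) h3)
      _ = 3 * (b ^ s * b ^ k) := by ring
      _ ≤ 4 * (a ^ s * a ^ k) := h
      _ = _ := by ring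
  exact le_of_mul_le_mul_right h4 h2

end scale

section main

variable {A B : Type} [Fintype A] [DecidableEq A] [Fintype B] [DecidableEq B]

theorem siteMat_sum {ι κ : Type} [Fintype ι] [DecidableEq ι] (i : ι)
    (s : Finset κ) (M : κ → Matrix (ι → A) (ι → A) ℂ) (r r' : ι → A) :
    siteMat i (∑ k ∈ s, M k) r r' = ∑ k ∈ s, siteMat i (M k) r r' := by
  ext a a'
  simp only [siteMat, Matrix.sum_apply]

theorem site_closed {ι κ : Type} [Fintype ι] [DecidableEq ι] [Fintype κ] {i : ι}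
    {M : κ → Matrix (ι → A) (ι → A) ℂ} {V V' : Set (Matrix A A ℂ)} (hV : V ⊆ V') (hA : Addi V')
    (hM : siteSet i M ⊆ V) (s : κ → Prop) [DecidablePred s] {P : Matrix (ι → A) (ι → A) ℂ}
    (hP : P = ∑ k, if s k then M k else 0) (r r' : ι → A) : siteMat i P r r' ∈ V' := by
  rw [hP, siteMat_sum]
  refine hA.sum _ _ fun k _ => ?_
  split_ifs
  · exact hV (hM ⟨k, r, r', rfl⟩)
  · exact hA.1

/-- From pieces to protocols. -/
theorem noKey_of_good {R : Matrix (A × B) (A × B) ℂ} {c : ℝ} (hc : 0 ≤ c) (hR : R.PosSemidef)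
    (N : ℕ) (P : Set (Matrix A A ℂ) → Prop) (Q : Set (Matrix B B ℂ) → Prop)
    (hP : ∀ V, P V → ∃ V', V ⊆ V' ∧ Addi V' ∧ Good V' Set.univ R)
    (hQ : ∀ V, Q V → ∃ V', V ⊆ V' ∧ Addi V' ∧ Good Set.univ V' R)
    (hN : ∀ (κ : Type) [Fintype κ] [DecidableEq κ], Fintype.card κ ≤ N →
      ∀ X₀ X₁ Y₀ Y₁, TT (tf fun _ : κ => R) X₀ X₁ Y₀ Y₁) : NoKey ((c : ℂ) • R) N P Q := by
  intro E _ _ Ψ hΨ n ℓ hℓ T _ f g hL hS herr
  obtain ⟨hf, hg⟩ := locc_psd hL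
  obtain ⟨t, X, Y, hX, hY, hlt⟩ := test_of_keyError (copies n Ψ) ⟨0, hℓ⟩ f g hf hg herr
  rw [copies_mul, hΨ, tpow_smul] at hlt
  obtain ⟨S, hS1, hS2⟩ := hS t
  have huA : Addi (Set.univ : Set (Matrix A A ℂ)) := ⟨trivial, fun _ _ _ _ => trivial⟩
  have huB : Addi (Set.univ : Set (Matrix B B ℂ)) := ⟨trivial, fun _ _ _ _ => trivial⟩
  have hex : ∀ i, ∃ (VA : Set (Matrix A A ℂ)) (VB : Set (Matrix B B ℂ)), i ∉ S →
      Good VA VB R ∧ (∀ b x x', siteMat i ((X b)ᴴ * X b) x x' ∈ VA) ∧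
      (∀ b y y', siteMat i ((Y b)ᴴ * Y b) y y' ∈ VB) := by
    intro i
    by_cases hi : i ∈ S
    · exact ⟨Set.univ, Set.univ, fun h => absurd hi h⟩
    rcases hS2 i hi with h | h
    · obtain ⟨V', h1, h2, h3⟩ := hP _ h
      exact ⟨V', Set.univ, fun _ => ⟨h3,
        fun b x x' => site_closed h1 h2 le_rfl (fun k => k ⟨0, hℓ⟩ = b) (hX b) x x',
        fun _ _ _ => trivial⟩⟩
    · obtain ⟨V', h1, h2, h3⟩ := hQ _ h
      exact ⟨Set.univ, V', fun _ => ⟨h3, fun _ _ _ => trivial,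
        fun b x x' => site_closed h1 h2 le_rfl (fun k => k ⟨0, hℓ⟩ = b) (hY b) x x'⟩⟩
  choose VA VB hV using hex
  obtain ⟨pr, hpr⟩ : ∃ pr : Fin n → Prop, ∀ i, i ∈ S ↔ pr i := ⟨fun i => i ∈ S, fun _ => Iff.rfl⟩
  haveI : DecidablePred pr := Classical.decPred pr
  have h1 : TT (tpow n R) (X false) (X true) (Y false) (Y true) := by
    refine all_pc pr R hR VA VB (fun i hi => (hV i fun h => hi ((hpr i).mp h)).1) X Y
      (fun b i hi => (hV i fun h => hi ((hpr i).mp h)).2.1 b)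
      (fun b i hi => (hV i fun h => hi ((hpr i).mp h)).2.2 b) (hN _ ?_)
    rw [Fintype.card_of_subtype S hpr]
    exact hS1
  exact absurd hlt (not_lt.mpr (TT_smul (pow_nonneg hc n) h1))

/-- States close to the identity. -/
theorem ball {ρ : Matrix (A × B) (A × B) ℂ} {a b C : ℝ} (ha : 0 < a) (hab : a ≤ b)
    (h1 : (ρ - (a : ℂ) • 1).PosSemidef) (h2 : ((b : ℂ) • 1 - ρ).PosSemidef) (N : ℕ)
    (hC0 : 0 ≤ C) (hC : C * b ≤ (C + 1) * a) (hN : 3 * b ^ N ≤ 4 * a ^ N) :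
    NoKey ρ N (Cond C) (Cond C) := by
  have hρ : ρ.PosSemidef := by
    have := h1.add (PosSemidef.one.smul (α := ℂ) (a := (a : ℂ)) (Complex.zero_le_real.mpr ha.le))
    rwa [sub_add_cancel] at this
  have h := noKey_of_good (R := ρ) (c := 1) zero_le_one hρ N (Cond C) (Cond C)
    (fun V hV => Cond.good hV h1 h2 hab hC0 hC) (fun V hV => ?_) ?_
  · rwa [Complex.ofReal_one, one_smul] at h
  · have g1 : (swp ρ - (a : ℂ) • 1).PosSemidef := by
      have := swp_psd h1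
      have e : swp (ρ - (a : ℂ) • 1) = swp ρ - (a : ℂ) • (1 : Matrix (B × A) (B × A) ℂ) := by
        conv_rhs => rw [← swp_one]
        rfl
      rwa [e] at this
    have g2 : ((b : ℂ) • 1 - swp ρ).PosSemidef := by
      have := swp_psd h2
      have e : swp ((b : ℂ) • 1 - ρ) = (b : ℂ) • (1 : Matrix (B × A) (B × A) ℂ) - swp ρ := by
        conv_rhs => rw [← swp_one]
        rfl
      rwa [e] at this
    obtain ⟨V', k1, k2, k3⟩ := Cond.good hV g1 g2 hab hC0 hC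
    exact ⟨V', k1, k2, Good.swp k3⟩
  · intro κ _ _ hκ X₀ X₁ Y₀ Y₁
    obtain ⟨b1, b2⟩ := tf_bounds (ι := κ) ha.le h1 h2
    exact near_ratio (pow_pos ha _) b1 b2 (pow_ratio ha hab hκ hN) X₀ X₁ Y₀ Y₁

/-- Blocks of `k` copies. -/
theorem ball_blocks {ρ : Matrix (A × B) (A × B) ℂ} {a b C : ℝ} (ha : 0 < a) (hab : a ≤ b)
    (h1 : (ρ - (a : ℂ) • 1).PosSemidef) (h2 : ((b : ℂ) • 1 - ρ).PosSemidef) (k N : ℕ)
    (hC0 : 0 ≤ C) (hC : C * b ^ k ≤ (C + 1) * a ^ k) (hN : 3 * b ^ (k * N) ≤ 4 * a ^ (k * N)) :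
    NoKey (tpow k ρ) N (Cond C) (Cond C) := by
  obtain ⟨b1, b2⟩ := tf_bounds (ι := Fin k) ha.le h1 h2
  rw [Fintype.card_fin] at b1 b2
  exact ball (pow_pos ha k) (pow_le_pow_left₀ ha.le hab k) b1 b2 N hC0 hC
    (by rw [← pow_mul, ← pow_mul]; exact hN)

end main

end Vale.Agent.P372.PC
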