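import Vale.Agent.P372.R2.helper492.Join

/-! Tests on several copies which are pieces, the other copies being close to the identity. -/

open Matrix Kronecker
open scoped ComplexOrder MatrixOrder

set_option linter.unusedSectionVars false

namespace Vale.Agent.P372.PC

open Vale.Agent.P372.Half (tf join)

section reindex

variable {A B A' B' : Type} [Fintype A] [DecidableEq A] [Fintype B] [DecidableEq B]
  [Fintype A'] [DecidableEq A'] [Fintype B'] [DecidableEq B']

theorem TT_submatrix (eA : A' ≃ A) (eB : B' ≃ B) (R : Matrix (A × B) (A × B) ℂ)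
    (X₀ X₁ : Matrix A' A' ℂ) (Y₀ Y₁ : Matrix B' B' ℂ)
    (h : TT R (X₀.submatrix eA.symm eA.symm) (X₁.submatrix eA.symm eA.symm)
      (Y₀.submatrix eB.symm eB.symm) (Y₁.submatrix eB.symm eB.symm)) :
    TT (R.submatrix (eA.prodCongr eB) (eA.prodCongr eB)) X₀ X₁ Y₀ Y₁ := by
  have hkr : ∀ (X : Matrix A' A' ℂ) (Y : Matrix B' B' ℂ), X ⊗ₖ Y =
        (X.submatrix eA.symm eA.symm ⊗ₖ Y.submatrix eB.symm eB.symm).submatrix (eA.prodCongr eB)
          (eA.prodCongr eB) := by
    intro X Y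
    ext p q
    simp only [kroneckerMap_apply, submatrix_apply, Equiv.prodCongr_apply, Prod.map_fst,
      Prod.map_snd, Equiv.symm_apply_apply]
  have hm : ∀ (X X' : Matrix A' A' ℂ) (Y Y' : Matrix B' B' ℂ),
      (X ⊗ₖ Y) * R.submatrix (eA.prodCongr eB) (eA.prodCongr eB) * (X' ⊗ₖ Y')ᴴ =
        ((X.submatrix eA.symm eA.symm ⊗ₖ Y.submatrix eB.symm eB.symm) * R *
          (X'.submatrix eA.symm eA.symm ⊗ₖ Y'.submatrix eB.symm eB.symm)ᴴ).submatrix
            (eA.prodCongr eB) (eA.prodCongr eB) := by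
    intro X X' Y Y'
    rw [hkr, hkr X' Y', conjTranspose_submatrix, submatrix_mul_equiv, submatrix_mul_equiv]
  have hw : ∀ (X : Matrix A' A' ℂ) (Y : Matrix B' B' ℂ),
      weight (R.submatrix (eA.prodCongr eB) (eA.prodCongr eB)) X Y =
        weight R (X.submatrix eA.symm eA.symm) (Y.submatrix eB.symm eB.symm) := by
    intro X Y
    rw [weight, hm, weight]
    congr 1
    exact Equiv.sum_comp (eA.prodCongr eB) fun x =>
      ((X.submatrix eA.symm eA.symm ⊗ₖ Y.submatrix eB.symm eB.symm) * R *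
          (X.submatrix eA.symm eA.symm ⊗ₖ Y.submatrix eB.symm eB.symm)ᴴ) x x
  rw [TT, hm, hw, hw, hw, hw]
  exact (pow_le_pow_left₀ (traceNorm_nonneg _) (Half.traceNorm_submatrix_le _ _) 4).trans h

end reindex

section tensor

variable {ι : Type} [Fintype ι] [DecidableEq ι]
variable {A B : Type} [Fintype A] [DecidableEq A] [Fintype B] [DecidableEq B]

theorem tf_apply (Z : ι → Matrix (A × B) (A × B) ℂ) (p q : (ι → A) × (ι → B)) :
    tf Z p q = ∏ i, Z i (p.1 i, p.2 i) (q.1 i, q.2 i) := rfl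

theorem tf_kron (u : ι → Matrix A A ℂ) (w : ι → Matrix B B ℂ) :
    tf (fun i => u i ⊗ₖ w i) = piT u ⊗ₖ piT w := by
  ext p q
  simp only [tf_apply, kroneckerMap_apply, piT_apply, Finset.prod_mul_distrib]

theorem tf_posSemidef {Z : ι → Matrix (A × B) (A × B) ℂ} (h : ∀ i, (Z i).PosSemidef) :
    (tf Z).PosSemidef :=
  (piT_posSemidef h).submatrix _

theorem tf_sum {κ : ι → Type} [∀ i, Fintype (κ i)] (Z : ∀ i, κ i → Matrix (A × B) (A × B) ℂ) :
    tf (fun i => ∑ x, Z i x) = ∑ x : (∀ i, κ i), tf (fun i => Z i (x i)) := by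
  ext p q
  simp only [tf_apply, Matrix.sum_apply]
  rw [Finset.prod_univ_sum]
  simp only [Fintype.piFinset_univ]

/-- The operator `v` at the site `i`. -/
def at1 (i : ι) (v : Matrix A A ℂ) : Matrix (ι → A) (ι → A) ℂ := piT (fun j => if j = i then v else 1)

theorem tf_update_add (G : ι → Matrix (A × B) (A × B) ℂ) (i : ι) (M N : Matrix (A × B) (A × B) ℂ) :
    tf (Function.update G i (M + N)) = tf (Function.update G i M) + tf (Function.update G i N) := by
  ext p q
  rw [Matrix.add_apply, tf_apply, tf_apply, tf_apply, ← Finset.mul_prod_erase _ _ (Finset.mem_univ i),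
    ← Finset.mul_prod_erase _ _ (Finset.mem_univ i), ← Finset.mul_prod_erase _ _ (Finset.mem_univ i)]
  have h : ∀ K : Matrix (A × B) (A × B) ℂ, ∏ j ∈ Finset.univ.erase i,
      Function.update G i K j (p.1 j, p.2 j) (q.1 j, q.2 j) =
      ∏ j ∈ Finset.univ.erase i, G j (p.1 j, p.2 j) (q.1 j, q.2 j) := by
    intro K
    refine Finset.prod_congr rfl fun j hj => ?_
    rw [Function.update_of_ne (Finset.ne_of_mem_erase hj)]
  rw [h, h, h, Function.update_self, Function.update_self, Function.update_self, Matrix.add_apply]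
  ring

theorem tf_update_smul (G : ι → Matrix (A × B) (A × B) ℂ) (i : ι) (c : ℂ)
    (M : Matrix (A × B) (A × B) ℂ) :
    tf (Function.update G i (c • M)) = c • tf (Function.update G i M) := by
  ext p q
  rw [Matrix.smul_apply, tf_apply, tf_apply, ← Finset.mul_prod_erase _ _ (Finset.mem_univ i),
    ← Finset.mul_prod_erase _ _ (Finset.mem_univ i)]
  have h : ∀ K : Matrix (A × B) (A × B) ℂ, ∏ j ∈ Finset.univ.erase i,
      Function.update G i K j (p.1 j, p.2 j) (q.1 j, q.2 j) =
      ∏ j ∈ Finset.univ.erase i, G j (p.1 j, p.2 j) (q.1 j, q.2 j) := by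
    intro K
    refine Finset.prod_congr rfl fun j hj => ?_
    rw [Function.update_of_ne (Finset.ne_of_mem_erase hj)]
  rw [h, h, Function.update_self, Function.update_self, Matrix.smul_apply, smul_eq_mul,
    smul_eq_mul]
  ring

theorem tf_update_conj (G : ι → Matrix (A × B) (A × B) ℂ) (i : ι) (v : Matrix A A ℂ)
    (w : Matrix B B ℂ) :
    tf (Function.update G i ((v ⊗ₖ w) * G i * (v ⊗ₖ w)ᴴ)) =
      (at1 i v ⊗ₖ at1 i w) * tf G * (at1 i v ⊗ₖ at1 i w)ᴴ := by
  rw [at1, at1, ← tf_kron, Half.tf_conjTranspose, Half.tf_mul, Half.tf_mul]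
  congr 1
  funext j
  by_cases h : j = i
  · subst h
    simp
  · rw [Function.update_of_ne h, if_neg h, if_neg h, one_kronecker_one, conjTranspose_one, one_mul,
      mul_one]

theorem trace_update_conj {p : Matrix (ι → A) (ι → A) ℂ} {q : Matrix (ι → B) (ι → B) ℂ} (i : ι)
    {v : Matrix A A ℂ} {w : Matrix B B ℂ} (hv : v * v = 1) (hv' : vᴴ = v) (hw : w * w = 1)
    (hw' : wᴴ = w) (hp : at1 i v * p = p * at1 i v) (hq : at1 i w * q = q * at1 i w)
    (G : ι → Matrix (A × B) (A × B) ℂ) :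
    ((p ⊗ₖ q) * tf (Function.update G i ((v ⊗ₖ w) * G i * (v ⊗ₖ w)ᴴ))).trace =
      ((p ⊗ₖ q) * tf G).trace := by
  have h1 : ∀ {E : Type} [Fintype E] [DecidableEq E] {v : Matrix E E ℂ}, v * v = 1 → vᴴ = v →
      (at1 i v)ᴴ = at1 i v ∧ at1 i v * at1 i v = 1 := by
    intro E _ _ v hv hv'
    constructor
    · rw [at1, piT_conjTranspose]
      congr 1
      funext j
      split_ifs
      · exact hv'
      · exact conjTranspose_one
    · rw [at1, ← piT_mul, ← piT_one]
      congr 1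
      funext j
      split_ifs
      · exact hv
      · exact one_mul 1
  obtain ⟨a1, a2⟩ := h1 hv hv'
  obtain ⟨b1, b2⟩ := h1 hw hw'
  rw [tf_update_conj, ← Matrix.mul_assoc, trace_mul_comm, ← Matrix.mul_assoc, ← Matrix.mul_assoc,
    conjTranspose_kronecker, a1, b1, ← mul_kronecker_mul, ← mul_kronecker_mul, hp, hq,
    Matrix.mul_assoc p, Matrix.mul_assoc q, a2, b2, mul_one, mul_one]

/-- A positive piece of a state which becomes a product when Alice's and Bob's systems are twirled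
with the symmetries `v`, `w`. -/
def Piece (v : Matrix A A ℂ) (w : Matrix B B ℂ) (Z : Matrix (A × B) (A × B) ℂ) : Prop :=
  Z.PosSemidef ∧ ∃ (α : Matrix A A ℂ) (β : Matrix B B ℂ), α.PosSemidef ∧ β.PosSemidef ∧
    Z + (v ⊗ₖ w) * Z * (v ⊗ₖ w)ᴴ = (2 : ℂ) • (α ⊗ₖ β)

theorem trace_pieces {p : Matrix (ι → A) (ι → A) ℂ} {q : Matrix (ι → B) (ι → B) ℂ}
    {v : ι → Matrix A A ℂ} {w : ι → Matrix B B ℂ} (hv : ∀ i, v i * v i = 1 ∧ (v i)ᴴ = v i)
    (hw : ∀ i, w i * w i = 1 ∧ (w i)ᴴ = w i) (hp : ∀ i, at1 i (v i) * p = p * at1 i (v i))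
    (hq : ∀ i, at1 i (w i) * q = q * at1 i (w i)) {Z : ι → Matrix (A × B) (A × B) ℂ}
    {α : ι → Matrix A A ℂ} {β : ι → Matrix B B ℂ}
    (h : ∀ i, Z i + (v i ⊗ₖ w i) * Z i * (v i ⊗ₖ w i)ᴴ = (2 : ℂ) • (α i ⊗ₖ β i)) :
    ((p ⊗ₖ q) * tf Z).trace = (p * piT α).trace * (q * piT β).trace := by
  have key : ∀ s : Finset ι, ((p ⊗ₖ q) * tf Z).trace =
      ((p ⊗ₖ q) * tf (fun i => if i ∈ s then α i ⊗ₖ β i else Z i)).trace := by
    intro s
    induction s using Finset.induction_on with
    | empty => simp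
    | insert i s hi ih =>
      rw [ih]
      set G : ι → Matrix (A × B) (A × B) ℂ := fun j => if j ∈ s then α j ⊗ₖ β j else Z j with hG
      have hGi : G i = Z i := by rw [hG]; simp [hi]
      have e1 : (fun j => if j ∈ insert i s then α j ⊗ₖ β j else Z j) =
          Function.update G i (α i ⊗ₖ β i) := by
        funext j
        by_cases hj : j = i
        · subst hj
          simp
        · rw [Function.update_of_ne hj, hG]
          simp [Finset.mem_insert, hj]
      rw [e1]
      have e2 := trace_update_conj i (hv i).1 (hv i).2 (hw i).1 (hw i).2 (hp i) (hq i) G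
      rw [hGi] at e2
      have e3 : tf (Function.update G i (Z i)) = tf G := by
        rw [← hGi, Function.update_eq_self]
      have e4 : (2 : ℂ) * ((p ⊗ₖ q) * tf (Function.update G i (α i ⊗ₖ β i))).trace =
          2 * ((p ⊗ₖ q) * tf G).trace := by
        have e5 : (2 : ℂ) * ((p ⊗ₖ q) * tf (Function.update G i (α i ⊗ₖ β i))).trace =
            ((p ⊗ₖ q) * tf (Function.update G i ((2 : ℂ) • (α i ⊗ₖ β i)))).trace := by
          rw [tf_update_smul, Matrix.mul_smul, trace_smul, smul_eq_mul]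
        rw [e5, ← h i, tf_update_add, Matrix.mul_add, trace_add, e3, e2]
        ring
      exact (mul_left_cancel₀ (two_ne_zero) e4).symm
  rw [key Finset.univ]
  simp only [Finset.mem_univ, if_true]
  rw [tf_kron, ← mul_kronecker_mul, trace_kronecker]

end tensor

end Vale.Agent.P372.PC
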