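import Vale.Agent.P372.R2.helper492.FlipSep
import Vale.Agent.P372.R2.helper492.Sites

/-! Decomposition of a Werner state into pieces adapted to a projection. -/

open Matrix Kronecker
open scoped ComplexOrder MatrixOrder

set_option linter.unusedSectionVars false

namespace Vale.Agent.P372.PC

variable {d : ℕ}

/-- Orthogonal projections. -/
def IsPr {E : Type} [Fintype E] (Q : Matrix E E ℂ) : Prop := Qᴴ = Q ∧ Q * Q = Q

theorem IsPr.psd {E : Type} [Fintype E] {Q : Matrix E E ℂ} (h : IsPr Q) : Q.PosSemidef := by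
  have : Q = Qᴴ * Q := by rw [h.1, h.2]
  rw [this]
  exact posSemidef_conjTranspose_mul_self _

theorem IsPr.compl {E : Type} [Fintype E] [DecidableEq E] {Q : Matrix E E ℂ} (h : IsPr Q) :
    IsPr (1 - Q) := by
  refine ⟨by rw [conjTranspose_sub, conjTranspose_one, h.1], ?_⟩
  rw [Matrix.sub_mul, Matrix.mul_sub, Matrix.mul_sub, h.2, one_mul, one_mul, mul_one, sub_self,
    sub_zero]

theorem proj_diag {Q : Matrix (Fin d) (Fin d) ℂ} (h : IsPr Q) :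
    ∃ (W : Matrix (Fin d) (Fin d) ℂ) (J : Finset (Fin d)), W * Wᴴ = 1 ∧ Wᴴ * W = 1 ∧
      Q = W * (diagonal fun j => if j ∈ J then (1 : ℂ) else 0) * Wᴴ := by
  classical
  have hH : Q.IsHermitian := h.1
  set U : Matrix (Fin d) (Fin d) ℂ := (hH.eigenvectorUnitary : Matrix (Fin d) (Fin d) ℂ) with hU
  have e1 : Q = U * diagonal (fun i => (hH.eigenvalues i : ℂ)) * Uᴴ := spectral_eq hH
  have e2 : U * Uᴴ = 1 := eigU_mul hH
  have e3 : Uᴴ * U = 1 := eigU_mul' hH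
  have e4 : diagonal (fun i => (hH.eigenvalues i : ℂ)) = Uᴴ * Q * U := by
    conv_rhs => rw [e1]
    calc diagonal (fun i => (hH.eigenvalues i : ℂ))
        = (Uᴴ * U) * diagonal (fun i => (hH.eigenvalues i : ℂ)) * (Uᴴ * U) := by
          rw [e3, one_mul, mul_one]
      _ = _ := by simp only [Matrix.mul_assoc]
  have e5 : diagonal (fun i => (hH.eigenvalues i : ℂ)) * diagonal (fun i => (hH.eigenvalues i : ℂ)) =
      diagonal (fun i => (hH.eigenvalues i : ℂ)) := by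
    rw [e4]
    calc Uᴴ * Q * U * (Uᴴ * Q * U) = Uᴴ * Q * (U * Uᴴ) * Q * U := by simp only [Matrix.mul_assoc]
      _ = Uᴴ * (Q * Q) * U := by rw [e2, mul_one]; simp only [Matrix.mul_assoc]
      _ = _ := by rw [h.2]
  rw [diagonal_mul_diagonal] at e5
  have e6 : ∀ i, hH.eigenvalues i = 0 ∨ hH.eigenvalues i = 1 := by
    intro i
    have e7 := congrFun (congrFun e5 i) i
    rw [diagonal_apply_eq, diagonal_apply_eq] at e7
    have e8 : hH.eigenvalues i * hH.eigenvalues i = hH.eigenvalues i := by exact_mod_cast e7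
    rcases eq_or_ne (hH.eigenvalues i) 0 with h0 | h0
    · exact Or.inl h0
    · exact Or.inr (mul_left_cancel₀ h0 (by rw [e8, mul_one]))
  refine ⟨U, Finset.univ.filter fun i => hH.eigenvalues i = 1, e2, e3, ?_⟩
  conv_lhs => rw [e1]
  congr 3
  funext i
  rcases e6 i with h0 | h0
  · simp [h0]
  · simp [h0]

/-- `m Q ⊗ Q - (Q ⊗ Q) F` is separable for a projection `Q ≠ 0` of rank `m`. -/
theorem sep_proj {Q : Matrix (Fin d) (Fin d) ℂ} (h : IsPr Q) :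
    ∃ m : ℕ, (Q ≠ 0 → 1 ≤ m) ∧ Q.trace = m ∧
      IsSep ((m : ℂ) • (Q ⊗ₖ Q) - (Q ⊗ₖ Q) * Near.flip d) := by
  obtain ⟨W, J, h1, h2, h3⟩ := proj_diag h
  refine ⟨J.card, ?_, ?_, ?_⟩
  · intro hQ
    by_contra hJ
    have : J = ∅ := by
      rw [← Finset.card_eq_zero]
      omega
    subst this
    refine hQ ?_
    rw [h3]
    simp
  · rw [h3, trace_mul_comm, ← Matrix.mul_assoc, h2, one_mul, trace_diagonal]
    simp
  · refine isSep_congr (IsSep.conj' (sep_diag J) W W) ?_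
    set D : Matrix (Fin d) (Fin d) ℂ := diagonal fun j => if j ∈ J then (1 : ℂ) else 0 with hD
    have e : Q ⊗ₖ Q = (W ⊗ₖ W) * (D ⊗ₖ D) * (W ⊗ₖ W)ᴴ := by
      rw [conjTranspose_kronecker, ← mul_kronecker_mul, ← mul_kronecker_mul, ← h3]
    rw [e, Matrix.mul_sub, Matrix.sub_mul, Matrix.mul_smul, Matrix.smul_mul]
    congr 1
    have e2 : (W ⊗ₖ W)ᴴ * Near.flip d = Near.flip d * (W ⊗ₖ W)ᴴ := by
      rw [conjTranspose_kronecker, kron_sw]
    calc (W ⊗ₖ W) * (D ⊗ₖ D) * (W ⊗ₖ W)ᴴ * Near.flip d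
        = (W ⊗ₖ W) * (D ⊗ₖ D) * ((W ⊗ₖ W)ᴴ * Near.flip d) := by simp only [Matrix.mul_assoc]
      _ = _ := by rw [e2]; simp only [Matrix.mul_assoc]

section pieces

variable {Q : Matrix (Fin d) (Fin d) ℂ}

/-- The part of the identity where exactly one of the systems is in the range of `Q`. -/
def oo (Q : Matrix (Fin d) (Fin d) ℂ) : Matrix (Fin d × Fin d) (Fin d × Fin d) ℂ :=
  Q ⊗ₖ (1 - Q) + (1 - Q) ⊗ₖ Q

theorem oo_sw : oo Q * Near.flip d = Near.flip d * oo Q := by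
  rw [oo, Matrix.add_mul, Matrix.mul_add, kron_sw, kron_sw, add_comm]

theorem mul_compl (h : IsPr Q) : Q * (1 - Q) = 0 := by
  rw [Matrix.mul_sub, mul_one, h.2, sub_self]

theorem compl_mul (h : IsPr Q) : (1 - Q) * Q = 0 := by
  rw [Matrix.sub_mul, one_mul, h.2, sub_self]

theorem oo_oo (h : IsPr Q) : oo Q * oo Q = oo Q := by
  rw [oo, Matrix.add_mul, Matrix.mul_add, Matrix.mul_add, ← mul_kronecker_mul, ← mul_kronecker_mul,
    ← mul_kronecker_mul, ← mul_kronecker_mul, h.2, h.compl.2, mul_compl h, compl_mul h,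
    zero_kronecker, add_zero, zero_add]

theorem oo_herm (h : IsPr Q) : (oo Q)ᴴ = oo Q := by
  rw [oo, conjTranspose_add, conjTranspose_kronecker, conjTranspose_kronecker, h.1, h.compl.1]

theorem oo_part (Q : Matrix (Fin d) (Fin d) ℂ) :
    Q ⊗ₖ Q + (1 - Q) ⊗ₖ (1 - Q) + oo Q = 1 := by
  rw [← one_kronecker_one, oo]
  ext p q
  simp only [Matrix.add_apply, kroneckerMap_apply, Matrix.sub_apply]
  ring

theorem oo_psd (h : IsPr Q) : (oo Q - oo Q * Near.flip d).PosSemidef := by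
  have hh : (oo Q - oo Q * Near.flip d)ᴴ = oo Q - oo Q * Near.flip d := by
    rw [conjTranspose_sub, conjTranspose_mul, Near.flip_herm, oo_herm h, oo_sw]
  have e : oo Q - oo Q * Near.flip d = ((1 / 2 : ℝ) : ℂ) •
      ((oo Q - oo Q * Near.flip d)ᴴ * (oo Q - oo Q * Near.flip d)) := by
    rw [hh]
    have e1 : oo Q * Near.flip d * (oo Q * Near.flip d) = oo Q := by
      calc oo Q * Near.flip d * (oo Q * Near.flip d)
          = oo Q * (Near.flip d * oo Q) * Near.flip d := by simp only [Matrix.mul_assoc]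
        _ = (oo Q * oo Q) * (Near.flip d * Near.flip d) := by
            rw [← oo_sw]; simp only [Matrix.mul_assoc]
        _ = _ := by rw [Near.flip_sq, mul_one, oo_oo h]
    have e2 : oo Q * Near.flip d * oo Q = oo Q * Near.flip d := by
      rw [Matrix.mul_assoc, ← oo_sw, ← Matrix.mul_assoc, oo_oo h]
    have e3 : oo Q * (oo Q * Near.flip d) = oo Q * Near.flip d := by
      rw [← Matrix.mul_assoc, oo_oo h]
    rw [Matrix.sub_mul, Matrix.mul_sub, Matrix.mul_sub, oo_oo h, e1, e2, e3]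
    have e4 : oo Q - oo Q * Near.flip d - (oo Q * Near.flip d - oo Q) =
        (2 : ℂ) • (oo Q - oo Q * Near.flip d) := by
      rw [two_smul]
      abel
    rw [e4, smul_smul]
    push_cast
    norm_num
  rw [e]
  exact (posSemidef_conjTranspose_mul_self _).smul (Complex.zero_le_real.mpr (by norm_num))

/-- The entangled piece. -/
noncomputable def s0 (Q : Matrix (Fin d) (Fin d) ℂ) (x y : ℝ) :
    Matrix (Fin d × Fin d) (Fin d × Fin d) ℂ :=
  ((x ^ 2 : ℝ) : ℂ) • (Q ⊗ₖ Q) + ((y ^ 2 : ℝ) : ℂ) • ((1 - Q) ⊗ₖ (1 - Q)) +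
    ((x * y : ℝ) : ℂ) • (oo Q - oo Q * Near.flip d)

theorem s0_psd (h : IsPr Q) {x y : ℝ} (hxy : 0 ≤ x * y) : (s0 Q x y).PosSemidef := by
  refine ((PosSemidef.smul (h.psd.kronecker h.psd) ?_).add
    (PosSemidef.smul (h.compl.psd.kronecker h.compl.psd) ?_)).add
    (PosSemidef.smul (oo_psd h) ?_)
  · exact Complex.zero_le_real.mpr (sq_nonneg _)
  · exact Complex.zero_le_real.mpr (sq_nonneg _)
  · exact Complex.zero_le_real.mpr hxy

/-- The symmetry `2 Q - 1`. -/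
def uu (Q : Matrix (Fin d) (Fin d) ℂ) : Matrix (Fin d) (Fin d) ℂ := (2 : ℂ) • Q - 1

theorem uu_herm (h : IsPr Q) : (uu Q)ᴴ = uu Q := by
  rw [uu, conjTranspose_sub, conjTranspose_smul, h.1, conjTranspose_one]
  simp

theorem uu_mul (h : IsPr Q) : uu Q * Q = Q := by
  rw [uu, Matrix.sub_mul, Matrix.smul_mul, h.2, one_mul, two_smul, add_sub_cancel_right]

theorem mul_uu (h : IsPr Q) : Q * uu Q = Q := by
  rw [uu, Matrix.mul_sub, Matrix.mul_smul, h.2, mul_one, two_smul, add_sub_cancel_right]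

theorem uu_compl (h : IsPr Q) : uu Q * (1 - Q) = -(1 - Q) := by
  rw [Matrix.mul_sub, uu_mul h, mul_one, uu, two_smul]
  abel

theorem compl_uu (h : IsPr Q) : (1 - Q) * uu Q = -(1 - Q) := by
  rw [Matrix.sub_mul, mul_uu h, one_mul, uu, two_smul]
  abel

theorem uu_sq (h : IsPr Q) : uu Q * uu Q = 1 := by
  have : uu Q = Q - (1 - Q) := by
    rw [uu, two_smul]
    abel
  calc uu Q * uu Q = (Q - (1 - Q)) * uu Q := by rw [← this]
    _ = 1 := by
        rw [Matrix.sub_mul, mul_uu h, compl_uu h]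
        abel

theorem conj_left (h : IsPr Q) (M N : Matrix (Fin d) (Fin d) ℂ) (hM : uu Q * M * uu Q = M) :
    (uu Q ⊗ₖ (1 : Matrix (Fin d) (Fin d) ℂ)) * (M ⊗ₖ N) *
      (uu Q ⊗ₖ (1 : Matrix (Fin d) (Fin d) ℂ))ᴴ = M ⊗ₖ N := by
  rw [conjTranspose_kronecker, ← mul_kronecker_mul, ← mul_kronecker_mul, uu_herm h,
    conjTranspose_one, hM, one_mul, mul_one]

theorem conj_right (h : IsPr Q) (M N : Matrix (Fin d) (Fin d) ℂ) (hN : uu Q * N * uu Q = N) :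
    ((1 : Matrix (Fin d) (Fin d) ℂ) ⊗ₖ uu Q) * (M ⊗ₖ N) *
      ((1 : Matrix (Fin d) (Fin d) ℂ) ⊗ₖ uu Q)ᴴ = M ⊗ₖ N := by
  rw [conjTranspose_kronecker, ← mul_kronecker_mul, ← mul_kronecker_mul, uu_herm h,
    conjTranspose_one, hN, one_mul, mul_one]

theorem uqu (h : IsPr Q) : uu Q * Q * uu Q = Q := by rw [uu_mul h, mul_uu h]

theorem ucu (h : IsPr Q) : uu Q * (1 - Q) * uu Q = 1 - Q := by
  rw [uu_compl h, Matrix.neg_mul, compl_uu h, neg_neg]

theorem conj_left_oo (h : IsPr Q) :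
    (uu Q ⊗ₖ (1 : Matrix (Fin d) (Fin d) ℂ)) * (oo Q * Near.flip d) *
      (uu Q ⊗ₖ (1 : Matrix (Fin d) (Fin d) ℂ))ᴴ = -(oo Q * Near.flip d) := by
  rw [conjTranspose_kronecker, uu_herm h, conjTranspose_one]
  have e1 : Near.flip d * (uu Q ⊗ₖ (1 : Matrix (Fin d) (Fin d) ℂ)) =
      ((1 : Matrix (Fin d) (Fin d) ℂ) ⊗ₖ uu Q) * Near.flip d := (kron_sw _ _).symm
  calc (uu Q ⊗ₖ (1 : Matrix (Fin d) (Fin d) ℂ)) * (oo Q * Near.flip d) *
        (uu Q ⊗ₖ (1 : Matrix (Fin d) (Fin d) ℂ))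
      = (uu Q ⊗ₖ (1 : Matrix (Fin d) (Fin d) ℂ)) * oo Q *
        (Near.flip d * (uu Q ⊗ₖ (1 : Matrix (Fin d) (Fin d) ℂ))) := by
        simp only [Matrix.mul_assoc]
    _ = ((uu Q ⊗ₖ (1 : Matrix (Fin d) (Fin d) ℂ)) * oo Q *
        ((1 : Matrix (Fin d) (Fin d) ℂ) ⊗ₖ uu Q)) * Near.flip d := by
        rw [e1]; simp only [Matrix.mul_assoc]
    _ = (-(oo Q)) * Near.flip d := by
        congr 1
        rw [oo, Matrix.mul_add, Matrix.add_mul, ← mul_kronecker_mul, ← mul_kronecker_mul,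
          ← mul_kronecker_mul, ← mul_kronecker_mul, one_mul, one_mul, mul_one, mul_one, uu_mul h,
          mul_uu h, uu_compl h, compl_uu h]
        ext p q
        simp only [Matrix.add_apply, Matrix.neg_apply, kroneckerMap_apply]
        ring
    _ = _ := Matrix.neg_mul _ _

theorem conj_right_oo (h : IsPr Q) :
    ((1 : Matrix (Fin d) (Fin d) ℂ) ⊗ₖ uu Q) * (oo Q * Near.flip d) *
      ((1 : Matrix (Fin d) (Fin d) ℂ) ⊗ₖ uu Q)ᴴ = -(oo Q * Near.flip d) := by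
  rw [conjTranspose_kronecker, uu_herm h, conjTranspose_one]
  have e1 : Near.flip d * ((1 : Matrix (Fin d) (Fin d) ℂ) ⊗ₖ uu Q) =
      (uu Q ⊗ₖ (1 : Matrix (Fin d) (Fin d) ℂ)) * Near.flip d := (kron_sw _ _).symm
  calc ((1 : Matrix (Fin d) (Fin d) ℂ) ⊗ₖ uu Q) * (oo Q * Near.flip d) *
        ((1 : Matrix (Fin d) (Fin d) ℂ) ⊗ₖ uu Q)
      = ((1 : Matrix (Fin d) (Fin d) ℂ) ⊗ₖ uu Q) * oo Q *
        (Near.flip d * ((1 : Matrix (Fin d) (Fin d) ℂ) ⊗ₖ uu Q)) := by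
        simp only [Matrix.mul_assoc]
    _ = (((1 : Matrix (Fin d) (Fin d) ℂ) ⊗ₖ uu Q) * oo Q *
        (uu Q ⊗ₖ (1 : Matrix (Fin d) (Fin d) ℂ))) * Near.flip d := by
        rw [e1]; simp only [Matrix.mul_assoc]
    _ = (-(oo Q)) * Near.flip d := by
        congr 1
        rw [oo, Matrix.mul_add, Matrix.add_mul, ← mul_kronecker_mul, ← mul_kronecker_mul,
          ← mul_kronecker_mul, ← mul_kronecker_mul, one_mul, one_mul, mul_one, mul_one, uu_mul h,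
          mul_uu h, uu_compl h, compl_uu h]
        ext p q
        simp only [Matrix.add_apply, Matrix.neg_apply, kroneckerMap_apply]
        ring
    _ = _ := Matrix.neg_mul _ _

theorem dd_eq (Q : Matrix (Fin d) (Fin d) ℂ) (x y : ℝ) :
    ((x : ℂ) • Q + (y : ℂ) • (1 - Q)) ⊗ₖ ((x : ℂ) • Q + (y : ℂ) • (1 - Q)) =
      ((x ^ 2 : ℝ) : ℂ) • (Q ⊗ₖ Q) + ((y ^ 2 : ℝ) : ℂ) • ((1 - Q) ⊗ₖ (1 - Q)) +
        ((x * y : ℝ) : ℂ) • oo Q := by
  ext p q
  simp only [oo, Matrix.add_apply, Matrix.smul_apply, kroneckerMap_apply, smul_eq_mul]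
  push_cast
  ring

theorem s0_piece (h : IsPr Q) {x y : ℝ} (hx : 0 ≤ x) (hy : 0 ≤ y) :
    Piece (uu Q) 1 (s0 Q x y) ∧ Piece 1 (uu Q) (s0 Q x y) := by
  have hD : ((x : ℂ) • Q + (y : ℂ) • (1 - Q)).PosSemidef :=
    (h.psd.smul (Complex.zero_le_real.mpr hx)).add (h.compl.psd.smul (Complex.zero_le_real.mpr hy))
  have hc : ∀ V : Matrix (Fin d × Fin d) (Fin d × Fin d) ℂ,
      V * (Q ⊗ₖ Q) * Vᴴ = Q ⊗ₖ Q → V * ((1 - Q) ⊗ₖ (1 - Q)) * Vᴴ = (1 - Q) ⊗ₖ (1 - Q) →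
      V * oo Q * Vᴴ = oo Q → V * (oo Q * Near.flip d) * Vᴴ = -(oo Q * Near.flip d) →
      s0 Q x y + V * s0 Q x y * Vᴴ = (2 : ℂ) • (((x : ℂ) • Q + (y : ℂ) • (1 - Q)) ⊗ₖ
        ((x : ℂ) • Q + (y : ℂ) • (1 - Q))) := by
    intro V h1 h2 h3 h4
    rw [dd_eq, s0]
    simp only [Matrix.mul_add, Matrix.add_mul, Matrix.mul_smul, Matrix.smul_mul, Matrix.mul_sub,
      Matrix.sub_mul]
    simp only [Matrix.mul_assoc] at h1 h2 h3 h4 ⊢
    rw [h1, h2, h3, h4]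
    ext p q
    simp only [Matrix.add_apply, Matrix.sub_apply, Matrix.smul_apply, Matrix.neg_apply, smul_eq_mul]
    ring
  refine ⟨⟨s0_psd h (mul_nonneg hx hy), _, _, hD, hD, hc _ ?_ ?_ ?_ ?_⟩,
    ⟨s0_psd h (mul_nonneg hx hy), _, _, hD, hD, hc _ ?_ ?_ ?_ ?_⟩⟩
  · exact conj_left h _ _ (uqu h)
  · exact conj_left h _ _ (ucu h)
  · rw [oo, Matrix.mul_add, Matrix.add_mul, conj_left h _ _ (uqu h), conj_left h _ _ (ucu h)]
  · exact conj_left_oo h
  · exact conj_right h _ _ (uqu h)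
  · exact conj_right h _ _ (ucu h)
  · rw [oo, Matrix.mul_add, Matrix.add_mul, conj_right h _ _ (ucu h), conj_right h _ _ (uqu h)]
  · exact conj_right_oo h

theorem prod_piece {M N : Matrix (Fin d) (Fin d) ℂ} (hM : M.PosSemidef)
    (hN : N.PosSemidef) : Piece (uu Q) 1 (M ⊗ₖ N) ∧ Piece 1 (uu Q) (M ⊗ₖ N) := by
  have hh : (0 : ℂ) ≤ ((1 / 2 : ℝ) : ℂ) := Complex.zero_le_real.mpr (by norm_num)
  refine ⟨⟨hM.kronecker hN, ((1 / 2 : ℝ) : ℂ) • (M + uu Q * M * (uu Q)ᴴ), N,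
    PosSemidef.smul (hM.add (hM.mul_mul_conjTranspose_same _)) hh, hN, ?_⟩,
    ⟨hM.kronecker hN, M, ((1 / 2 : ℝ) : ℂ) • (N + uu Q * N * (uu Q)ᴴ), hM,
    PosSemidef.smul (hN.add (hN.mul_mul_conjTranspose_same _)) hh, ?_⟩⟩
  · rw [conjTranspose_kronecker, ← mul_kronecker_mul, ← mul_kronecker_mul, conjTranspose_one,
      one_mul, mul_one, ← add_kronecker, smul_kronecker, smul_smul]
    push_cast
    norm_num
  · rw [conjTranspose_kronecker, ← mul_kronecker_mul, ← mul_kronecker_mul, conjTranspose_one,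
      one_mul, mul_one, ← kronecker_add, kronecker_smul, smul_smul]
    push_cast
    norm_num

/-- The remainder is separable. -/
theorem rem_sep (h : IsPr Q) {t x y : ℝ} {m m' : ℕ} (ht : 0 ≤ t) (ht1 : t ≤ 1) (hxy : x * y = t)
    (hx : x ^ 2 = 1 - m * t) (hy : y ^ 2 ≤ 1 - m' * t)
    (h1 : IsSep ((m : ℂ) • (Q ⊗ₖ Q) - (Q ⊗ₖ Q) * Near.flip d))
    (h2 : IsSep ((m' : ℂ) • ((1 - Q) ⊗ₖ (1 - Q)) - ((1 - Q) ⊗ₖ (1 - Q)) * Near.flip d)) :
    IsSep (1 - (t : ℂ) • Near.flip d - s0 Q x y) := by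
  have k1 := IsSep.smul' h1 ht
  have k2 := IsSep.smul' h2 ht
  have k3 : IsSep (((1 - y ^ 2 - m' * t : ℝ) : ℂ) • ((1 - Q) ⊗ₖ (1 - Q))) :=
    IsSep.smul' (isSep_kron h.compl.psd h.compl.psd) (by linarith only [hy])
  have k4 : IsSep (((1 - t : ℝ) : ℂ) • oo Q) :=
    IsSep.smul' (IsSep.add' (isSep_kron h.psd h.compl.psd) (isSep_kron h.compl.psd h.psd))
      (by linarith only [ht1])
  refine isSep_congr (IsSep.add' (IsSep.add' k1 k2) (IsSep.add' k3 k4)) ?_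
  have e0 := oo_part Q
  set P := Q ⊗ₖ Q with hP
  set P' := (1 - Q) ⊗ₖ (1 - Q) with hP'
  have e1 : Near.flip d = P * Near.flip d + P' * Near.flip d + oo Q * Near.flip d := by
    rw [← Matrix.add_mul, ← Matrix.add_mul, e0, one_mul]
  have e2 : (1 : Matrix (Fin d × Fin d) (Fin d × Fin d) ℂ) - (t : ℂ) • Near.flip d - s0 Q x y =
      (P + P' + oo Q) - (t : ℂ) • (P * Near.flip d + P' * Near.flip d + oo Q * Near.flip d) -
        s0 Q x y := by
    rw [← e1, e0]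
  rw [e2, s0, hx, hxy]
  ext p q
  simp only [Matrix.add_apply, Matrix.sub_apply, Matrix.smul_apply, smul_eq_mul]
  push_cast
  ring

theorem scalars (hd : 3 ≤ d) {m m' : ℕ} (hm : 1 ≤ m) (hm' : 1 ≤ m') (hmm : m + m' = d) {t : ℝ}
    (ht : t = (d ^ 2 + 1) / d ^ 3) : 0 < 1 - m * t ∧ t ^ 2 ≤ (1 - m * t) * (1 - m' * t) := by
  have hdr : (3 : ℝ) ≤ d := by exact_mod_cast hd
  have hm1 : (1 : ℝ) ≤ m := by exact_mod_cast hm
  have hm1' : (1 : ℝ) ≤ m' := by exact_mod_cast hm'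
  have hmmr : (m : ℝ) + m' = d := by exact_mod_cast hmm
  have hd0 : (0 : ℝ) < d := by linarith only [hdr]
  have hd3 : (0 : ℝ) < (d : ℝ) ^ 3 := by positivity
  have ht0 : 0 ≤ t := by rw [ht]; positivity
  have htd : t * (d : ℝ) ^ 3 = (d : ℝ) ^ 2 + 1 := by rw [ht]; field_simp
  constructor
  · have h1 : (m : ℝ) * t ≤ (d - 1) * t := mul_le_mul_of_nonneg_right (by linarith only [hmmr, hm1']) ht0
    have h2 : (d - 1 : ℝ) * t < 1 := by
      have h3 : ((d - 1 : ℝ) * t) * (d : ℝ) ^ 3 < 1 * (d : ℝ) ^ 3 := by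
        calc ((d - 1 : ℝ) * t) * (d : ℝ) ^ 3 = (d - 1) * (t * (d : ℝ) ^ 3) := by ring
          _ = (d - 1) * ((d : ℝ) ^ 2 + 1) := by rw [htd]
          _ < 1 * (d : ℝ) ^ 3 := by nlinarith only [hdr]
      exact lt_of_mul_lt_mul_right h3 hd3.le
    linarith only [h1, h2]
  · have h1 : (d : ℝ) - 2 ≤ m * m' - 1 := by
      nlinarith only [mul_nonneg (sub_nonneg.mpr hm1) (sub_nonneg.mpr hm1'), hmmr]
    have h2 : (1 - m * t) * (1 - m' * t) - t ^ 2 = 1 - d * t + (m * m' - 1) * t ^ 2 := by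
      rw [← hmmr]; ring
    have h3 : 0 ≤ 1 - d * t + (d - 2) * t ^ 2 := by
      have h4 : 0 ≤ (1 - d * t + (d - 2) * t ^ 2) * ((d : ℝ) ^ 3) ^ 2 := by
        have e : (1 - d * t + (d - 2) * t ^ 2) * ((d : ℝ) ^ 3) ^ 2 =
            (d : ℝ) ^ 6 - (d : ℝ) ^ 4 * (t * (d : ℝ) ^ 3) + (d - 2) * (t * (d : ℝ) ^ 3) ^ 2 := by ring
        rw [e, htd]
        have h5 : (0 : ℝ) ≤ (d - 3) * ((d : ℝ) ^ 2 + 1) ^ 2 :=
          mul_nonneg (by linarith only [hdr]) (sq_nonneg _)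
        have h6 : (d : ℝ) ^ 6 - (d : ℝ) ^ 4 * ((d : ℝ) ^ 2 + 1) + (d - 2) * ((d : ℝ) ^ 2 + 1) ^ 2 =
            (d - 3) * ((d : ℝ) ^ 2 + 1) ^ 2 + (2 * (d : ℝ) ^ 2 + 1) := by ring
        rw [h6]
        positivity
      exact nonneg_of_mul_nonneg_left h4 (by positivity)
    have h4 : ((d : ℝ) - 2) * t ^ 2 ≤ (m * m' - 1) * t ^ 2 :=
      mul_le_mul_of_nonneg_right h1 (sq_nonneg _)
    linarith only [h2, h3, h4]

/-- The decomposition into pieces. -/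
theorem pieces (hd : 3 ≤ d) (h : IsPr Q) (h0 : Q ≠ 0) (h1 : Q ≠ 1) {t : ℝ}
    (ht : t = (d ^ 2 + 1) / d ^ 3) :
    ∃ (m : ℕ) (σ : Fin m → Matrix (Fin d × Fin d) (Fin d × Fin d) ℂ),
      ∑ x, σ x = 1 - (t : ℂ) • Near.flip d ∧
      ∀ x, Piece (uu Q) 1 (σ x) ∧ Piece 1 (uu Q) (σ x) := by
  obtain ⟨m, a1, a2, a3⟩ := sep_proj h
  obtain ⟨m', b1, b2, b3⟩ := sep_proj h.compl
  have hm := a1 h0
  have hm' := b1 (fun e => h1 (sub_eq_zero.mp e).symm)
  have hmm : m + m' = d := by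
    have e : (m : ℂ) + m' = d := by
      rw [← a2, ← b2, ← trace_add]
      simp
    exact_mod_cast e
  obtain ⟨c1, c2⟩ := scalars hd hm hm' hmm ht
  have hdr : (3 : ℝ) ≤ d := by exact_mod_cast hd
  have hd0 : (0 : ℝ) < d := by linarith only [hdr]
  have ht0 : 0 ≤ t := by rw [ht]; positivity
  have hm1 : (1 : ℝ) ≤ m := by exact_mod_cast hm
  have ht1 : t ≤ 1 := by
    have : 1 * t ≤ m * t := mul_le_mul_of_nonneg_right hm1 ht0
    linarith only [this, c1]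
  set x : ℝ := √(1 - m * t) with hx
  have hx0 : 0 < x := Real.sqrt_pos.mpr c1
  have hx2 : x ^ 2 = 1 - m * t := Real.sq_sqrt c1.le
  have hxy : x * (t / x) = t := by field_simp
  have hy : (t / x) ^ 2 ≤ 1 - m' * t := by
    rw [div_pow, hx2, div_le_iff₀ c1]
    linarith only [c2]
  obtain ⟨n, M, N, hM, hN, hMN⟩ := rem_sep h ht0 ht1 hxy hx2 hy a3 b3
  refine ⟨n + 1, Fin.cons (s0 Q x (t / x)) fun k => M k ⊗ₖ N k, ?_, ?_⟩
  · rw [Fin.sum_univ_succ, Fin.cons_zero]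
    simp only [Fin.cons_succ]
    rw [← hMN]
    abel
  · intro k
    refine Fin.cases ?_ (fun k => ?_) k
    · rw [Fin.cons_zero]
      exact s0_piece h hx0.le (div_nonneg ht0 hx0.le)
    · rw [Fin.cons_succ]
      exact prod_piece (hM k) (hN k)

end pieces

end Vale.Agent.P372.PC
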