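import Vale.Agent.P372.R2.helper492.Classes

/-! Pieces of a Werner state for matrices which are symmetric in some basis. -/

open Matrix Kronecker
open scoped ComplexOrder MatrixOrder

set_option linter.unusedSectionVars false

namespace Vale.Agent.P372.PC

variable {d : ℕ}

/-- The operator `|φ⟩⟨φ|`, `φ = ∑ |i i⟩`. -/
def Ph (d : ℕ) : Matrix (Fin d × Fin d) (Fin d × Fin d) ℂ :=
  fun p q => if p.1 = p.2 ∧ q.1 = q.2 then 1 else 0

theorem Ph_psd (d : ℕ) : (Ph d).PosSemidef := by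
  have h : Ph d = vecMulVec (fun p : Fin d × Fin d => if p.1 = p.2 then (1 : ℂ) else 0)
      (star fun p : Fin d × Fin d => if p.1 = p.2 then (1 : ℂ) else 0) := by
    ext p q
    simp only [Ph, vecMulVec_apply, Pi.star_apply]
    by_cases h1 : p.1 = p.2
    · by_cases h2 : q.1 = q.2
      · simp [h1, h2]
      · simp [h2]
    · simp [h1]
  rw [h]
  exact posSemidef_vecMulVec_self_star _

theorem Ph_trace (y y' : Matrix (Fin d) (Fin d) ℂ) :
    ((y ⊗ₖ y') * Ph d).trace = ∑ a, ∑ b, y a b * y' a b := by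
  rw [trace_expand]
  simp only [Fintype.sum_prod_type, Ph]
  refine Finset.sum_congr rfl fun a _ => Finset.sum_congr rfl fun b _ => ?_
  rw [Finset.sum_eq_single a, Finset.sum_eq_single b]
  · simp
  · intro b' _ hb'
    simp [Ne.symm hb']
  · simp
  · intro a' _ ha'
    refine Finset.sum_eq_zero fun b' _ => ?_
    simp [Ne.symm ha']
  · simp

theorem flip_trace (y y' : Matrix (Fin d) (Fin d) ℂ) :
    ((y ⊗ₖ y') * Near.flip d).trace = (y * y').trace := by
  rw [trace_mul_comm, trace, trace]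
  simp only [diag_apply, Near.flip_mul, kroneckerMap_apply]
  rw [Fintype.sum_prod_type]
  simp only [mul_apply]
  rw [Finset.sum_comm]

theorem one_sum : (1 : Matrix (Fin d × Fin d) (Fin d × Fin d) ℂ) =
    ∑ i, ∑ j, single i i (1 : ℂ) ⊗ₖ single j j (1 : ℂ) := by
  ext p q
  simp only [Matrix.sum_apply, kroneckerMap_apply, single_apply, one_apply]
  rw [Finset.sum_eq_single p.1, Finset.sum_eq_single p.2]
  · by_cases h : p = q
    · subst h
      simp
    · rw [if_neg h]
      by_cases h1 : p.1 = q.1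
      · have h2 : ¬ p.2 = q.2 := fun h2 => h (Prod.ext h1 h2)
        simp [h2]
      · simp [h1]
  · intro j _ hj
    simp [hj]
  · simp
  · intro i _ hi
    refine Finset.sum_eq_zero fun j _ => ?_
    simp [hi]
  · simp

theorem flip_sum : Near.flip d = ∑ i, ∑ j, single i j (1 : ℂ) ⊗ₖ single j i (1 : ℂ) := by
  ext p q
  simp only [Matrix.sum_apply, kroneckerMap_apply, single_apply, Near.flip]
  rw [Finset.sum_eq_single p.1, Finset.sum_eq_single p.2]
  · by_cases h1 : p.1 = q.2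
    · by_cases h2 : p.2 = q.1
      · simp [h1, h2]
      · simp [h2]
    · simp [h1]
  · intro j _ hj
    simp [hj]
  · simp
  · intro i _ hi
    refine Finset.sum_eq_zero fun j _ => ?_
    simp [hi]
  · simp

theorem Ph_sum : Ph d = ∑ i, ∑ j, single i j (1 : ℂ) ⊗ₖ single i j (1 : ℂ) := by
  ext p q
  simp only [Matrix.sum_apply, kroneckerMap_apply, single_apply, Ph]
  rw [Finset.sum_eq_single p.1, Finset.sum_eq_single q.1]
  · by_cases h1 : p.1 = p.2
    · by_cases h2 : q.1 = q.2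
      · simp [h1, h2]
      · simp [h2]
    · simp [h1]
  · intro j _ hj
    simp [hj]
  · simp
  · intro i _ hi
    refine Finset.sum_eq_zero fun j _ => ?_
    simp [hi]
  · simp

theorem sep_real (i j : Fin d) : IsSep
    ((single i i (1 : ℂ) + single j j 1) ⊗ₖ (single i i (1 : ℂ) + single j j 1) -
      (single i j (1 : ℂ) + single j i 1) ⊗ₖ (single i j (1 : ℂ) + single j i 1)) := by
  have p1 : ph i j 1 = single i i 1 + single j j 1 + (single i j (1 : ℂ) + single j i 1) := by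
    rw [ph_eq i j (by simp)]
    simp only [star_one, one_smul]
    abel
  have p2 : ph i j (-1) = single i i 1 + single j j 1 - (single i j (1 : ℂ) + single j i 1) := by
    rw [ph_eq i j (by simp)]
    simp only [star_neg, star_one, neg_smul, one_smul]
    abel
  refine isSep_congr (IsSep.smul' (IsSep.add' (isSep_kron (ph_psd i j 1) (ph_psd i j (-1)))
    (isSep_kron (ph_psd i j (-1)) (ph_psd i j 1))) (c := 1 / 2) (by norm_num)) ?_
  rw [p1, p2]
  ext p q
  simp only [Matrix.add_apply, Matrix.sub_apply, Matrix.smul_apply, kroneckerMap_apply, smul_eq_mul]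
  push_cast
  ring

theorem inner_sep {t : ℝ} (ht : 0 ≤ t) (hd : t * (1 + d / 2) ≤ 1) :
    IsSep (((1 - t / 2 : ℝ) : ℂ) • 1 - ((t / 2 : ℝ) : ℂ) • Near.flip d -
      ((t / 2 : ℝ) : ℂ) • Ph d) := by
  have h1 : IsSep (((t / 4 : ℝ) : ℂ) • ∑ i : Fin d, ∑ j : Fin d,
      ((single i i (1 : ℂ) + single j j 1) ⊗ₖ (single i i (1 : ℂ) + single j j 1) -
      (single i j (1 : ℂ) + single j i 1) ⊗ₖ (single i j (1 : ℂ) + single j i 1))) :=
    IsSep.smul' (isSep_sum _ fun i _ => isSep_sum _ fun j _ => sep_real i j) (by linarith only [ht])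
  have h2 : IsSep (((1 - t * (1 + d / 2) : ℝ) : ℂ) •
      ((1 : Matrix (Fin d) (Fin d) ℂ) ⊗ₖ (1 : Matrix (Fin d) (Fin d) ℂ))) :=
    IsSep.smul' (isSep_kron PosSemidef.one PosSemidef.one) (by linarith only [hd])
  have h3 : IsSep (((t * d / 2 : ℝ) : ℂ) • ∑ i : Fin d, single i i (1 : ℂ) ⊗ₖ
      (1 - single i i (1 : ℂ))) := by
    refine IsSep.smul' (isSep_sum _ fun i _ => isSep_kron (single_psd i) ?_) (by positivity)
    have : (1 - single i i (1 : ℂ) : Matrix (Fin d) (Fin d) ℂ) =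
        diagonal fun j => if j = i then 0 else 1 := by
      ext a b
      rw [Matrix.sub_apply, one_apply, single_apply, diagonal_apply]
      by_cases hab : a = b
      · subst hab
        by_cases hi : a = i
        · simp [hi]
        · have : ¬ i = a := fun h => hi h.symm
          simp [hi, this]
      · rw [if_neg hab, if_neg, if_neg hab, sub_zero]
        rintro ⟨rfl, h⟩
        exact hab h
    rw [this]
    refine PosSemidef.diagonal fun j => ?_
    simp only [Pi.zero_apply]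
    split_ifs <;> simp
  refine isSep_congr (IsSep.add' (IsSep.add' h1 h2) h3) ?_
  set D : Fin d → Fin d → Matrix (Fin d × Fin d) (Fin d × Fin d) ℂ := fun i j =>
    single i i (1 : ℂ) ⊗ₖ single j j (1 : ℂ) with hD
  set X : Fin d → Fin d → Matrix (Fin d × Fin d) (Fin d × Fin d) ℂ := fun i j =>
    single i j (1 : ℂ) ⊗ₖ single j i (1 : ℂ) with hX
  set Y : Fin d → Fin d → Matrix (Fin d × Fin d) (Fin d × Fin d) ℂ := fun i j =>
    single i j (1 : ℂ) ⊗ₖ single i j (1 : ℂ) with hY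
  have e1 : (1 : Matrix (Fin d × Fin d) (Fin d × Fin d) ℂ) = ∑ i, ∑ j, D i j := one_sum
  have e2 : Near.flip d = ∑ i, ∑ j, X i j := flip_sum
  have e3 : Ph d = ∑ i, ∑ j, Y i j := Ph_sum
  have e4 : ∀ i j, ((single i i (1 : ℂ) + single j j 1) ⊗ₖ (single i i (1 : ℂ) + single j j 1) -
      (single i j (1 : ℂ) + single j i 1) ⊗ₖ (single i j (1 : ℂ) + single j i 1)) =
      D i i + D i j + D j i + D j j - X i j - X j i - Y i j - Y j i := by
    intro i j
    simp only [hD, hX, hY, add_kronecker, kronecker_add]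
    abel
  have e5 : ∀ i, single i i (1 : ℂ) ⊗ₖ (1 - single i i (1 : ℂ)) =
      single i i (1 : ℂ) ⊗ₖ (1 : Matrix (Fin d) (Fin d) ℂ) - D i i := by
    intro i
    ext p q
    simp only [hD, Matrix.sub_apply, kroneckerMap_apply]
    ring
  have e6 : ∑ i : Fin d, single i i (1 : ℂ) ⊗ₖ (1 : Matrix (Fin d) (Fin d) ℂ) = 1 := by
    rw [← one_kronecker_one]
    ext p q
    rw [Matrix.sum_apply]
    simp only [kroneckerMap_apply]
    rw [← Finset.sum_mul]
    congr 1
    have : (1 : Matrix (Fin d) (Fin d) ℂ) = ∑ i, single i i (1 : ℂ) := by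
      ext a b
      rw [Matrix.sum_apply, one_apply]
      simp only [single_apply]
      by_cases h : a = b
      · subst h
        simp
      · rw [if_neg h]
        symm
        refine Finset.sum_eq_zero fun i _ => ?_
        rw [if_neg]
        rintro ⟨rfl, h'⟩
        exact h h'
    rw [this, Matrix.sum_apply]
  have c1 : ∑ i, ∑ j, D j i = ∑ i, ∑ j, D i j := Finset.sum_comm
  have c2 : ∑ i, ∑ j, X j i = ∑ i, ∑ j, X i j := Finset.sum_comm
  have c3 : ∑ i, ∑ j, Y j i = ∑ i, ∑ j, Y i j := Finset.sum_comm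
  have c4 : ∑ i : Fin d, ∑ _j : Fin d, D i i = (d : ℂ) • ∑ i, D i i := by
    simp only [Finset.sum_const, Finset.card_univ, Fintype.card_fin, Finset.smul_sum]
    exact Finset.sum_congr rfl fun i _ => (Nat.cast_smul_eq_nsmul ℂ _ _).symm
  have c5 : ∑ i : Fin d, ∑ j : Fin d, D j j = (d : ℂ) • ∑ i, D i i := by
    rw [Finset.sum_comm]
    exact c4
  simp only [e4, e5, Finset.sum_sub_distrib, Finset.sum_add_distrib, c1, c2, c3, c4, c5, e6,
    ← e1, ← e2, ← e3, one_kronecker_one]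
  ext p q
  simp only [Matrix.add_apply, Matrix.sub_apply, Matrix.smul_apply, smul_eq_mul]
  push_cast
  ring

theorem real_addi (W : Matrix (Fin d) (Fin d) ℂ) :
    Addi {x : Matrix (Fin d) (Fin d) ℂ | (Wᴴ * x * W)ᵀ = Wᴴ * x * W} := by
  refine ⟨by simp, fun x hx y hy => ?_⟩
  have hx' : (Wᴴ * x * W)ᵀ = Wᴴ * x * W := hx
  have hy' : (Wᴴ * y * W)ᵀ = Wᴴ * y * W := hy
  change (Wᴴ * (x + y) * W)ᵀ = Wᴴ * (x + y) * W
  rw [Matrix.mul_add, Matrix.add_mul, transpose_add, hx', hy']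

theorem real_num (hd : 3 ≤ d) {t : ℝ} (ht : t = (d ^ 2 + 1) / d ^ 3) :
    0 ≤ t ∧ t * (1 + d / 2) ≤ 1 := by
  have hdr : (3 : ℝ) ≤ d := by exact_mod_cast hd
  have hd0 : (0 : ℝ) < d := by linarith only [hdr]
  refine ⟨by rw [ht]; positivity, ?_⟩
  rw [ht, div_mul_eq_mul_div, div_le_one (by positivity)]
  nlinarith only [mul_nonneg (mul_nonneg hd0.le hd0.le) (sub_nonneg.mpr hdr),
    mul_nonneg hd0.le (sub_nonneg.mpr hdr), hdr]

theorem RealBasis.good (hd : 3 ≤ d) {t : ℝ} (ht : t = (d ^ 2 + 1) / d ^ 3)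
    {V : Set (Matrix (Fin d) (Fin d) ℂ)} (h : RealBasis V) :
    ∃ V', V ⊆ V' ∧ Addi V' ∧ Good V' Set.univ (1 - (t : ℂ) • Near.flip d) ∧
      Good Set.univ V' (1 - (t : ℂ) • Near.flip d) := by
  obtain ⟨W, hW, hV⟩ := h
  obtain ⟨t0, t1⟩ := real_num hd ht
  have hW' : W * Wᴴ = 1 := mul_eq_one_comm.mp hW
  set P : Matrix (Fin d × Fin d) (Fin d × Fin d) ℂ := (W ⊗ₖ W) * Ph d * (W ⊗ₖ W)ᴴ with hP
  have hPp : P.PosSemidef := (Ph_psd d).mul_mul_conjTranspose_same _
  have htc : (0 : ℂ) ≤ ((t / 2 : ℝ) : ℂ) := Complex.zero_le_real.mpr (by linarith only [t0])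
  have hPt : ∀ m m' : Matrix (Fin d) (Fin d) ℂ,
      ((Wᴴ * m * W)ᵀ = Wᴴ * m * W ∨ (Wᴴ * m' * W)ᵀ = Wᴴ * m' * W) →
      ((m ⊗ₖ m') * P).trace = (m * m').trace := by
    intro m m' hmm
    have e1 : ((m ⊗ₖ m') * P).trace = (((Wᴴ * m * W) ⊗ₖ (Wᴴ * m' * W)) * Ph d).trace := by
      rw [hP, ← Matrix.mul_assoc, trace_mul_comm, ← Matrix.mul_assoc, ← Matrix.mul_assoc,
        conjTranspose_kronecker, ← mul_kronecker_mul, ← mul_kronecker_mul]
    have e2 : (m * m').trace = ((Wᴴ * m * W) * (Wᴴ * m' * W)).trace := by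
      calc (m * m').trace = (m * m' * (W * Wᴴ)).trace := by rw [hW', mul_one]
        _ = (Wᴴ * (m * m' * W)).trace := by rw [← Matrix.mul_assoc, trace_mul_comm]
        _ = (Wᴴ * m * (W * Wᴴ) * m' * W).trace := by
            rw [hW', mul_one]; simp only [Matrix.mul_assoc]
        _ = _ := by simp only [Matrix.mul_assoc]
    rw [e1, e2, Ph_trace, Matrix.trace]
    simp only [diag_apply, Matrix.mul_apply (M := Wᴴ * m * W)]
    rcases hmm with h | h
    · have h' : ∀ a b, (Wᴴ * m * W) a b = (Wᴴ * m * W) b a := fun a b =>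
        (congrFun (congrFun h b) a)
      rw [Finset.sum_comm]
      refine Finset.sum_congr rfl fun a _ => Finset.sum_congr rfl fun b _ => ?_
      rw [h' b a]
    · have h' : ∀ a b, (Wᴴ * m' * W) a b = (Wᴴ * m' * W) b a := fun a b =>
        (congrFun (congrFun h b) a)
      refine Finset.sum_congr rfl fun a _ => Finset.sum_congr rfl fun b _ => ?_
      rw [h' a b]
  have hpc : ∀ (VA VB : Set (Matrix (Fin d) (Fin d) ℂ)), (∀ m ∈ VA, ∀ m' ∈ VB,
      ((Wᴴ * m * W)ᵀ = Wᴴ * m * W ∨ (Wᴴ * m' * W)ᵀ = Wᴴ * m' * W)) →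
      Pc VA VB (((t / 2 : ℝ) : ℂ) • (1 - Near.flip d + P)) := by
    intro VA VB hV
    refine ⟨((Near.one_sub_flip d).add hPp).smul htc, ((t / 2 : ℝ) : ℂ) • 1, 1,
      PosSemidef.one.smul htc, PosSemidef.one, fun m hm m' hm' => ?_⟩
    rw [Matrix.mul_smul, trace_smul, Matrix.mul_add, Matrix.mul_sub, trace_add, trace_sub,
      flip_trace, hPt m m' (hV m hm m' hm'), mul_one, trace_kronecker, Matrix.mul_smul, mul_one,
      mul_one, trace_smul, smul_eq_mul, smul_eq_mul]
    ring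
  have hrem : IsSep (1 - (t : ℂ) • Near.flip d - ((t / 2 : ℝ) : ℂ) • (1 - Near.flip d + P)) := by
    refine isSep_congr (IsSep.conj' (inner_sep t0 t1) W W) ?_
    have e1 : (W ⊗ₖ W) * (W ⊗ₖ W)ᴴ = 1 := by
      rw [conjTranspose_kronecker, ← mul_kronecker_mul, hW', one_kronecker_one]
    have e2 : (W ⊗ₖ W) * Near.flip d * (W ⊗ₖ W)ᴴ = Near.flip d := by
      rw [kron_sw, Matrix.mul_assoc, e1, mul_one]
    rw [Matrix.mul_sub, Matrix.mul_sub, Matrix.sub_mul, Matrix.sub_mul]
    simp only [Matrix.mul_smul, Matrix.smul_mul]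
    rw [mul_one, e1, e2, ← hP]
    ext p q
    simp only [Matrix.add_apply, Matrix.sub_apply, Matrix.smul_apply, smul_eq_mul]
    push_cast
    ring
  refine ⟨_, fun x hx => hV x hx, real_addi W,
    pieces_of_rem (hpc _ _ fun m hm m' _ => Or.inl hm) hrem,
    pieces_of_rem (hpc _ _ fun m _ m' hm' => Or.inr hm') hrem⟩

end Vale.Agent.P372.PC
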