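import Vale.Agent.P372.R2.helper492.State

open Matrix Kronecker
open scoped ComplexOrder MatrixOrder

set_option linter.unusedSectionVars false
set_option linter.unusedSimpArgs false

namespace Vale.Agent.P372.LD

theorem amgm3 {a b c : ℝ} (ha : 0 ≤ a) (hb : 0 ≤ b) (hc : 0 ≤ c) :
    27 * (a * b * c) ≤ (a + b + c) ^ 3 := by
  nlinarith [mul_nonneg ha (sq_nonneg (b - c)), mul_nonneg hb (sq_nonneg (c - a)),
    mul_nonneg hc (sq_nonneg (a - b)), mul_nonneg (add_nonneg (add_nonneg ha hb) hc)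
      (sq_nonneg (a - b)), mul_nonneg (add_nonneg (add_nonneg ha hb) hc)
      (sq_nonneg (b - c)), mul_nonneg (add_nonneg (add_nonneg ha hb) hc)
      (sq_nonneg (c - a))]

theorem wit_num_aux {r s t m p : ℝ} (_hr : 0 ≤ r) (hs : 0 ≤ s) (ht : 0 ≤ t) (hsr : s ≤ r)
    (htr : t ≤ r) (hm : 0 ≤ m) (h1 : 27 * p ≤ m ^ 3) (h2 : (r * s * t) ^ 2 ≤ p) :
    3 * (s * t) ≤ m := by
  by_contra hcon
  push Not at hcon
  have hst : 0 ≤ s * t := mul_nonneg hs ht
  have h3 : m ^ 3 < (3 * (s * t)) ^ 3 := pow_lt_pow_left₀ hcon hm (by norm_num)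
  have h4 : (s * t) ^ 3 ≤ (r * s * t) ^ 2 := by
    have h5 : s * t ≤ r ^ 2 := by nlinarith
    calc (s * t) ^ 3 = (s * t) ^ 2 * (s * t) := by ring
      _ ≤ (s * t) ^ 2 * r ^ 2 := mul_le_mul_of_nonneg_left h5 (by positivity)
      _ = (r * s * t) ^ 2 := by ring
  nlinarith

/-- The scalar inequality behind the entanglement witness. -/
theorem wit_num {r s t a b c : ℝ} (hr : 0 ≤ r) (hs : 0 ≤ s) (ht : 0 ≤ t) (ha : 0 ≤ a)
    (hb : 0 ≤ b) (hc : 0 ≤ c) (h : (r * s * t) ^ 2 ≤ a * b * c) :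
    0 ≤ r ^ 2 + s ^ 2 + t ^ 2 - 2 * (r * s + s * t + t * r) + 4 / 3 * (a + b + c) := by
  have h1 := amgm3 ha hb hc
  have hm : 0 ≤ a + b + c := by positivity
  rcases le_total s r with h2 | h2
  · rcases le_total t r with h3 | h3
    · have := wit_num_aux hr hs ht h2 h3 hm h1 h
      nlinarith [sq_nonneg (r - s - t)]
    · have := wit_num_aux (r := t) (s := r) (t := s) ht hr hs h3 (h2.trans h3) hm h1
        (by linarith [show (t * r * s) ^ 2 = (r * s * t) ^ 2 by ring])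
      nlinarith [sq_nonneg (t - r - s)]
  · rcases le_total t s with h3 | h3
    · have := wit_num_aux (r := s) (s := t) (t := r) hs ht hr h3 h2 hm h1
        (by linarith [show (s * t * r) ^ 2 = (r * s * t) ^ 2 by ring])
      nlinarith [sq_nonneg (s - t - r)]
    · have := wit_num_aux (r := t) (s := r) (t := s) ht hr hs (h2.trans h3) h3 hm h1
        (by linarith [show (t * r * s) ^ 2 = (r * s * t) ^ 2 by ring])
      nlinarith [sq_nonneg (t - r - s)]

variable {d : ℕ}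

/-- The entanglement witness. -/
noncomputable def wit (Z : Matrix ((Fin 3 × Fin d) × (Fin 3 × Fin d))
    ((Fin 3 × Fin d) × (Fin 3 × Fin d)) ℂ) : ℂ :=
  ∑ x : Fin 3, ∑ x' : Fin 3, (if x = x' then 1 else -1) *
    (∑ s : Fin d, ∑ s' : Fin d, Z ((x', s'), (x', s')) ((x, s), (x, s))) +
    (4 / 3) * ∑ x : Fin 3, ∑ s : Fin d, ∑ t : Fin d, Z ((x, s), (x + 1, t)) ((x, s), (x + 1, t))

theorem wit_add (Z W : Matrix ((Fin 3 × Fin d) × (Fin 3 × Fin d))
    ((Fin 3 × Fin d) × (Fin 3 × Fin d)) ℂ) : wit (Z + W) = wit Z + wit W := by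
  simp only [wit, Matrix.add_apply, Finset.sum_add_distrib, mul_add]
  ring

theorem wit_sum {ι : Type} (s : Finset ι) (Z : ι → Matrix ((Fin 3 × Fin d) × (Fin 3 × Fin d))
    ((Fin 3 × Fin d) × (Fin 3 × Fin d)) ℂ) : wit (∑ i ∈ s, Z i) = ∑ i ∈ s, wit (Z i) :=
  map_sum (AddMonoidHom.mk' wit wit_add) Z s

theorem wit_smul (r : ℂ) (Z : Matrix ((Fin 3 × Fin d) × (Fin 3 × Fin d))
    ((Fin 3 × Fin d) × (Fin 3 × Fin d)) ℂ) : wit (r • Z) = r * wit Z := by
  simp only [wit, Matrix.smul_apply, smul_eq_mul, ← Finset.mul_sum, mul_add]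
  congr 1
  · rw [Finset.mul_sum]
    refine Finset.sum_congr rfl fun x _ => ?_
    rw [Finset.mul_sum]
    refine Finset.sum_congr rfl fun x' _ => ?_
    ring
  · ring

/-- The operator `|α ⊗ β⟩⟨α ⊗ β|`. -/
noncomputable def vv (α β : Fin 3 × Fin d → ℂ) : Matrix ((Fin 3 × Fin d) × (Fin 3 × Fin d))
    ((Fin 3 × Fin d) × (Fin 3 × Fin d)) ℂ := fun p q =>
  (α p.1 * β p.2) * star (α q.1 * β q.2)

/-- The witness is nonnegative on product vectors. -/
theorem wit_vec (α β : Fin 3 × Fin d → ℂ) : 0 ≤ (wit (vv α β)).re := by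
  set g : Fin 3 → ℂ := fun x => ∑ s, α (x, s) * β (x, s) with hg
  set A : Fin 3 → ℝ := fun x => ∑ s, ‖α (x, s)‖ ^ 2 with hA
  set B : Fin 3 → ℝ := fun x => ∑ s, ‖β (x, s)‖ ^ 2 with hB
  have hA0 : ∀ x, 0 ≤ A x := fun x => Finset.sum_nonneg fun _ _ => by positivity
  have hB0 : ∀ x, 0 ≤ B x := fun x => Finset.sum_nonneg fun _ _ => by positivity
  have e1 : ∀ x x' : Fin 3, (∑ s : Fin d, ∑ s' : Fin d, (α (x', s') * β (x', s')) *
      star (α (x, s) * β (x, s))) = g x' * star (g x) := by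
    intro x x'
    rw [hg, star_sum, Finset.sum_mul_sum, Finset.sum_comm]
  have e2 : ∀ x : Fin 3, (∑ s : Fin d, ∑ t : Fin d, (α (x, s) * β (x + 1, t)) *
      star (α (x, s) * β (x + 1, t))) = ((A x * B (x + 1) : ℝ) : ℂ) := by
    intro x
    rw [hA, hB, Finset.sum_mul_sum]
    push_cast
    refine Finset.sum_congr rfl fun s _ => Finset.sum_congr rfl fun t _ => ?_
    rw [RCLike.star_def, Complex.mul_conj', norm_mul]
    push_cast
    ring
  have hcs : ∀ x, ‖g x‖ ^ 2 ≤ A x * B x := by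
    intro x
    have h1 : ‖g x‖ ≤ ∑ s, ‖α (x, s)‖ * ‖β (x, s)‖ := by
      refine (norm_sum_le _ _).trans (le_of_eq ?_)
      exact Finset.sum_congr rfl fun s _ => norm_mul _ _
    calc ‖g x‖ ^ 2 ≤ (∑ s, ‖α (x, s)‖ * ‖β (x, s)‖) ^ 2 :=
          pow_le_pow_left₀ (norm_nonneg _) h1 2
      _ ≤ _ := Finset.sum_mul_sq_le_sq_mul_sq _ _ _
  have hW : wit (vv α β) =
      ∑ x : Fin 3, ∑ x' : Fin 3, (if x = x' then 1 else -1) * (g x' * star (g x)) +
        (4 / 3) * ∑ x : Fin 3, ((A x * B (x + 1) : ℝ) : ℂ) := by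
    simp only [wit, vv, e1, e2]
  rw [hW]
  have h1 : ∀ x : Fin 3, (g x * star (g x)).re = ‖g x‖ ^ 2 := by
    intro x
    rw [RCLike.star_def, Complex.mul_conj']
    norm_cast
  have h2 : ∀ x x' : Fin 3, (g x * star (g x')).re ≤ ‖g x‖ * ‖g x'‖ := by
    intro x x'
    refine (Complex.re_le_norm _).trans ?_
    rw [norm_mul, norm_star]
  have h3 := wit_num (norm_nonneg (g 0)) (norm_nonneg (g 1)) (norm_nonneg (g 2))
    (mul_nonneg (hA0 0) (hB0 1)) (mul_nonneg (hA0 1) (hB0 2)) (mul_nonneg (hA0 2) (hB0 0)) (by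
      calc (‖g 0‖ * ‖g 1‖ * ‖g 2‖) ^ 2 = ‖g 0‖ ^ 2 * ‖g 1‖ ^ 2 * ‖g 2‖ ^ 2 := by ring
        _ ≤ (A 0 * B 0) * (A 1 * B 1) * (A 2 * B 2) :=
          mul_le_mul (mul_le_mul (hcs 0) (hcs 1) (by positivity)
            (mul_nonneg (hA0 0) (hB0 0))) (hcs 2) (by positivity)
            (mul_nonneg (mul_nonneg (hA0 0) (hB0 0)) (mul_nonneg (hA0 1) (hB0 1)))
        _ = _ := by ring)
  have e3 : (∑ x : Fin 3, ∑ x' : Fin 3, (if x = x' then 1 else -1) * (g x' * star (g x)) +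
        (4 / 3) * ∑ x : Fin 3, ((A x * B (x + 1) : ℝ) : ℂ)).re =
      (g 0 * star (g 0)).re + (g 1 * star (g 1)).re + (g 2 * star (g 2)).re -
      ((g 1 * star (g 0)).re + (g 2 * star (g 0)).re + (g 0 * star (g 1)).re +
        (g 2 * star (g 1)).re + (g 0 * star (g 2)).re + (g 1 * star (g 2)).re) +
      4 / 3 * (A 0 * B 1 + A 1 * B 2 + A 2 * B 0) := by
    have f0 : (0 : Fin 3) + 1 = 1 := rfl
    have f1 : (1 : Fin 3) + 1 = 2 := rfl
    have f2 : (2 : Fin 3) + 1 = 0 := rfl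
    have f3 : (4 / 3 : ℂ) * ∑ x : Fin 3, ((A x * B (x + 1) : ℝ) : ℂ) =
        ((4 / 3 * (A 0 * B 1 + A 1 * B 2 + A 2 * B 0) : ℝ) : ℂ) := by
      rw [Fin.sum_univ_three, f0, f1, f2]
      push_cast
      ring
    rw [f3, Complex.add_re, Complex.ofReal_re]
    congr 1
    simp only [Fin.sum_univ_three, Complex.add_re]
    simp only [Fin.isValue, if_true, zero_ne_one, if_false, one_mul, neg_mul, Complex.neg_re,
      one_ne_zero, Fin.reduceEq]
    ring
  rw [e3, h1, h1, h1]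
  have := h2 1 0
  have := h2 2 0
  have := h2 0 1
  have := h2 2 1
  have := h2 0 2
  have := h2 1 2
  nlinarith

theorem wit_kron {M N : Matrix (Fin 3 × Fin d) (Fin 3 × Fin d) ℂ} (hM : M.PosSemidef)
    (hN : N.PosSemidef) : 0 ≤ (wit (M ⊗ₖ N)).re := by
  obtain ⟨C, rfl⟩ := exists_eq_conjTranspose_mul_self hM
  obtain ⟨D, rfl⟩ := exists_eq_conjTranspose_mul_self hN
  have e : (Cᴴ * C) ⊗ₖ (Dᴴ * D) =
      ∑ k, ∑ l, vv (fun a => star (C k a)) (fun b => star (D l b)) := by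
    ext p q
    rw [kroneckerMap_apply, Matrix.mul_apply, Matrix.mul_apply, Finset.sum_mul_sum,
      Matrix.sum_apply]
    refine Finset.sum_congr rfl fun k _ => ?_
    rw [Matrix.sum_apply]
    refine Finset.sum_congr rfl fun l _ => ?_
    simp only [conjTranspose_apply, star_mul', star_star, vv]
    ring
  rw [e, wit_sum, Complex.re_sum]
  refine Finset.sum_nonneg fun k _ => ?_
  rw [wit_sum, Complex.re_sum]
  refine Finset.sum_nonneg fun l _ => ?_
  exact wit_vec (fun a => star (C k a)) (fun b => star (D l b))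

theorem wit_sep {ρ : Matrix ((Fin 3 × Fin d) × (Fin 3 × Fin d))
    ((Fin 3 × Fin d) × (Fin 3 × Fin d)) ℂ} (h : IsSep ρ) : 0 ≤ (wit ρ).re := by
  obtain ⟨n, M, N, hM, hN, rfl⟩ := h
  rw [wit_sum, Complex.re_sum]
  exact Finset.sum_nonneg fun k _ => wit_kron (hM k) (hN k)

theorem wit_rho (θ : ℝ) (c : Fin 3 → Fin 3 → ℝ) (hd : 0 < d) : wit (rho d θ c) =
    ((3 * d - 6 * θ * d + 4 / 3 * d ^ 2 * (c 0 1 + c 1 2 + c 2 0) : ℝ) : ℂ) := by
  have hd' : (d : ℂ) ≠ 0 := by exact_mod_cast hd.ne'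
  have e1 : ∀ x x' : Fin 3, (∑ s : Fin d, ∑ s' : Fin d,
      rho d θ c ((x', s'), (x', s')) ((x, s), (x, s))) = if x = x' then (d : ℂ) else θ * d := by
    intro x x'
    have : ∀ s s' : Fin d, rho d θ c ((x', s'), (x', s')) ((x, s), (x, s)) =
        if x = x' then (if s' = s then 1 else 0) else (θ : ℂ) * (d : ℂ)⁻¹ := by
      intro s s'
      simp only [rho, mk, Xa, Matrix.one_apply, Fintype.card_fin]
      by_cases h : x = x'
      · subst h
        simp
      · have h' : ¬ x' = x := fun h' => h h'.symm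
        simp [h, h']
    simp only [this]
    by_cases h : x = x'
    · simp [h]
    · simp only [h, if_false, Finset.sum_const, Finset.card_univ, Fintype.card_fin, nsmul_eq_mul]
      field_simp
  have e2 : ∀ x : Fin 3, (∑ s : Fin d, ∑ t : Fin d,
      rho d θ c ((x, s), (x + 1, t)) ((x, s), (x + 1, t))) = (d : ℂ) ^ 2 * c x (x + 1) := by
    intro x
    have hx : ¬ x = x + 1 := by omega
    have : ∀ s t : Fin d, rho d θ c ((x, s), (x + 1, t)) ((x, s), (x + 1, t)) = c x (x + 1) := by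
      intro s t
      simp only [rho, mk, hx]
      simp
    simp only [this, Finset.sum_const, Finset.card_univ, Fintype.card_fin, nsmul_eq_mul]
    ring
  simp only [wit, e1, e2]
  have f0 : (0 : Fin 3) + 1 = 1 := rfl
  have f1 : (1 : Fin 3) + 1 = 2 := rfl
  have f2 : (2 : Fin 3) + 1 = 0 := rfl
  simp only [Fin.sum_univ_three, f0, f1, f2]
  simp only [Fin.isValue, if_true, zero_ne_one, if_false, one_mul, neg_mul, Complex.neg_re,
      one_ne_zero, Fin.reduceEq]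
  push_cast
  ring

end Vale.Agent.P372.LD
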