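import Vale.Agent.P372.R2.helper492.LetterDefs

open Matrix
open scoped ComplexOrder

namespace Vale.Agent.P372

/-- The matrices on the system `i` contained in an operator `M` on several systems: the indices of
the other systems are fixed, to `r` for the rows and to `r'` for the columns. -/
def siteMat {ι A : Type} [DecidableEq ι] (i : ι) (M : Matrix (ι → A) (ι → A) ℂ) (r r' : ι → A) :
    Matrix A A ℂ :=
  fun a a' => M (Function.update r i a) (Function.update r' i a')

/-- All the matrices on the system `i` contained in the operators `M k`. -/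
def siteSet {ι A κ : Type} [DecidableEq ι] (i : ι) (M : κ → Matrix (ι → A) (ι → A) ℂ) :
    Set (Matrix A A ℂ) :=
  {x | ∃ k r r', siteMat i (M k) r r' = x}

variable {A : Type} [Fintype A] [DecidableEq A]

/-- All elements of `V` commute with an orthogonal projection which is not `0` or `1`. -/
def Split (V : Set (Matrix A A ℂ)) : Prop :=
  ∃ Q : Matrix A A ℂ, Qᴴ = Q ∧ Q * Q = Q ∧ Q ≠ 0 ∧ Q ≠ 1 ∧ ∀ x ∈ V, Q * x = x * Q

/-- All elements of `V` commute with an orthogonal projection of rank one. -/
def Split1 (V : Set (Matrix A A ℂ)) : Prop :=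
  ∃ Q : Matrix A A ℂ, Qᴴ = Q ∧ Q * Q = Q ∧ Q.trace = 1 ∧ ∀ x ∈ V, Q * x = x * Q

/-- In some orthonormal basis (the columns of `W`) all elements of `V` are symmetric matrices
(equal to their transposes). -/
def RealBasis (V : Set (Matrix A A ℂ)) : Prop :=
  ∃ W : Matrix A A ℂ, Wᴴ * W = 1 ∧ ∀ x ∈ V, (Wᴴ * x * W)ᵀ = Wᴴ * x * W

/-- In some orthonormal basis all elements of `V` are block diagonal, with blocks of size at most
`M` (the basis vectors are coloured by `c`, the blocks are the colours). -/
def Blocks (M : ℕ) (V : Set (Matrix A A ℂ)) : Prop :=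
  ∃ (W : Matrix A A ℂ) (c : A → ℕ), Wᴴ * W = 1 ∧
    (∀ j, (Finset.univ.filter fun a => c a = j).card ≤ M) ∧
    ∀ x ∈ V, ∀ a a', c a ≠ c a' → (Wᴴ * x * W) a a' = 0

/-- The elements of `V` are the combinations `x = ∑ y, tr (x (p y - n y)) v y` of positive
operators `v y` (for instance the elements of a POVM) with coefficients given by positive operators
`p y`, `n y` such that `∑ y, tr (v y) (p y + n y) ≤ C`. -/
def Cond (C : ℝ) (V : Set (Matrix A A ℂ)) : Prop :=
  ∃ (m : ℕ) (v p n : Fin m → Matrix A A ℂ),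
    (∀ y, (v y).PosSemidef ∧ (p y).PosSemidef ∧ (n y).PosSemidef) ∧
    ((C : ℂ) • 1 - ∑ y, (v y).trace • (p y + n y)).PosSemidef ∧
    ∀ x ∈ V, ∑ y, (x * (p y - n y)).trace • v y = x

/-- No protocol on any number `n` of copies of the state `ρ` makes a key (even of one bit) with
error at most `1/64`, provided that for every transcript `t` and all but at most `N` of the copies
`i`, the matrices on Alice's `i`-th system contained in her effects `f t k` satisfy the condition
`P`, or those on Bob's `i`-th system contained in his effects `g t k` satisfy `Q`. -/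
def NoKey {A B : Type} [Fintype A] [DecidableEq A] [Fintype B] [DecidableEq B]
    (ρ : Matrix (A × B) (A × B) ℂ) (N : ℕ) (P : Set (Matrix A A ℂ) → Prop)
    (Q : Set (Matrix B B ℂ) → Prop) : Prop :=
  ∀ (E : Type) [Fintype E] [DecidableEq E] (Ψ : Matrix (A × B) E ℂ), Ψ * Ψᴴ = ρ →
  ∀ (n ℓ : ℕ), 0 < ℓ → ∀ (T : Type) [Fintype T]
    (f : T → (Fin ℓ → Bool) → Matrix (Fin n → A) (Fin n → A) ℂ)
    (g : T → (Fin ℓ → Bool) → Matrix (Fin n → B) (Fin n → B) ℂ),
    LOCC (Fin ℓ → Bool) (Fin n → A) (Fin n → B) T f g →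
    (∀ t, ∃ S : Finset (Fin n), S.card ≤ N ∧
      ∀ i ∉ S, P (siteSet i (f t)) ∨ Q (siteSet i (g t))) →
    ¬ KeyError f g (copies n Ψ) (1 / 64)

end Vale.Agent.P372
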