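import Vale.Agent.P372.R2.helper492.NearSites
import Vale.Agent.P372.R2.helper492.SiteDefs

/-! Pieces of a state with respect to classes of matrices at one site. -/

open Matrix Kronecker
open scoped ComplexOrder MatrixOrder

set_option linter.unusedSectionVars false

namespace Vale.Agent.P372.PC

open Vale.Agent.P372.Half (tf join)

variable {ι : Type} [Fintype ι] [DecidableEq ι]
variable {A B : Type} [Fintype A] [DecidableEq A] [Fintype B] [DecidableEq B]

theorem sum_update {C : Type} [Fintype C] (i : ι) (F : (ι → C) → ℂ) :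
    ∑ x : ι → C, ∑ a, F (Function.update x i a) = (Fintype.card C : ℂ) * ∑ x, F x := by
  have hinv : Function.Involutive
      (fun p : (ι → C) × C => (Function.update p.1 i p.2, p.1 i)) := by
    intro p
    simp
  calc ∑ x : ι → C, ∑ a, F (Function.update x i a)
      = ∑ p : (ι → C) × C, F (Function.update p.1 i p.2) :=
        (Fintype.sum_prod_type fun p : (ι → C) × C => F (Function.update p.1 i p.2)).symm
    _ = ∑ p : (ι → C) × C, F p.1 := Equiv.sum_comp hinv.toPerm fun p => F p.1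
    _ = (Fintype.card C : ℂ) * ∑ x, F x := by
      rw [Fintype.sum_prod_type, Finset.mul_sum]
      refine Finset.sum_congr rfl fun x _ => ?_
      change ∑ _y : C, F x = _
      rw [Finset.sum_const, Finset.card_univ, nsmul_eq_mul]

theorem trace_expand {C D : Type} [Fintype C] [DecidableEq C] [Fintype D] [DecidableEq D]
    (p : Matrix C C ℂ) (q : Matrix D D ℂ) (S : Matrix (C × D) (C × D) ℂ) :
    ((p ⊗ₖ q) * S).trace = ∑ c : (C × C) × (D × D), p c.1.1 c.1.2 * q c.2.1 c.2.2 *
      S (c.1.2, c.2.2) (c.1.1, c.2.1) := by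
  simp only [Matrix.trace, Matrix.diag, Matrix.mul_apply, Fintype.sum_prod_type,
    kroneckerMap_apply]
  refine Finset.sum_congr rfl fun x _ => ?_
  rw [Finset.sum_comm]

/-- The four index functions collected. -/
def quad (ι A B : Type) : (ι → (A × A) × (B × B)) ≃ ((ι → A) × (ι → A)) × ((ι → B) × (ι → B)) :=
  (Equiv.arrowProdEquivProdArrow ι (fun _ => A × A) (fun _ => B × B)).trans
    ((Equiv.arrowProdEquivProdArrow ι (fun _ => A) (fun _ => A)).prodCongr
      (Equiv.arrowProdEquivProdArrow ι (fun _ => B) (fun _ => B)))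

theorem trace_site (i : ι) (p : Matrix (ι → A) (ι → A) ℂ) (q : Matrix (ι → B) (ι → B) ℂ)
    (G : ι → Matrix (A × B) (A × B) ℂ) (Z : Matrix (A × B) (A × B) ℂ) :
    (Fintype.card ((A × A) × (B × B)) : ℂ) * ((p ⊗ₖ q) * tf (Function.update G i Z)).trace =
      ∑ w : ι → (A × A) × (B × B), (∏ j ∈ Finset.univ.erase i,
        G j ((w j).1.2, (w j).2.2) ((w j).1.1, (w j).2.1)) *
        ((siteMat i p (fun j => (w j).1.1) (fun j => (w j).1.2) ⊗ₖ
          siteMat i q (fun j => (w j).2.1) (fun j => (w j).2.2)) * Z).trace := by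
  rw [trace_expand, ← Equiv.sum_comp (quad ι A B), ← sum_update i]
  refine Finset.sum_congr rfl fun w _ => ?_
  rw [trace_expand, Finset.mul_sum]
  refine Finset.sum_congr rfl fun c _ => ?_
  have e1 : ∀ {E : Type} (f : (A × A) × (B × B) → E),
      (fun j => f (Function.update w i c j)) = Function.update (fun j => f (w j)) i (f c) := by
    intro E f
    exact Function.comp_update f w i c
  have e2 : (quad ι A B) (Function.update w i c) =
      ((fun j => (Function.update w i c j).1.1, fun j => (Function.update w i c j).1.2),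
        (fun j => (Function.update w i c j).2.1, fun j => (Function.update w i c j).2.2)) := rfl
  rw [e2, e1 fun c => c.1.1, e1 fun c => c.1.2, e1 fun c => c.2.1, e1 fun c => c.2.2, tf_apply,
    ← Finset.mul_prod_erase _ _ (Finset.mem_univ i)]
  simp only [Function.update_self]
  have e3 : ∏ j ∈ Finset.univ.erase i, (Function.update G i Z) j
      (Function.update (fun j => (w j).1.2) i c.1.2 j, Function.update (fun j => (w j).2.2) i c.2.2 j)
      (Function.update (fun j => (w j).1.1) i c.1.1 j, Function.update (fun j => (w j).2.1) i c.2.1 j)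
      = ∏ j ∈ Finset.univ.erase i, G j ((w j).1.2, (w j).2.2) ((w j).1.1, (w j).2.1) := by
    refine Finset.prod_congr rfl fun j hj => ?_
    have hj' := Finset.ne_of_mem_erase hj
    rw [Function.update_of_ne hj', Function.update_of_ne hj', Function.update_of_ne hj',
      Function.update_of_ne hj', Function.update_of_ne hj']
  rw [e3]
  simp only [siteMat]
  ring

theorem trace_congr_site (i : ι) {p : Matrix (ι → A) (ι → A) ℂ} {q : Matrix (ι → B) (ι → B) ℂ}
    (G : ι → Matrix (A × B) (A × B) ℂ) {Z Z' : Matrix (A × B) (A × B) ℂ}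
    (h : ∀ x x' y y', ((siteMat i p x x' ⊗ₖ siteMat i q y y') * Z).trace =
      ((siteMat i p x x' ⊗ₖ siteMat i q y y') * Z').trace) :
    ((p ⊗ₖ q) * tf (Function.update G i Z)).trace =
      ((p ⊗ₖ q) * tf (Function.update G i Z')).trace := by
  rcases isEmpty_or_nonempty ((A × A) × (B × B)) with he | he
  · have h0 : ∀ S : Matrix ((ι → A) × (ι → B)) ((ι → A) × (ι → B)) ℂ,
        ((p ⊗ₖ q) * S).trace = 0 := by
      intro S
      have : IsEmpty ((ι → A) × (ι → B)) :=
        ⟨fun z => he.elim ((z.1 i, z.1 i), (z.2 i, z.2 i))⟩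
      rw [Matrix.trace]
      exact Fintype.sum_empty _
    rw [h0, h0]
  · have hK : (Fintype.card ((A × A) × (B × B)) : ℂ) ≠ 0 := by
      exact_mod_cast Fintype.card_ne_zero
    refine mul_left_cancel₀ hK ?_
    rw [trace_site, trace_site]
    refine Finset.sum_congr rfl fun w _ => ?_
    rw [h]

/-- A positive piece of a state which looks like a product for the matrices in `VA ⊗ VB`. -/
def Pc (VA : Set (Matrix A A ℂ)) (VB : Set (Matrix B B ℂ)) (Z : Matrix (A × B) (A × B) ℂ) : Prop :=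
  Z.PosSemidef ∧ ∃ (α : Matrix A A ℂ) (β : Matrix B B ℂ), α.PosSemidef ∧ β.PosSemidef ∧
    ∀ m ∈ VA, ∀ m' ∈ VB, ((m ⊗ₖ m') * Z).trace = (m * α).trace * (m' * β).trace

theorem trace_pc {p : Matrix (ι → A) (ι → A) ℂ} {q : Matrix (ι → B) (ι → B) ℂ}
    {VA : ι → Set (Matrix A A ℂ)} {VB : ι → Set (Matrix B B ℂ)}
    (hp : ∀ i x x', siteMat i p x x' ∈ VA i) (hq : ∀ i y y', siteMat i q y y' ∈ VB i)
    {Z : ι → Matrix (A × B) (A × B) ℂ} {α : ι → Matrix A A ℂ} {β : ι → Matrix B B ℂ}
    (h : ∀ i, ∀ m ∈ VA i, ∀ m' ∈ VB i,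
      ((m ⊗ₖ m') * Z i).trace = (m * α i).trace * (m' * β i).trace) :
    ((p ⊗ₖ q) * tf Z).trace = (p * piT α).trace * (q * piT β).trace := by
  have key : ∀ s : Finset ι, ((p ⊗ₖ q) * tf Z).trace =
      ((p ⊗ₖ q) * tf (fun i => if i ∈ s then α i ⊗ₖ β i else Z i)).trace := by
    intro s
    induction s using Finset.induction_on with
    | empty => simp
    | insert i s hi ih =>
      rw [ih]
      set G : ι → Matrix (A × B) (A × B) ℂ := fun j => if j ∈ s then α j ⊗ₖ β j else Z j with hG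
      have hGi : G i = Z i := by rw [hG]; simp [hi]
      have e1 : (fun j => if j ∈ insert i s then α j ⊗ₖ β j else Z j) =
          Function.update G i (α i ⊗ₖ β i) := by
        funext j
        by_cases hj : j = i
        · subst hj
          simp
        · rw [Function.update_of_ne hj, hG]
          simp [Finset.mem_insert, hj]
      have e3 : tf (Function.update G i (Z i)) = tf G := by
        rw [← hGi, Function.update_eq_self]
      rw [e1, ← e3]
      refine trace_congr_site i G fun x x' y y' => ?_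
      rw [h i _ (hp i x x') _ (hq i y y'), ← mul_kronecker_mul, trace_kronecker]
  rw [key Finset.univ]
  simp only [Finset.mem_univ, if_true]
  rw [tf_kron, ← mul_kronecker_mul, trace_kronecker]

theorem site_split (pr : ι → Prop) [DecidablePred pr] (i : {i // ¬ pr i})
    {X : Matrix (ι → A) (ι → A) ℂ} {V : Set (Matrix A A ℂ)}
    (h : ∀ x x', siteMat i.1 (Xᴴ * X) x x' ∈ V) (a a' : {i // pr i} → A)
    (x x' : {i // ¬ pr i} → A) :
    siteMat i (((X.submatrix (sp pr A).symm (sp pr A).symm)ᴴ *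
      X.submatrix (sp pr A).symm (sp pr A).symm).submatrix (Prod.mk a) (Prod.mk a')) x x' ∈ V := by
  rw [conjTranspose_submatrix, submatrix_mul_equiv]
  have e : ∀ (a : {i // pr i} → A) (x : {i // ¬ pr i} → A) (c : A),
      (sp pr A).symm (a, Function.update x i c) =
        Function.update ((sp pr A).symm (a, x)) i.1 c := by
    intro a x c
    funext j
    by_cases hj : j = i.1
    · subst hj
      rw [Function.update_self]
      simp [Equiv.piEquivPiSubtypeProd, i.2]
    · rw [Function.update_of_ne hj]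
      by_cases hp : pr j
      · simp [Equiv.piEquivPiSubtypeProd, hp]
      · have : (⟨j, hp⟩ : {i // ¬ pr i}) ≠ i := fun h' => hj (congrArg Subtype.val h')
        simp [Equiv.piEquivPiSubtypeProd, hp, Function.update_of_ne this]
  have e2 : siteMat i (((Xᴴ * X).submatrix (sp pr A).symm (sp pr A).symm).submatrix (Prod.mk a)
      (Prod.mk a')) x x' = siteMat i.1 (Xᴴ * X) ((sp pr A).symm (a, x)) ((sp pr A).symm (a', x')) := by
    ext c c'
    simp only [siteMat, submatrix_apply, e]
  rw [e2]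
  exact h _ _

theorem base_pc (pr : ι → Prop) [DecidablePred pr] (Z : ι → Matrix (A × B) (A × B) ℂ)
    (VA : ι → Set (Matrix A A ℂ)) (VB : ι → Set (Matrix B B ℂ))
    (hZ : ∀ i, ¬ pr i → Pc (VA i) (VB i) (Z i))
    (X : Bool → Matrix (ι → A) (ι → A) ℂ) (Y : Bool → Matrix (ι → B) (ι → B) ℂ)
    (hX : ∀ k i, ¬ pr i → ∀ x x', siteMat i ((X k)ᴴ * X k) x x' ∈ VA i)
    (hY : ∀ k i, ¬ pr i → ∀ y y', siteMat i ((Y k)ᴴ * Y k) y y' ∈ VB i)
    (hR : ∀ X₀ X₁ Y₀ Y₁, TT (tf fun i : {i // pr i} => Z i) X₀ X₁ Y₀ Y₁) :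
    TT (tf Z) (X false) (X true) (Y false) (Y true) := by
  rw [tf_split pr]
  refine TT_submatrix _ _ _ _ _ _ _ ?_
  choose hZ1 α β hα hβ hαβ using hZ
  have hZ1' : ∀ i : {i // ¬ pr i}, (Z i).PosSemidef := fun i => hZ1 i.1 i.2
  refine join_gen (tf fun i : {i // pr i} => Z i) (tf fun i : {i // ¬ pr i} => Z i)
    (tf_posSemidef hZ1')
    (fun k => (X k).submatrix (sp pr A).symm (sp pr A).symm)
    (fun k => (Y k).submatrix (sp pr B).symm (sp pr B).symm)
    (fun k => Half.pt ((X k).submatrix (sp pr A).symm (sp pr A).symm)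
      (piT fun i : {i // ¬ pr i} => α i.1 i.2))
    (fun k => Half.pt ((Y k).submatrix (sp pr B).symm (sp pr B).symm)
      (piT fun i : {i // ¬ pr i} => β i.1 i.2))
    (fun k => Half.pt_posSemidef _ (piT_posSemidef fun i => hα i.1 i.2))
    (fun k => Half.pt_posSemidef _ (piT_posSemidef fun i => hβ i.1 i.2)) ?_ hR
  intro k l a a' b b'
  have h1 := trace_pc
    (p := (((X k).submatrix (sp pr A).symm (sp pr A).symm)ᴴ *
      (X k).submatrix (sp pr A).symm (sp pr A).symm).submatrix (Prod.mk a) (Prod.mk a'))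
    (q := (((Y l).submatrix (sp pr B).symm (sp pr B).symm)ᴴ *
      (Y l).submatrix (sp pr B).symm (sp pr B).symm).submatrix (Prod.mk b) (Prod.mk b'))
    (VA := fun i : {i // ¬ pr i} => VA i) (VB := fun i : {i // ¬ pr i} => VB i)
    (fun i => site_split pr i (hX k i.1 i.2) a a')
    (fun i => site_split pr i (hY l i.1 i.2) b b') (Z := fun i : {i // ¬ pr i} => Z i)
    (α := fun i => α i.1 i.2) (β := fun i => β i.1 i.2) (fun i => hαβ i.1 i.2)
  have e1 : ∀ {E F : Type} [Fintype E] [DecidableEq E] [Fintype F] [DecidableEq F]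
      (M : Matrix (F × E) (F × E) ℂ) (a a' : F) (z : Matrix E E ℂ),
      (M.submatrix (Prod.mk a) (Prod.mk a') * z).trace = ∑ x, ∑ x', M (a, x) (a', x') * z x' x := by
    intro E F _ _ _ _ M a a' z
    simp only [Matrix.trace, Matrix.diag, Matrix.mul_apply, submatrix_apply]
  have e2 : ∀ {C D : Type} [Fintype C] [DecidableEq C] [Fintype D] [DecidableEq D]
      (p : Matrix C C ℂ) (q : Matrix D D ℂ) (S : Matrix (C × D) (C × D) ℂ),
      ((p ⊗ₖ q) * S).trace = ∑ x, ∑ x', ∑ y, ∑ y', p x x' * q y y' * S (x', y') (x, y) := by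
    intro C D _ _ _ _ p q S
    simp only [Matrix.trace, Matrix.diag, Matrix.mul_apply, Fintype.sum_prod_type,
      kroneckerMap_apply]
    exact Finset.sum_congr rfl fun x _ => Finset.sum_comm
  rw [e2, e1, e1] at h1
  exact h1

/-- All tests fail when the sites outside `pr` have decompositions into pieces. -/
theorem all_pc (pr : ι → Prop) [DecidablePred pr] (ρ : Matrix (A × B) (A × B) ℂ)
    (hρ : ρ.PosSemidef) (VA : ι → Set (Matrix A A ℂ)) (VB : ι → Set (Matrix B B ℂ))
    (hpc : ∀ i, ¬ pr i → ∃ (m : ℕ) (σ : Fin m → Matrix (A × B) (A × B) ℂ), ∑ x, σ x = ρ ∧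
      ∀ x, Pc (VA i) (VB i) (σ x))
    (X : Bool → Matrix (ι → A) (ι → A) ℂ) (Y : Bool → Matrix (ι → B) (ι → B) ℂ)
    (hX : ∀ k i, ¬ pr i → ∀ x x', siteMat i ((X k)ᴴ * X k) x x' ∈ VA i)
    (hY : ∀ k i, ¬ pr i → ∀ y y', siteMat i ((Y k)ᴴ * Y k) y y' ∈ VB i)
    (hR : ∀ X₀ X₁ Y₀ Y₁, TT (tf fun _ : {i // pr i} => ρ) X₀ X₁ Y₀ Y₁) :
    TT (tf fun _ : ι => ρ) (X false) (X true) (Y false) (Y true) := by
  have h1 : ∀ i, ∃ (m : ℕ) (σ : Fin m → Matrix (A × B) (A × B) ℂ), ∑ x, σ x = ρ ∧
      (pr i → ∀ x, σ x = ρ) ∧ (¬ pr i → ∀ x, Pc (VA i) (VB i) (σ x)) := by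
    intro i
    by_cases hi : pr i
    · exact ⟨1, fun _ => ρ, by simp, fun _ _ => rfl, fun h => absurd hi h⟩
    · obtain ⟨m, σ, hσ, hσ'⟩ := hpc i hi
      exact ⟨m, σ, hσ, fun h => absurd h hi, fun _ => hσ'⟩
  choose m σ hσ hσ1 hσ2 using h1
  have e : tf (fun _ : ι => ρ) = ∑ x : (∀ i, Fin (m i)), tf (fun i => σ i (x i)) := by
    rw [← tf_sum]
    congr 1
    funext i
    exact (hσ i).symm
  have hps : ∀ i x, (σ i x).PosSemidef := by
    intro i x
    by_cases hi : pr i
    · rw [hσ1 i hi x]; exact hρ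
    · exact (hσ2 i hi x).1
  rw [e]
  refine TT_sum (fun x : (∀ i, Fin (m i)) => tf (fun i => σ i (x i)))
    (fun x => tf_posSemidef fun i => hps i (x i)) (X false) (X true) (Y false) (Y true)
    fun x => ?_
  refine base_pc pr (fun i => σ i (x i)) VA VB (fun i hi => hσ2 i hi (x i)) X Y hX hY ?_
  have e2 : (fun i : {i // pr i} => σ i (x i)) = fun _ => ρ := by
    funext i
    exact hσ1 i.1 i.2 (x i)
  rw [e2]
  exact hR

end Vale.Agent.P372.PC
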