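import Vale.Agent.P372.R2.helper492.SiteFinal

/-! The results for restricted effects. -/

open Matrix Kronecker
open scoped ComplexOrder MatrixOrder

set_option linter.unusedSectionVars false

namespace Vale.Agent.P372.PC

open Vale.Agent.P372.Half (tf join)

section werner

variable {d : ℕ}

theorem w_low {t : ℝ} (ht : 0 ≤ t) :
    ((1 : Matrix (Fin d × Fin d) (Fin d × Fin d) ℂ) - (t : ℂ) • Near.flip d -
      ((1 - t : ℝ) : ℂ) • 1).PosSemidef := by
  have h : (1 : Matrix (Fin d × Fin d) (Fin d × Fin d) ℂ) - (t : ℂ) • Near.flip d -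
      ((1 - t : ℝ) : ℂ) • 1 = (t : ℂ) • (1 - Near.flip d) := by
    push_cast
    rw [sub_smul, one_smul, smul_sub]
    abel
  rw [h]
  exact (Near.one_sub_flip d).smul (Complex.zero_le_real.mpr ht)

theorem w_high {t : ℝ} (ht : 0 ≤ t) :
    (((1 + t : ℝ) : ℂ) • (1 : Matrix (Fin d × Fin d) (Fin d × Fin d) ℂ) -
      (1 - (t : ℂ) • Near.flip d)).PosSemidef := by
  have h : ((1 + t : ℝ) : ℂ) • (1 : Matrix (Fin d × Fin d) (Fin d × Fin d) ℂ) -
      (1 - (t : ℂ) • Near.flip d) = (t : ℂ) • (1 + Near.flip d) := by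
    push_cast
    rw [add_smul, one_smul, smul_add]
    abel
  rw [h]
  exact (Near.one_add_flip d).smul (Complex.zero_le_real.mpr ht)

theorem w_num {N : ℕ} (hd : 3 ≤ d) (hN : 9 * N ≤ d) {t : ℝ} (ht : t = (d ^ 2 + 1) / d ^ 3) :
    0 ≤ t ∧ t < 1 ∧ 3 * (1 + t) ^ N ≤ 4 * (1 - t) ^ N ∧
      (2 * d - 3) / 4 * (1 + t) ≤ ((2 * d - 3) / 4 + 1) * (1 - t) ∧ d * (1 + t) ≤ (d + 4) * (1 - t) := by
  have hdr : (3 : ℝ) ≤ d := by exact_mod_cast hd
  have hNr : (9 : ℝ) * N ≤ d := by exact_mod_cast hN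
  have hd0 : (0 : ℝ) < d := by linarith only [hdr]
  have ht0 : 0 ≤ t := by rw [ht]; positivity
  have htd3 : t * (d : ℝ) ^ 3 = (d : ℝ) ^ 2 + 1 := by rw [ht]; field_simp
  have htd : t * d ≤ 10 / 9 := by
    rw [ht, div_mul_eq_mul_div, div_le_iff₀ (by positivity)]
    have h9 : (9 : ℝ) ≤ (d : ℝ) ^ 2 := by nlinarith only [hdr]
    nlinarith only [mul_nonneg hd0.le (sub_nonneg.mpr h9)]
  have ht1 : t * 3 ≤ t * d := mul_le_mul_of_nonneg_left hdr ht0
  have hmt : N * t ≤ 10 / 81 := by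
    have h1 : (N : ℝ) * t ≤ d / 9 * t := mul_le_mul_of_nonneg_right (by linarith only [hNr]) ht0
    linarith only [h1, htd]
  have h1 : 71 / 81 ≤ (1 - t) ^ N := by
    have h2 := one_add_mul_le_pow (a := -t) (by linarith only [ht1, htd]) N
    have h3 : (1 + -t) = 1 - t := by ring
    rw [h3] at h2
    linarith only [hmt, h2]
  obtain ⟨-, r1⟩ := real_num hd ht
  refine ⟨ht0, by linarith only [ht1, htd], ?_, ?_, ?_⟩
  · have h2 : (1 + t) ^ N * (1 - t) ^ N ≤ 1 := by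
      rw [← mul_pow]
      refine pow_le_one₀ (by nlinarith only [ht1, ht0, htd]) (by nlinarith only [ht0])
    have h3 : 0 ≤ (1 + t) ^ N := by positivity
    have h4 : (1 + t) ^ N * (71 / 81) ≤ 1 := (mul_le_mul_of_nonneg_left h1 h3).trans h2
    linarith only [h4, h1]
  · -- `(2 d - 3) / 4 * 2 t ≤ 1 - t`
    have h2 : (2 * d - 1) * t ≤ 2 := by
      have h3 : ((2 * d - 1) * t) * (d : ℝ) ^ 3 ≤ 2 * (d : ℝ) ^ 3 := by
        calc ((2 * d - 1) * t) * (d : ℝ) ^ 3 = (2 * d - 1) * (t * (d : ℝ) ^ 3) := by ring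
          _ = (2 * d - 1) * ((d : ℝ) ^ 2 + 1) := by rw [htd3]
          _ ≤ 2 * (d : ℝ) ^ 3 := by nlinarith only [sq_nonneg ((d : ℝ) - 1)]
      exact le_of_mul_le_mul_right h3 (by positivity)
    linarith only [h2]
  · linarith only [r1]

theorem werner_res (d : ℕ) (hd : 3 ≤ d) :
    ∃ ρ : Matrix (Fin d × Fin d) (Fin d × Fin d) ℂ, ρ.PosDef ∧ ρ.trace = 1 ∧ ¬ IsSep ρ ∧
      (∀ N, 9 * N ≤ d → NoKey ρ N (fun V => Split V ∨ RealBasis V ∨ Cond ((2 * d - 3) / 4) V)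
        (fun V => Split V ∨ RealBasis V ∨ Cond ((2 * d - 3) / 4) V)) ∧
      ∀ (k N : ℕ) (C : ℝ), 0 ≤ C → C * (1 + 4 / d) ^ k ≤ C + 1 → 3 * (1 + 4 / d : ℝ) ^ (k * N) ≤ 4 →
        NoKey (tpow k ρ) N (Cond C) (Cond C) := by
  obtain ⟨t, ht⟩ : ∃ t : ℝ, t = (d ^ 2 + 1) / d ^ 3 := ⟨_, rfl⟩
  obtain ⟨t0, t1, -, t3, t4⟩ := w_num (N := 0) hd (by omega) ht
  have hdr : (3 : ℝ) ≤ d := by exact_mod_cast hd
  have hd0 : (0 : ℝ) < d := by linarith only [hdr]
  have hD : 0 < (d : ℝ) ^ 2 - t * d := by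
    have h1 : t * d ≤ 1 * d := mul_le_mul_of_nonneg_right t1.le hd0.le
    nlinarith only [hdr, h1]
  have hq : 0 < ((d : ℝ) ^ 2 - t * d)⁻¹ := inv_pos.mpr hD
  have hlow := Near.werner_low (d := d) t0 hD
  have hhigh := Near.werner_high (d := d) t0 hD
  have hpd : (Near.werner d t).PosDef := by
    have h2 : (((((1 - t) * ((d : ℝ) ^ 2 - t * d)⁻¹ : ℝ)) : ℂ) •
        (1 : Matrix (Fin d × Fin d) (Fin d × Fin d) ℂ)).PosDef :=
      PosDef.one.smul (Complex.zero_lt_real.mpr (mul_pos (by linarith only [t1]) hq))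
    have h3 := h2.add_posSemidef hlow
    rwa [add_sub_cancel] at h3
  refine ⟨Near.werner d t, hpd, Near.werner_trace hD, Near.werner_not_sep hD ?_,
    fun N hN => ?_, fun k N C hC0 hC hN => ?_⟩
  · have : t * (d : ℝ) ^ 2 = d + 1 / d := by
      rw [ht]
      field_simp
    rw [this]
    have : (0 : ℝ) < 1 / d := by positivity
    linarith only [this]
  · obtain ⟨-, -, n1, -⟩ := w_num hd hN ht
    have hρ : (1 - (t : ℂ) • Near.flip d).PosSemidef := by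
      have := (w_low (d := d) t0).add ((PosSemidef.one (n := Fin d × Fin d) (R := ℂ)).smul
        (α := ℂ) (a := ((1 - t : ℝ) : ℂ)) (Complex.zero_le_real.mpr (sub_nonneg.mpr t1.le)))
      rwa [sub_add_cancel] at this
    have hC0 : (0 : ℝ) ≤ (2 * d - 3) / 4 := by linarith only [hdr]
    have hsw : swp (1 - (t : ℂ) • Near.flip d) = 1 - (t : ℂ) • Near.flip d := by
      ext p q
      simp only [swp, submatrix_apply, Matrix.sub_apply, Matrix.smul_apply, one_apply, Near.flip,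
        Prod.fst_swap, Prod.snd_swap, Prod.swap_inj]
      congr 3
      exact propext ⟨fun h => ⟨h.2, h.1⟩, fun h => ⟨h.2, h.1⟩⟩
    rw [Near.werner]
    refine noKey_of_good hq.le hρ N _ _ (fun V hV => ?_) (fun V hV => ?_) ?_
    · rcases hV with h | h | h
      · obtain ⟨V', a1, a2, a3, a4⟩ := Split.good hd ht h
        exact ⟨V', a1, a2, a3⟩
      · obtain ⟨V', a1, a2, a3, a4⟩ := RealBasis.good hd ht h
        exact ⟨V', a1, a2, a3⟩
      · exact Cond.good h (w_low t0) (w_high t0) (by linarith only [t0]) hC0 t3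
    · rcases hV with h | h | h
      · obtain ⟨V', a1, a2, a3, a4⟩ := Split.good hd ht h
        exact ⟨V', a1, a2, a4⟩
      · obtain ⟨V', a1, a2, a3, a4⟩ := RealBasis.good hd ht h
        exact ⟨V', a1, a2, a4⟩
      · obtain ⟨V', a1, a2, a3⟩ :=
          Cond.good h (w_low t0) (w_high t0) (by linarith only [t0]) hC0 t3
        exact ⟨V', a1, a2, Good.swp (by rwa [hsw])⟩
    · intro κ _ _ hκ X₀ X₁ Y₀ Y₁
      have hpos : (0 : ℝ) < 1 - t := by linarith only [t1]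
      obtain ⟨b1, b2⟩ := tf_bounds (ι := κ) hpos.le (w_low (d := d) t0) (w_high (d := d) t0)
      exact near_ratio (pow_pos hpos _) b1 b2
        (pow_ratio hpos (by linarith only [t0]) hκ n1) X₀ X₁ Y₀ Y₁
  · set a : ℝ := (1 - t) * ((d : ℝ) ^ 2 - t * d)⁻¹ with ha
    have ha0 : 0 < a := mul_pos (by linarith only [t1]) hq
    have hb : (1 + t) * ((d : ℝ) ^ 2 - t * d)⁻¹ ≤ (1 + 4 / d) * a := by
      have h1 : 1 + t ≤ (1 + 4 / d) * (1 - t) := by
        have h2 : (d : ℝ) * (1 + t) ≤ d * ((1 + 4 / d) * (1 - t)) := by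
          have : (d : ℝ) * ((1 + 4 / d) * (1 - t)) = (d + 4) * (1 - t) := by field_simp
          rw [this]
          exact t4
        exact le_of_mul_le_mul_left h2 hd0
      calc (1 + t) * ((d : ℝ) ^ 2 - t * d)⁻¹ ≤ (1 + 4 / d) * (1 - t) * ((d : ℝ) ^ 2 - t * d)⁻¹ :=
            mul_le_mul_of_nonneg_right h1 hq.le
        _ = _ := by rw [ha]; ring
    have hhigh' : ((((1 + 4 / d) * a : ℝ) : ℂ) • 1 - Near.werner d t).PosSemidef := by
      have h1 := hhigh.add ((PosSemidef.one (n := Fin d × Fin d) (R := ℂ)).smul (α := ℂ)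
        (a := (((1 + 4 / d) * a - (1 + t) * ((d : ℝ) ^ 2 - t * d)⁻¹ : ℝ) : ℂ))
        (Complex.zero_le_real.mpr (sub_nonneg.mpr hb)))
      rw [Complex.ofReal_sub ((1 + 4 / d) * a), sub_smul] at h1
      have e : (((1 + t) * ((d : ℝ) ^ 2 - t * d)⁻¹ : ℝ) : ℂ) •
          (1 : Matrix (Fin d × Fin d) (Fin d × Fin d) ℂ) - Near.werner d t +
          ((((1 + 4 / d) * a : ℝ) : ℂ) • 1 - (((1 + t) * ((d : ℝ) ^ 2 - t * d)⁻¹ : ℝ) : ℂ) • 1) =
          (((1 + 4 / d) * a : ℝ) : ℂ) • 1 - Near.werner d t := by abel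
      rwa [e] at h1
    have h4 : (0 : ℝ) ≤ 4 / d := by positivity
    refine ball_blocks ha0 ?_ hlow hhigh' k N hC0 ?_ ?_
    · have : 0 ≤ 4 / d * a := mul_nonneg h4 ha0.le
      linarith only [this]
    · rw [mul_pow]
      calc C * ((1 + 4 / d) ^ k * a ^ k) = (C * (1 + 4 / d) ^ k) * a ^ k := by ring
        _ ≤ (C + 1) * a ^ k := mul_le_mul_of_nonneg_right hC (pow_nonneg ha0.le k)
    · rw [mul_pow]
      calc 3 * ((1 + 4 / d) ^ (k * N) * a ^ (k * N)) = (3 * (1 + 4 / d) ^ (k * N)) * a ^ (k * N) := by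
            ring
        _ ≤ 4 * a ^ (k * N) := mul_le_mul_of_nonneg_right hN (pow_nonneg ha0.le _)

end werner

theorem empty_test {A B : Type} [Fintype A] [DecidableEq A] [Fintype B] [DecidableEq B]
    {ι : Type} [Fintype ι] [DecidableEq ι] [IsEmpty ι] (R : Matrix (A × B) (A × B) ℂ)
    (X₀ X₁ : Matrix (ι → A) (ι → A) ℂ) (Y₀ Y₁ : Matrix (ι → B) (ι → B) ℂ) :
    TT (tf fun _ : ι => R) X₀ X₁ Y₀ Y₁ := by
  have e : (fun _ : ι => R) = fun _ => (1 : Matrix (A × B) (A × B) ℂ) :=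
    funext fun i => isEmptyElim i
  rw [e]
  refine near_sites (t := 0) (by norm_num) ?_ ?_ ?_ ?_ X₀ X₁ Y₀ Y₁
  · simpa using PosSemidef.zero
  · simpa using PosSemidef.zero
  · simp only [Fintype.card_of_isEmpty, pow_zero]
    norm_num
  · simp only [Fintype.card_of_isEmpty, pow_zero]
    norm_num

theorem ppt_res : ∃ ρ : Matrix (Fin 4 × Fin 4) (Fin 4 × Fin 4) ℂ, ρ.PosDef ∧
    (pTrans ρ).PosDef ∧ ρ.trace = 1 ∧ ¬ IsSep ρ ∧ NoKey ρ 0 Split1 Split1 := by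
  have hc : (0 : ℝ) < 25 / 504 := by norm_num
  refine ⟨((25 / 504 : ℝ) : ℂ) • cq rq, rq_posDef.smul (Complex.zero_lt_real.mpr hc), ?_, ?_,
    rq_not_sep hc, ?_⟩
  · exact rq_pTrans.smul (Complex.zero_lt_real.mpr hc)
  · rw [trace_smul, rq_trace, smul_eq_mul, ← Complex.ofReal_mul]
    norm_num
  · refine noKey_of_good hc.le rq_posDef.posSemidef 0 _ _ (fun V hV => ?_) (fun V hV => ?_) ?_
    · obtain ⟨V', a1, a2, a3, a4⟩ := Split1.good hV
      exact ⟨V', a1, a2, a3⟩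
    · obtain ⟨V', a1, a2, a3, a4⟩ := Split1.good hV
      exact ⟨V', a1, a2, a4⟩
    · intro κ _ _ hκ X₀ X₁ Y₀ Y₁
      haveI : IsEmpty κ := Fintype.card_eq_zero_iff.mp (Nat.le_zero.mp hκ)
      exact empty_test (cq rq) X₀ X₁ Y₀ Y₁

end Vale.Agent.P372.PC
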