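import Vale.Agent.P372.R2.helper492.Sites

/-! The sites are split into those where the state is kept and those with pieces. -/

open Matrix Kronecker
open scoped ComplexOrder MatrixOrder

set_option linter.unusedSectionVars false

namespace Vale.Agent.P372.PC

open Vale.Agent.P372.Half (tf join)

variable {ι : Type} [Fintype ι] [DecidableEq ι]
variable {A B : Type} [Fintype A] [DecidableEq A] [Fintype B] [DecidableEq B]

/-- The index equivalence. -/
abbrev sp (pr : ι → Prop) [DecidablePred pr] (A : Type) :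
    (ι → A) ≃ ({i // pr i} → A) × ({i // ¬ pr i} → A) :=
  Equiv.piEquivPiSubtypeProd pr (fun _ => A)

theorem tf_split (pr : ι → Prop) [DecidablePred pr] (Z : ι → Matrix (A × B) (A × B) ℂ) :
    tf Z = (join (tf fun i : {i // pr i} => Z i) (tf fun i : {i // ¬ pr i} => Z i)).submatrix
      ((sp pr A).prodCongr (sp pr B)) ((sp pr A).prodCongr (sp pr B)) := by
  ext p q
  rw [tf_apply, ← Fintype.prod_subtype_mul_prod_subtype pr]
  rfl

theorem at1_split (pr : ι → Prop) [DecidablePred pr] (i : {i // ¬ pr i}) (v : Matrix A A ℂ) :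
    at1 i.1 v = ((1 : Matrix ({i // pr i} → A) ({i // pr i} → A) ℂ) ⊗ₖ at1 i v).submatrix
      (sp pr A) (sp pr A) := by
  ext p q
  have h1 : (at1 i.1 v) p q = (∏ j : {j // pr j}, (if (j : ι) = i.1 then v else 1) (p j) (q j)) *
      ∏ j : {j // ¬ pr j}, (if (j : ι) = i.1 then v else 1) (p j) (q j) :=
    (Fintype.prod_subtype_mul_prod_subtype pr
      (fun j => (if j = i.1 then v else 1) (p j) (q j))).symm
  rw [h1, submatrix_apply, kroneckerMap_apply]
  congr 1
  · rw [← piT_one]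
    refine Finset.prod_congr rfl fun j _ => ?_
    have : ¬ (j : ι) = i.1 := fun h => i.2 (h ▸ j.2)
    rw [if_neg this]
    rfl
  · refine Finset.prod_congr rfl fun j _ => ?_
    change _ = (if j = i then v else 1 : Matrix A A ℂ) (p j) (q j)
    by_cases h : j = i
    · subst h
      rw [if_pos rfl, if_pos rfl]
    · have : ¬ (j : ι) = i.1 := fun h' => h (Subtype.ext h')
      rw [if_neg this, if_neg h]

theorem comm_block {C D : Type} [Fintype C] [DecidableEq C] [Fintype D] [DecidableEq D]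
    {V : Matrix D D ℂ} {P : Matrix (C × D) (C × D) ℂ}
    (h : ((1 : Matrix C C ℂ) ⊗ₖ V) * P = P * ((1 : Matrix C C ℂ) ⊗ₖ V)) (a a' : C) :
    V * P.submatrix (Prod.mk a) (Prod.mk a') = P.submatrix (Prod.mk a) (Prod.mk a') * V := by
  ext x x'
  have h1 := congrFun (congrFun h (a, x)) (a', x')
  rw [Matrix.mul_apply, Matrix.mul_apply, Fintype.sum_prod_type, Fintype.sum_prod_type,
    Finset.sum_eq_single a, Finset.sum_eq_single a'] at h1
  · rw [Matrix.mul_apply, Matrix.mul_apply]
    simpa only [kroneckerMap_apply, one_apply_eq, one_mul, submatrix_apply] using h1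
  · intro c _ hc
    refine Finset.sum_eq_zero fun y _ => ?_
    rw [kroneckerMap_apply, one_apply_ne hc, zero_mul, mul_zero]
  · intro hc
    exact absurd (Finset.mem_univ _) hc
  · intro c _ hc
    refine Finset.sum_eq_zero fun y _ => ?_
    rw [kroneckerMap_apply, one_apply_ne (Ne.symm hc), zero_mul, zero_mul]
  · intro hc
    exact absurd (Finset.mem_univ _) hc

theorem comm_split (pr : ι → Prop) [DecidablePred pr] (i : {i // ¬ pr i}) {v : Matrix A A ℂ}
    {X : Matrix (ι → A) (ι → A) ℂ} (h : at1 i.1 v * (Xᴴ * X) = Xᴴ * X * at1 i.1 v)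
    (a a' : {i // pr i} → A) :
    at1 i v * ((X.submatrix (sp pr A).symm (sp pr A).symm)ᴴ *
      X.submatrix (sp pr A).symm (sp pr A).symm).submatrix (Prod.mk a) (Prod.mk a') =
    ((X.submatrix (sp pr A).symm (sp pr A).symm)ᴴ *
      X.submatrix (sp pr A).symm (sp pr A).symm).submatrix (Prod.mk a) (Prod.mk a') *
        at1 i v := by
  refine comm_block ?_ a a'
  rw [conjTranspose_submatrix, submatrix_mul_equiv]
  have h2 : (1 : Matrix ({i // pr i} → A) ({i // pr i} → A) ℂ) ⊗ₖ at1 i v =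
      (at1 i.1 v).submatrix (sp pr A).symm (sp pr A).symm := by
    rw [at1_split pr i v, submatrix_submatrix]
    simp
  rw [h2, submatrix_mul_equiv, submatrix_mul_equiv, h]

theorem base (pr : ι → Prop) [DecidablePred pr] (Z : ι → Matrix (A × B) (A × B) ℂ)
    (v : ι → Matrix A A ℂ) (w : ι → Matrix B B ℂ)
    (hv : ∀ i, ¬ pr i → v i * v i = 1 ∧ (v i)ᴴ = v i)
    (hw : ∀ i, ¬ pr i → w i * w i = 1 ∧ (w i)ᴴ = w i)
    (hZ : ∀ i, ¬ pr i → Piece (v i) (w i) (Z i))
    (X : Bool → Matrix (ι → A) (ι → A) ℂ) (Y : Bool → Matrix (ι → B) (ι → B) ℂ)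
    (hX : ∀ k i, ¬ pr i → at1 i (v i) * ((X k)ᴴ * X k) = (X k)ᴴ * X k * at1 i (v i))
    (hY : ∀ k i, ¬ pr i → at1 i (w i) * ((Y k)ᴴ * Y k) = (Y k)ᴴ * Y k * at1 i (w i))
    (hR : ∀ X₀ X₁ Y₀ Y₁, TT (tf fun i : {i // pr i} => Z i) X₀ X₁ Y₀ Y₁) :
    TT (tf Z) (X false) (X true) (Y false) (Y true) := by
  rw [tf_split pr]
  refine TT_submatrix _ _ _ _ _ _ _ ?_
  choose hZ1 α β hα hβ hαβ using hZ
  have hZ1' : ∀ i : {i // ¬ pr i}, (Z i).PosSemidef := fun i => hZ1 i.1 i.2
  refine join_gen (tf fun i : {i // pr i} => Z i) (tf fun i : {i // ¬ pr i} => Z i)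
    (tf_posSemidef hZ1')
    (fun k => (X k).submatrix (sp pr A).symm (sp pr A).symm)
    (fun k => (Y k).submatrix (sp pr B).symm (sp pr B).symm)
    (fun k => Half.pt ((X k).submatrix (sp pr A).symm (sp pr A).symm)
      (piT fun i : {i // ¬ pr i} => α i.1 i.2))
    (fun k => Half.pt ((Y k).submatrix (sp pr B).symm (sp pr B).symm)
      (piT fun i : {i // ¬ pr i} => β i.1 i.2))
    (fun k => Half.pt_posSemidef _ (piT_posSemidef fun i => hα i.1 i.2))
    (fun k => Half.pt_posSemidef _ (piT_posSemidef fun i => hβ i.1 i.2)) ?_ hR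
  intro k l a a' b b'
  have h1 := trace_pieces
    (p := (((X k).submatrix (sp pr A).symm (sp pr A).symm)ᴴ *
      (X k).submatrix (sp pr A).symm (sp pr A).symm).submatrix (Prod.mk a) (Prod.mk a'))
    (q := (((Y l).submatrix (sp pr B).symm (sp pr B).symm)ᴴ *
      (Y l).submatrix (sp pr B).symm (sp pr B).symm).submatrix (Prod.mk b) (Prod.mk b'))
    (v := fun i : {i // ¬ pr i} => v i) (w := fun i : {i // ¬ pr i} => w i)
    (fun i => hv i.1 i.2) (fun i => hw i.1 i.2) (fun i => comm_split pr i (hX k i.1 i.2) a a')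
    (fun i => comm_split pr i (hY l i.1 i.2) b b') (Z := fun i : {i // ¬ pr i} => Z i)
    (α := fun i => α i.1 i.2) (β := fun i => β i.1 i.2) (fun i => hαβ i.1 i.2)
  have e1 : ∀ {E F : Type} [Fintype E] [DecidableEq E] [Fintype F] [DecidableEq F]
      (M : Matrix (F × E) (F × E) ℂ) (a a' : F) (z : Matrix E E ℂ),
      (M.submatrix (Prod.mk a) (Prod.mk a') * z).trace = ∑ x, ∑ x', M (a, x) (a', x') * z x' x := by
    intro E F _ _ _ _ M a a' z
    simp only [Matrix.trace, Matrix.diag, Matrix.mul_apply, submatrix_apply]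
  have e2 : ∀ {C D : Type} [Fintype C] [DecidableEq C] [Fintype D] [DecidableEq D]
      (p : Matrix C C ℂ) (q : Matrix D D ℂ) (S : Matrix (C × D) (C × D) ℂ),
      ((p ⊗ₖ q) * S).trace = ∑ x, ∑ x', ∑ y, ∑ y', p x x' * q y y' * S (x', y') (x, y) := by
    intro C D _ _ _ _ p q S
    simp only [Matrix.trace, Matrix.diag, Matrix.mul_apply, Fintype.sum_prod_type,
      kroneckerMap_apply]
    exact Finset.sum_congr rfl fun x _ => Finset.sum_comm
  rw [e2, e1, e1] at h1
  exact h1

end Vale.Agent.P372.PC
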